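import Vale.Agent.P032.Plane.Motion

/-!
P032: what happens on the unit circle about a point of several closed classes.
-/

namespace Vale.Agent.P032

open Set Filter Topology Metric Complex ComplexConjugate

namespace Cover

variable (C : Cover)

/-- The tangent direction of an arc of a class is free of the class near the centre. -/
lemma arc_excludes {c : Fin 5} {h b : ℂ} (hb : ‖b‖ = 1) {t₀ : ℝ}
    (hK : ∀ᶠ t in 𝓝 t₀, orbit h b t ∈ C.K c) :
    ∀ᶠ s : ℝ in 𝓝[≠] 0, h + s * (I * b * exp ((t₀ : ℂ) * I)) ∉ C.K c := by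
  obtain ⟨r, hr, hball⟩ := Metric.eventually_nhds_iff.1 hK
  set η := min (r / 2) 1 with hη
  have hη0 : 0 < η := lt_min (by linarith) one_pos
  have hηr : η < r := (min_le_left _ _).trans_lt (by linarith)
  have hsin : 0 < Real.sin η := Real.sin_pos_of_pos_of_lt_pi hη0
    ((min_le_right _ _).trans_lt (by linarith [Real.pi_gt_three]))
  set u : ℂ := b * exp ((t₀ : ℂ) * I) with hu
  have hu1 : u.re * u.re + u.im * u.im = 1 := by
    rw [← Complex.normSq_apply, Complex.normSq_eq_norm_sq, hu]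
    simp [hb, norm_exp_ofReal_mul_I]
  have dsq : ∀ e s : ℝ, dist (orbit h b (t₀ + e)) (h + s * (I * b * exp ((t₀ : ℂ) * I))) ^ 2 =
      1 + s ^ 2 - 2 * s * Real.sin e := by
    intro e s
    have e1 : orbit h b (t₀ + e) - (h + s * (I * b * exp ((t₀ : ℂ) * I))) =
        u * (exp ((e : ℂ) * I) - s * I) := by
      rw [orbit, hu]; push_cast; rw [add_mul, Complex.exp_add]; ring
    rw [dist_eq_norm, e1, norm_mul, mul_pow, ← Complex.normSq_eq_norm_sq,
      ← Complex.normSq_eq_norm_sq, Complex.normSq_apply u, hu1, one_mul, Complex.normSq_apply]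
    simp [Complex.exp_ofReal_mul_I_re, Complex.exp_ofReal_mul_I_im]
    nlinarith [Real.sin_sq_add_cos_sq e]
  have hsmall : ∀ᶠ s : ℝ in 𝓝 0, |s| < Real.sin η := by
    simpa using (continuous_abs.tendsto (0 : ℝ)).eventually (eventually_lt_nhds (by simpa using hsin))
  filter_upwards [self_mem_nhdsWithin, nhdsWithin_le_nhds hsmall] with s hs0 hs hmem
  have hs0' : s ≠ 0 := hs0
  have hsub : orbit h b '' Icc (t₀ - η) (t₀ + η) ⊆ C.K c := by
    rintro _ ⟨t, ht, rfl⟩
    exact hball (by rw [Real.dist_eq, abs_lt]; constructor <;> linarith [ht.1, ht.2])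
  have hp : IsPreconnected (orbit h b '' Icc (t₀ - η) (t₀ + η)) :=
    isPreconnected_Icc.image _ (continuous_orbit h b).continuousOn
  have m1 : orbit h b (t₀ + η) ∈ orbit h b '' Icc (t₀ - η) (t₀ + η) :=
    ⟨_, ⟨by linarith, le_rfl⟩, rfl⟩
  have m2 : orbit h b (t₀ + -η) ∈ orbit h b '' Icc (t₀ - η) (t₀ + η) :=
    ⟨_, ⟨by linarith, by linarith⟩, rfl⟩
  have p1 := dsq η s
  have p2 := dsq (-η) s
  rw [Real.sin_neg] at p2
  rcases lt_or_gt_of_ne hs0' with hneg | hpos
  · rw [abs_of_neg hneg] at hs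
    exact C.cross hp hsub hmem m2 m1 (dist_lt_one_of_sq (by nlinarith))
      (one_lt_dist_of_sq (by nlinarith))
  · rw [abs_of_pos hpos] at hs
    exact C.cross hp hsub hmem m1 m2 (dist_lt_one_of_sq (by nlinarith))
      (one_lt_dist_of_sq (by nlinarith))

/-- The classes on an antipodal pair of arcs leave room for two classes at the centre. -/
lemma false_of_excluded {h b : ℂ} (hb : ‖b‖ = 1) {x : Fin 5} (hU : h ∉ C.U x) {t₀ : ℝ}
    (hother : ∀ c, c ≠ x → h ∉ C.K c ∨ (∀ᶠ t in 𝓝 t₀, orbit h b t ∈ C.K c) ∨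
      ∀ᶠ t in 𝓝 t₀, orbit h (-b) t ∈ C.K c) : False := by
  have near : ∀ᶠ t₁ in 𝓝 t₀, ∀ c, c ≠ x → h ∉ C.K c ∨
      (∀ᶠ t in 𝓝 t₁, orbit h b t ∈ C.K c) ∨ ∀ᶠ t in 𝓝 t₁, orbit h (-b) t ∈ C.K c := by
    refine eventually_all.2 fun c => ?_
    by_cases hc : c = x
    · exact Eventually.of_forall fun _ hne => absurd hc hne
    rcases hother c hc with h1 | h1 | h1
    · exact Eventually.of_forall fun _ _ => Or.inl h1
    · exact h1.eventually_nhds.mono fun _ ht _ => Or.inr (Or.inl ht)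
    · exact h1.eventually_nhds.mono fun _ ht _ => Or.inr (Or.inr ht)
  have seg : ∀ t₁, (∀ c, c ≠ x → h ∉ C.K c ∨ (∀ᶠ t in 𝓝 t₁, orbit h b t ∈ C.K c) ∨
      ∀ᶠ t in 𝓝 t₁, orbit h (-b) t ∈ C.K c) →
      ∀ᶠ s : ℝ in 𝓝 0, h + s * (I * b * exp ((t₁ : ℂ) * I)) ∈ C.K x := by
    intro t₁ ht₁
    set v : ℂ := I * b * exp ((t₁ : ℂ) * I) with hv
    have hcont : Continuous fun s : ℝ => h + s * v := by fun_prop
    have h2 : ∀ᶠ s : ℝ in 𝓝[≠] 0, ∀ c, c ≠ x → h + s * v ∉ C.K c := by
      refine eventually_all.2 fun c => ?_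
      by_cases hc : c = x
      · exact Eventually.of_forall fun _ hne => absurd hc hne
      rcases ht₁ c hc with h1 | h1 | h1
      · have : ∀ᶠ s : ℝ in 𝓝 0, h + s * v ∉ C.K c :=
          (hcont.tendsto 0).eventually (by simpa using C.eventually_notMem h1)
        exact Eventually.mono (this.filter_mono nhdsWithin_le_nhds) fun _ hs _ => hs
      · exact (C.arc_excludes hb h1).mono fun _ hs _ => hs
      · have h3 := C.arc_excludes (by rwa [norm_neg]) h1
        have hn : Tendsto (fun s : ℝ => -s) (𝓝[≠] 0) (𝓝[≠] 0) := by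
          refine tendsto_nhdsWithin_iff.2 ⟨?_, ?_⟩
          · simpa using (continuous_neg.tendsto (0 : ℝ)).mono_left nhdsWithin_le_nhds
          · filter_upwards [self_mem_nhdsWithin] with s hs
            simpa using hs
        refine (hn.eventually h3).mono fun s hs _ => ?_
        convert hs using 2
        rw [hv]; push_cast; ring
    have h4 : ∀ᶠ s : ℝ in 𝓝[≠] 0, h + s * v ∈ C.K x := h2.mono fun s hs => by
      obtain ⟨j, hj⟩ := C.exists_mem_K (h + s * v)
      by_cases hjx : j = x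
      · exact hjx ▸ hj
      · exact absurd hj (hs j hjx)
    have h5 : h ∈ C.K x := (C.isClosed_K x).mem_of_tendsto
      (by simpa using (hcont.tendsto 0).mono_left (nhdsWithin_le_nhds (s := {(0 : ℝ)}ᶜ))) h4
    rw [← nhdsNE_sup_pure, eventually_sup]
    exact ⟨h4, by simpa using h5⟩
  obtain ⟨y, hy, hhy⟩ : ∃ y ∈ C.K x, dist h y = 1 := by
    by_contra hne
    push Not at hne
    exact hU (C.maximal x h hne)
  have zero : ∀ t₁, (∀ c, c ≠ x → h ∉ C.K c ∨ (∀ᶠ t in 𝓝 t₁, orbit h b t ∈ C.K c) ∨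
      ∀ᶠ t in 𝓝 t₁, orbit h (-b) t ∈ C.K c) →
      (b * exp ((t₁ : ℂ) * I) * conj (h - y)).im = 0 := by
    intro t₁ ht₁
    by_contra hne
    set v : ℂ := I * b * exp ((t₁ : ℂ) * I) with hv
    have hd : HasDerivAt (fun s : ℝ => h + s * v) v 0 := by
      simpa using (((hasDerivAt_id (0 : ℝ)).ofReal_comp.mul_const v).const_add h)
    refine C.cross_arc (γ := fun s : ℝ => h + s * v) (by fun_prop) (hasDerivAt_dist_sq hd)
      ?_ (by simpa using hhy) (seg t₁ ht₁) hy
    intro h0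
    refine hne ?_
    have : (v * conj (h - y)).re = 0 := by simpa using h0
    rw [hv, show I * b * exp ((t₁ : ℂ) * I) * conj (h - y) =
      I * (b * exp ((t₁ : ℂ) * I) * conj (h - y)) by ring, Complex.I_mul_re] at this
    linarith
  obtain ⟨r, hr, hball⟩ := Metric.eventually_nhds_iff.1 near
  set η := min (r / 2) 1 with hη
  have hη0 : 0 < η := lt_min (by linarith) one_pos
  have hηr : η < r := (min_le_left _ _).trans_lt (by linarith)
  have hsin : 0 < Real.sin η := Real.sin_pos_of_pos_of_lt_pi hη0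
    ((min_le_right _ _).trans_lt (by linarith [Real.pi_gt_three]))
  have z0 := zero t₀ (hball (by simpa using hr))
  have z1 := zero (t₀ + η) (hball (by simpa [abs_of_pos hη0] using hηr))
  set q : ℂ := b * exp ((t₀ : ℂ) * I) * conj (h - y) with hq
  have e : b * exp (((t₀ + η : ℝ) : ℂ) * I) * conj (h - y) = q * exp ((η : ℂ) * I) := by
    rw [hq]; push_cast; rw [add_mul, Complex.exp_add]; ring
  rw [e, Complex.mul_im, z0, zero_mul, add_zero, Complex.exp_ofReal_mul_I_im] at z1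
  have hre : q.re = 0 := (mul_eq_zero.1 z1).resolve_right hsin.ne'
  have : ‖q‖ = 1 := by
    simp [hq, hb, norm_exp_ofReal_mul_I, ← dist_eq_norm, hhy]
  rw [show q = 0 from Complex.ext hre z0] at this
  simp at this

/-- The sixth root of unity used for rotations. -/
noncomputable def sixth : ℂ := ⟨1 / 2, Real.sqrt 3 / 2⟩

lemma norm_sixth : ‖sixth‖ = 1 := by
  rw [Complex.norm_def, sixth, Complex.normSq_mk]
  norm_num [div_mul_div_comm, Real.mul_self_sqrt]

lemma norm_one_sub_sixth : ‖1 - sixth‖ = 1 := by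
  rw [Complex.norm_def, Complex.normSq_apply, sixth]
  norm_num [div_mul_div_comm, Real.mul_self_sqrt]

/-- The circle about a point of exactly three classes outside the open ones. -/
lemma circle_cover {h : ℂ} (hh : ¬ C.Inside h) {d e : Fin 5} (hde : d ≠ e)
    (hM : ∀ c, h ∈ C.K c ↔ c ≠ d ∧ c ≠ e) {b : ℂ} (hb : ‖b‖ = 1) (t : ℝ) :
    orbit h b t ∈ C.K d ∨ orbit h b t ∈ C.K e := by
  by_contra hne
  push Not at hne
  obtain ⟨r, hr, hball⟩ := Metric.eventually_nhds_iff.1
    (((continuous_orbit h b).tendsto t).eventually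
      ((C.eventually_notMem hne.1).and (C.eventually_notMem hne.2)))
  obtain ⟨t', ht', hst⟩ := exists_stable (fun c : Fin 5 => orbit h b ⁻¹' C.K c)
    (fun c => (C.isClosed_K c).preimage (continuous_orbit h b)) isOpen_ball ⟨t, mem_ball_self hr⟩
  have hw : ¬ C.Inside (orbit h b t') := by
    rintro ⟨c, hc⟩
    have hck : h ∉ C.K c := fun hm => C.dist_ne_one hc hm (by rw [dist_orbit_centre, hb])
    rw [hM] at hck
    rcases not_and_or.1 hck with hc' | hc' <;> push Not at hc' <;> subst hc'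
    · exact (hball ht').1 (C.subset_K _ hc)
    · exact (hball ht').2 (C.subset_K _ hc)
  obtain ⟨a, ha⟩ := C.exists_mem_K (orbit h b t')
  obtain ⟨a', haa', ha'⟩ := C.exists_other hw a
  have ad : a ≠ d := fun hc => (hball ht').1 (hc ▸ ha)
  have ae : a ≠ e := fun hc => (hball ht').2 (hc ▸ ha)
  have ad' : a' ≠ d := fun hc => (hball ht').1 (hc ▸ ha')
  have ae' : a' ≠ e := fun hc => (hball ht').2 (hc ▸ ha')
  obtain ⟨x, hx⟩ : ∃ x, ∀ c : Fin 5, c ≠ x → c = d ∨ c = e ∨ c = a ∨ c = a' := by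
    revert hde haa' ad ae ad' ae'; clear * - ; revert d e a a'; decide
  refine C.false_of_excluded hb (fun hc => hh ⟨x, hc⟩) (t₀ := t') fun c hc => ?_
  rcases hx c hc with rfl | rfl | rfl | rfl
  · exact Or.inl fun hm => ((hM _).1 hm).1 rfl
  · exact Or.inl fun hm => ((hM _).1 hm).2 rfl
  · exact Or.inr (Or.inl ((hst c).mono fun s hs => hs.2 ha))
  · exact Or.inr (Or.inl ((hst c).mono fun s hs => hs.2 ha'))

/-- No arc of that circle lies in both other classes. -/
lemma circle_not_both {h : ℂ} (hh : ¬ C.Inside h) {d e : Fin 5} (hde : d ≠ e)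
    (hM : ∀ c, h ∈ C.K c ↔ c ≠ d ∧ c ≠ e) {b : ℂ} (hb : ‖b‖ = 1) {t : ℝ}
    (hd : ∀ᶠ s in 𝓝 t, orbit h b s ∈ C.K d) (he : ∀ᶠ s in 𝓝 t, orbit h b s ∈ C.K e) : False := by
  have hb' : ‖b * sixth‖ = 1 := by rw [norm_mul, hb, norm_sixth, one_mul]
  set u : ℂ := b * exp ((t : ℂ) * I) with hu
  have hu1 : ‖u‖ = 1 := by rw [hu, norm_mul, hb, norm_exp_ofReal_mul_I, one_mul]
  have e1 : orbit h b t - orbit h (b * sixth) t = u * (1 - sixth) := by rw [hu, orbit, orbit]; ring
  have hd1 : dist (orbit h b t) (orbit h (b * sixth) t) = 1 := by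
    rw [dist_eq_norm, e1, norm_mul, hu1, norm_one_sub_sixth, one_mul]
  have hne : 2 * (I * b * exp ((t : ℂ) * I) * conj (orbit h b t - orbit h (b * sixth) t)).re ≠ 0 := by
    have : I * b * exp ((t : ℂ) * I) * conj (orbit h b t - orbit h (b * sixth) t) =
        I * ((u * conj u) * conj (1 - sixth)) := by rw [e1, map_mul, hu]; ring
    rw [this, Complex.mul_conj, Complex.normSq_eq_norm_sq, hu1]
    simp [sixth]
  rcases C.circle_cover hh hde hM hb' t with hw | hw
  · exact C.cross_arc (continuous_orbit h b) (hasDerivAt_dist_sq (hasDerivAt_orbit h b t)) hne hd1 hd hw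
  · exact C.cross_arc (continuous_orbit h b) (hasDerivAt_dist_sq (hasDerivAt_orbit h b t)) hne hd1 he hw

end Cover

end Vale.Agent.P032
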