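import Mathlib

/-!
P032: a zero in a rectangle under sign conditions on the sides, and two consequences for closed
covers of the plane.
-/

namespace Vale.Agent.P032

open Set Filter Topology Complex

lemma stays {θ : ℝ → ℝ} {a b lo hi : ℝ} (hab : a ≤ b) (hc : ContinuousOn θ (Icc a b))
    (hlo : ∀ t ∈ Icc a b, θ t ≠ lo) (hhi : ∀ t ∈ Icc a b, θ t ≠ hi)
    (h : lo < θ a ∧ θ a < hi) : lo < θ b ∧ θ b < hi := by
  constructor
  · by_contra hh
    obtain ⟨t, ht, e⟩ := intermediate_value_Icc' hab hc ⟨not_lt.1 hh, h.1.le⟩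
    exact hlo t ht e
  · by_contra hh
    obtain ⟨t, ht, e⟩ := intermediate_value_Icc hab hc ⟨h.2.le, not_lt.1 hh⟩
    exact hhi t ht e

/-- Two continuous functions with opposite signs on opposite sides of a rectangle have a common
zero in it. -/
theorem exists_zero_rect {a b c d : ℝ} (hab : a ≤ b) (hcd : c ≤ d) (f g : ℝ → ℝ → ℝ)
    (hf : Continuous fun p : ℝ × ℝ => f p.1 p.2) (hg : Continuous fun p : ℝ × ℝ => g p.1 p.2)
    (hl : ∀ y ∈ Icc c d, f a y < 0) (hr : ∀ y ∈ Icc c d, 0 < f b y)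
    (hb : ∀ x ∈ Icc a b, g x c < 0) (ht : ∀ x ∈ Icc a b, 0 < g x d) :
    ∃ x ∈ Icc a b, ∃ y ∈ Icc c d, f x y = 0 ∧ g x y = 0 := by
  by_contra hne
  push Not at hne
  let px : ℂ → ℝ := fun z => max a (min z.re b)
  let py : ℂ → ℝ := fun z => max c (min z.im d)
  let F : C(ℂ, ℂ) := ⟨fun z => f (px z) (py z) + g (px z) (py z) * I, by
    have h1 : Continuous fun z : ℂ => (px z, py z) := by fun_prop
    exact ((continuous_ofReal.comp (hf.comp h1)).add
      ((continuous_ofReal.comp (hg.comp h1)).mul continuous_const))⟩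
  have hF : ∀ z, F z ≠ 0 := by
    intro z hz
    have hx : px z ∈ Icc a b := ⟨le_max_left _ _, max_le hab (min_le_right _ _)⟩
    have hy : py z ∈ Icc c d := ⟨le_max_left _ _, max_le hcd (min_le_right _ _)⟩
    have h0 : (F z).re = 0 ∧ (F z).im = 0 := by rw [hz]; simp
    exact hne _ hx _ hy (by simpa [F] using h0.1) (by simpa [F] using h0.2)
  obtain ⟨Φ, ⟨-, hΦ⟩, -⟩ := isCoveringMapOn_exp.existsUnique_continuousMap_lifts F
    (a₀ := 0) (e₀ := log (F 0)) (exp_log (hF 0)) (fun z => hF z)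
  have key : ∀ x ∈ Icc a b, ∀ y ∈ Icc c d,
      f x y = Real.exp (Φ ⟨x, y⟩).re * Real.cos (Φ ⟨x, y⟩).im ∧
        g x y = Real.exp (Φ ⟨x, y⟩).re * Real.sin (Φ ⟨x, y⟩).im := by
    intro x hx y hy
    have e := congrFun hΦ (⟨x, y⟩ : ℂ)
    have ex : px ⟨x, y⟩ = x := by simp [px, hx.1, hx.2]
    have ey : py ⟨x, y⟩ = y := by simp [py, hy.1, hy.2]
    have e' : cexp (Φ ⟨x, y⟩) = f x y + g x y * I := by simpa [F, ex, ey] using e
    constructor
    · simpa [exp_re] using (congrArg Complex.re e').symm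
    · simpa [exp_im] using (congrArg Complex.im e').symm
  set θ : ℝ → ℝ → ℝ := fun x y => (Φ ⟨x, y⟩).im with hθ
  have hcx : ∀ y, Continuous fun x => θ x y := fun y => by
    have : Continuous fun x : ℝ => (x : ℂ) + y * I := by fun_prop
    simpa [hθ, Complex.mk_eq_add_mul_I, Function.comp_def] using Complex.continuous_im.comp (Φ.continuous.comp this)
  have hcy : ∀ x, Continuous fun y => θ x y := fun x => by
    have : Continuous fun y : ℝ => (x : ℂ) + y * I := by fun_prop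
    simpa [hθ, Complex.mk_eq_add_mul_I, Function.comp_def] using Complex.continuous_im.comp (Φ.continuous.comp this)
  have cosl : ∀ y ∈ Icc c d, Real.cos (θ a y) < 0 := fun y hy => by
    have := hl y hy
    rw [(key a ⟨le_rfl, hab⟩ y hy).1] at this
    exact neg_of_mul_neg_right this (Real.exp_pos _).le
  have cosr : ∀ y ∈ Icc c d, 0 < Real.cos (θ b y) := fun y hy => by
    have := hr y hy
    rw [(key b ⟨hab, le_rfl⟩ y hy).1] at this
    exact pos_of_mul_pos_right this (Real.exp_pos _).le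
  have sinb : ∀ x ∈ Icc a b, Real.sin (θ x c) < 0 := fun x hx => by
    have := hb x hx
    rw [(key x hx c ⟨le_rfl, hcd⟩).2] at this
    exact neg_of_mul_neg_right this (Real.exp_pos _).le
  have sint : ∀ x ∈ Icc a b, 0 < Real.sin (θ x d) := fun x hx => by
    have := ht x hx
    rw [(key x hx d ⟨hcd, le_rfl⟩).2] at this
    exact pos_of_mul_pos_right this (Real.exp_pos _).le
  have hpi := Real.pi_pos
  obtain ⟨k, hk1, hk2⟩ : ∃ k : ℤ, 2 * k * Real.pi + Real.pi < θ a c ∧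
      θ a c < 2 * k * Real.pi + 2 * Real.pi := by
    obtain ⟨k, hk⟩ : ∃ k : ℤ, 2 * k * Real.pi ≤ θ a c ∧ θ a c < 2 * k * Real.pi + 2 * Real.pi := by
      refine ⟨⌊θ a c / (2 * Real.pi)⌋, ?_, ?_⟩
      · have := Int.floor_le (θ a c / (2 * Real.pi))
        rw [le_div_iff₀ (by positivity)] at this; linarith
      · have := Int.lt_floor_add_one (θ a c / (2 * Real.pi))
        rw [div_lt_iff₀ (by positivity)] at this; linarith
    refine ⟨k, ?_, hk.2⟩
    by_contra hh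
    have h0 := Real.sin_nonneg_of_nonneg_of_le_pi (x := θ a c - k * (2 * Real.pi))
      (by linarith [hk.1]) (by linarith [not_lt.1 hh])
    rw [Real.sin_sub_int_mul_two_pi] at h0
    linarith [sinb a ⟨le_rfl, hab⟩]
  have sin0 : ∀ {t : ℝ} (m : ℤ), t = m * Real.pi → Real.sin t = 0 := fun m h => h ▸ Real.sin_int_mul_pi m
  have cos0 : ∀ {t : ℝ} (m : ℤ), t = Real.pi / 2 + m * Real.pi → Real.cos t = 0 := fun m h => by
    rw [h, Real.cos_add, Real.cos_pi_div_two, Real.sin_int_mul_pi]; ring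
  have a1 : θ a c < 2 * k * Real.pi + 3 * Real.pi / 2 := by
    by_contra hh
    have h0 := Real.cos_nonneg_of_mem_Icc (x := θ a c - (k + 1 : ℤ) * (2 * Real.pi))
      ⟨by push_cast; linarith [not_lt.1 hh], by push_cast; linarith⟩
    rw [Real.cos_sub_int_mul_two_pi] at h0
    linarith [cosl c ⟨le_rfl, hcd⟩]
  obtain ⟨b1, b2⟩ := stays hab (hcx c).continuousOn
    (fun x hx e => (sinb x hx).ne (sin0 (2 * k + 1) (by rw [e]; push_cast; ring)))
    (fun x hx e => (sinb x hx).ne (sin0 (2 * k + 2) (by rw [e]; push_cast; ring))) ⟨hk1, hk2⟩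
  have b1' : 2 * k * Real.pi + 3 * Real.pi / 2 < θ b c := by
    by_contra hh
    have h0 := Real.cos_nonpos_of_pi_div_two_le_of_le (x := θ b c - k * (2 * Real.pi))
      (by linarith) (by linarith [not_lt.1 hh])
    rw [Real.cos_sub_int_mul_two_pi] at h0
    linarith [cosr c ⟨le_rfl, hcd⟩]
  obtain ⟨c1, c2⟩ := stays hcd (hcy b).continuousOn
    (fun y hy e => (cosr y hy).ne' (cos0 (2 * k + 1) (by rw [e]; push_cast; ring)))
    (fun y hy e => (cosr y hy).ne' (cos0 (2 * k + 2) (by rw [e]; push_cast; ring)))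
    (show 2 * k * Real.pi + 3 * Real.pi / 2 < θ b c ∧ θ b c < 2 * k * Real.pi + 5 * Real.pi / 2 from
      ⟨b1', by linarith⟩)
  have c1' : 2 * k * Real.pi + 2 * Real.pi < θ b d := by
    by_contra hh
    have h0 := Real.sin_nonneg_of_nonneg_of_le_pi (x := (k + 1 : ℤ) * (2 * Real.pi) - θ b d)
      (by push_cast; linarith [not_lt.1 hh]) (by push_cast; linarith)
    rw [Real.sin_int_mul_two_pi_sub] at h0
    linarith [sint b ⟨hab, le_rfl⟩]
  have d0 := stays (θ := fun x => -θ (-x) d) (a := -b) (b := -a) (by linarith)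
    (((hcx d).comp continuous_neg).neg.continuousOn)
    (fun x hx e => (sint (-x) ⟨by linarith [hx.2], by linarith [hx.1]⟩).ne'
      (sin0 (2 * k + 3) (by push_cast; linarith)))
    (fun x hx e => (sint (-x) ⟨by linarith [hx.2], by linarith [hx.1]⟩).ne'
      (sin0 (2 * k + 2) (by push_cast; linarith)))
    (show -(2 * k * Real.pi + 3 * Real.pi) < -θ (- -b) d ∧
      -θ (- -b) d < -(2 * k * Real.pi + 2 * Real.pi) by
      rw [neg_neg]; exact ⟨by linarith, by linarith⟩)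
  simp only [neg_neg] at d0
  have d1' : 2 * k * Real.pi + 5 * Real.pi / 2 < θ a d := by
    by_contra hh
    have h0 := Real.cos_nonneg_of_mem_Icc (x := θ a d - (k + 1 : ℤ) * (2 * Real.pi))
      ⟨by push_cast; linarith [d0.2], by push_cast; linarith [not_lt.1 hh]⟩
    rw [Real.cos_sub_int_mul_two_pi] at h0
    linarith [cosl d ⟨hcd, le_rfl⟩]
  have e0 := stays (θ := fun y => -θ a (-y)) (a := -d) (b := -c) (by linarith)
    (((hcy a).comp continuous_neg).neg.continuousOn)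
    (fun y hy e => (cosl (-y) ⟨by linarith [hy.2], by linarith [hy.1]⟩).ne
      (cos0 (2 * k + 3) (by push_cast; linarith)))
    (fun y hy e => (cosl (-y) ⟨by linarith [hy.2], by linarith [hy.1]⟩).ne
      (cos0 (2 * k + 2) (by push_cast; linarith)))
    (show -(2 * k * Real.pi + 7 * Real.pi / 2) < -θ a (- -d) ∧
      -θ a (- -d) < -(2 * k * Real.pi + 5 * Real.pi / 2) by
      rw [neg_neg]; exact ⟨by linarith [d0.1], by linarith⟩)
  simp only [neg_neg] at e0
  linarith [e0.2]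

/-- A compact set without a connected piece meeting two closed sets splits between them. -/
lemma exists_split {A L R : Set ℂ} (hA : IsCompact A) (hL : IsClosed L) (hR : IsClosed R)
    (hno : ∀ S ⊆ A, IsPreconnected S → (S ∩ L).Nonempty → (S ∩ R).Nonempty → False) :
    ∃ A₁ A₂ : Set ℂ, IsCompact A₁ ∧ IsCompact A₂ ∧ A₁ ∪ A₂ = A ∧ Disjoint A₁ A₂ ∧
      Disjoint A₁ R ∧ Disjoint A₂ L := by
  have : CompactSpace A := isCompact_iff_compactSpace.1 hA
  set L' : Set A := Subtype.val ⁻¹' L with hL'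
  set R' : Set A := Subtype.val ⁻¹' R with hR'
  have hLc : IsCompact L' := (hL.preimage continuous_subtype_val).isCompact
  have hRc : IsCompact R' := (hR.preimage continuous_subtype_val).isCompact
  have hsep : ∀ x ∈ L', ∃ V : Set A, IsClopen V ∧ x ∈ V ∧ Disjoint V R' := by
    intro x hx
    have hcomp : ∀ y ∈ R', y ∉ connectedComponent x := fun y hy hyc =>
      hno (Subtype.val '' connectedComponent x) (by rintro _ ⟨z, -, rfl⟩; exact z.2)
        (isPreconnected_connectedComponent.image _ continuous_subtype_val.continuousOn)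
        ⟨x, ⟨x, mem_connectedComponent, rfl⟩, hx⟩ ⟨y, ⟨y, hyc, rfl⟩, hy⟩
    rw [connectedComponent_eq_iInter_isClopen] at hcomp
    have hex : ∀ y ∈ R', ∃ V : Set A, IsClopen V ∧ x ∈ V ∧ y ∉ V := fun y hy => by
      have h := hcomp y hy
      simp only [mem_iInter, Subtype.forall, not_forall] at h
      obtain ⟨V, hV, hyV⟩ := h
      exact ⟨V, hV.1, hV.2, hyV⟩
    choose V hV hxV hyV using hex
    obtain ⟨t, ht⟩ := hRc.elim_finite_subcover (fun y : R' => (V y y.2)ᶜ)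
      (fun y => (hV y y.2).isClosed.isOpen_compl)
      (fun y hy => mem_iUnion.2 ⟨⟨y, hy⟩, hyV y hy⟩)
    refine ⟨⋂ y ∈ t, V y y.2, isClopen_biInter_finset fun y _ => hV y y.2,
      mem_iInter₂.2 fun y _ => hxV y y.2, disjoint_left.2 fun z hz hzR => ?_⟩
    obtain ⟨y, hy, hzy⟩ := mem_iUnion₂.1 (ht hzR)
    exact hzy (mem_iInter₂.1 hz y hy)
  choose V hV hxV hVR using hsep
  obtain ⟨t, ht⟩ := hLc.elim_finite_subcover (fun x : L' => V x x.2)
    (fun x => (hV x x.2).isOpen) (fun x hx => mem_iUnion.2 ⟨⟨x, hx⟩, hxV x hx⟩)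
  have hW : IsClopen (⋃ x ∈ t, V x x.2) := isClopen_biUnion_finset fun x _ => hV x x.2
  refine ⟨Subtype.val '' (⋃ x ∈ t, V x x.2), Subtype.val '' (⋃ x ∈ t, V x x.2)ᶜ,
    hW.isClosed.isCompact.image continuous_subtype_val,
    hW.compl.isClosed.isCompact.image continuous_subtype_val, ?_, ?_, ?_, ?_⟩
  · rw [← image_union, union_compl_self, image_univ, Subtype.range_coe]
  · exact disjoint_image_of_injective Subtype.val_injective disjoint_compl_right
  · rw [disjoint_left]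
    rintro _ ⟨z, hz, rfl⟩ hzR
    obtain ⟨x, hx, hzx⟩ := mem_iUnion₂.1 hz
    exact disjoint_left.1 (hVR x x.2) hzx hzR
  · rw [disjoint_left]
    rintro _ ⟨z, hz, rfl⟩ hzL
    exact hz (ht hzL)

/-- In a rectangle covered by two closed sets, one of them joins a pair of opposite sides. -/
theorem exists_crossing {a b c d : ℝ} (hab : a < b) (hcd : c < d) {A B : Set ℂ}
    (hA : IsClosed A) (hB : IsClosed B)
    (hcov : ∀ x ∈ Icc a b, ∀ y ∈ Icc c d, (⟨x, y⟩ : ℂ) ∈ A ∪ B) :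
    (∃ S ⊆ A ∩ (Icc a b ×ℂ Icc c d), IsPreconnected S ∧
        (∃ z ∈ S, z.re = a) ∧ ∃ z ∈ S, z.re = b) ∨
    ∃ S ⊆ B ∩ (Icc a b ×ℂ Icc c d), IsPreconnected S ∧
        (∃ z ∈ S, z.im = c) ∧ ∃ z ∈ S, z.im = d := by
  by_contra hh
  push Not at hh
  have hQ : IsCompact (Icc a b ×ℂ Icc c d) := isCompact_Icc.reProdIm isCompact_Icc
  set L := {a} ×ℂ Icc c d; set R := {b} ×ℂ Icc c d
  set Bm := Icc a b ×ℂ {c}; set Tp := Icc a b ×ℂ {d}
  have cL : IsCompact L := isCompact_singleton.reProdIm isCompact_Icc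
  have cR : IsCompact R := isCompact_singleton.reProdIm isCompact_Icc
  have cB : IsCompact Bm := isCompact_Icc.reProdIm isCompact_singleton
  have cT : IsCompact Tp := isCompact_Icc.reProdIm isCompact_singleton
  obtain ⟨A₁, A₂, hA1, hA2, hAu, hAd, hA1R, hA2L⟩ :=
    exists_split (hQ.inter_left hA) cL.isClosed cR.isClosed fun S hS hp ⟨z, hz, hzL⟩ ⟨w, hw, hwR⟩ =>
      hh.1 S hS hp ⟨z, hz, hzL.1⟩ w hw hwR.1
  obtain ⟨B₁, B₂, hB1, hB2, hBu, hBd, hB1T, hB2B⟩ :=
    exists_split (hQ.inter_left hB) cB.isClosed cT.isClosed fun S hS hp ⟨z, hz, hzL⟩ ⟨w, hw, hwR⟩ =>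
      hh.2 S hS hp ⟨z, hz, hzL.2⟩ w hw hwR.2
  let f : ℝ → ℝ → ℝ := fun x y =>
    Metric.infDist (⟨x, y⟩ : ℂ) (A₁ ∪ L) - Metric.infDist (⟨x, y⟩ : ℂ) (A₂ ∪ R)
  let g : ℝ → ℝ → ℝ := fun x y =>
    Metric.infDist (⟨x, y⟩ : ℂ) (B₁ ∪ Bm) - Metric.infDist (⟨x, y⟩ : ℂ) (B₂ ∪ Tp)
  have hmk : Continuous fun p : ℝ × ℝ => (⟨p.1, p.2⟩ : ℂ) := by
    have : Continuous fun p : ℝ × ℝ => (p.1 : ℂ) + p.2 * I := by fun_prop
    simpa [Complex.mk_eq_add_mul_I] using this
  have sd : ∀ {P Q : Set ℂ}, IsCompact P → IsCompact Q → Disjoint P Q → Q.Nonempty → ∀ z ∈ P,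
      Metric.infDist z P - Metric.infDist z Q < 0 := by
    intro P Q _ hQ' hd hne z hz
    rw [Metric.infDist_zero_of_mem hz, zero_sub, neg_lt_zero,
      ← hQ'.isClosed.notMem_iff_infDist_pos hne]
    exact disjoint_left.1 hd hz
  have d1 : Disjoint (A₁ ∪ L) (A₂ ∪ R) := by
    refine disjoint_union_left.2 ⟨disjoint_union_right.2 ⟨hAd, hA1R⟩,
      disjoint_union_right.2 ⟨hA2L.symm, disjoint_left.2 ?_⟩⟩
    intro z h1 h2
    exact hab.ne (h1.1.symm.trans h2.1)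
  have d2 : Disjoint (B₁ ∪ Bm) (B₂ ∪ Tp) := by
    refine disjoint_union_left.2 ⟨disjoint_union_right.2 ⟨hBd, hB1T⟩,
      disjoint_union_right.2 ⟨hB2B.symm, disjoint_left.2 ?_⟩⟩
    intro z h1 h2
    exact hcd.ne (h1.2.symm.trans h2.2)
  have nL : (A₁ ∪ L).Nonempty := ⟨⟨a, c⟩, Or.inr ⟨rfl, le_rfl, hcd.le⟩⟩
  have nR : (A₂ ∪ R).Nonempty := ⟨⟨b, c⟩, Or.inr ⟨rfl, le_rfl, hcd.le⟩⟩
  have nB : (B₁ ∪ Bm).Nonempty := ⟨⟨a, c⟩, Or.inr ⟨⟨le_rfl, hab.le⟩, rfl⟩⟩
  have nT : (B₂ ∪ Tp).Nonempty := ⟨⟨a, d⟩, Or.inr ⟨⟨le_rfl, hab.le⟩, rfl⟩⟩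
  obtain ⟨x, hx, y, hy, hfx, hgy⟩ := exists_zero_rect hab.le hcd.le f g
    (((Metric.continuous_infDist_pt _).comp hmk).sub ((Metric.continuous_infDist_pt _).comp hmk))
    (((Metric.continuous_infDist_pt _).comp hmk).sub ((Metric.continuous_infDist_pt _).comp hmk))
    (fun y hy => sd (hA1.union cL) (hA2.union cR) d1 nR _ (Or.inr ⟨rfl, hy⟩))
    (fun y hy => by
      have := sd (hA2.union cR) (hA1.union cL) d1.symm nL ⟨b, y⟩ (Or.inr ⟨rfl, hy⟩)
      simp only [f]; linarith)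
    (fun x hx => sd (hB1.union cB) (hB2.union cT) d2 nT _ (Or.inr ⟨hx, rfl⟩))
    (fun x hx => by
      have := sd (hB2.union cT) (hB1.union cB) d2.symm nB ⟨x, d⟩ (Or.inr ⟨hx, rfl⟩)
      simp only [g]; linarith)
  simp only [f, g] at hfx hgy
  rcases hcov x hx y hy with h | h
  · rcases (hAu.symm ▸ ⟨h, hx, hy⟩ : (⟨x, y⟩ : ℂ) ∈ A₁ ∪ A₂) with h1 | h1
    · linarith [sd (hA1.union cL) (hA2.union cR) d1 nR _ (Or.inl h1)]
    · linarith [sd (hA2.union cR) (hA1.union cL) d1.symm nL _ (Or.inl h1)]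
  · rcases (hBu.symm ▸ ⟨h, hx, hy⟩ : (⟨x, y⟩ : ℂ) ∈ B₁ ∪ B₂) with h1 | h1
    · linarith [sd (hB1.union cB) (hB2.union cT) d2 nT _ (Or.inl h1)]
    · linarith [sd (hB2.union cT) (hB1.union cB) d2.symm nB _ (Or.inl h1)]

end Vale.Agent.P032
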