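import Vale.Agent.P032.Plane.Cover
import Vale.Agent.P032.Plane.Square

/-!
P032: a closed cover with small connected pieces has a triple point, and a boundary point of
exactly two classes meets their closures on its circle only in one antipodal pair.
-/

namespace Vale.Agent.P032

open Set Filter Topology Metric Complex ComplexConjugate

/-- A closed cover of the plane by five sets whose connected pieces are small has a point in
three of the sets. -/
theorem exists_triple (F : Fin 5 → Set ℂ) (hF : ∀ i, IsClosed (F i)) (hcov : ∀ z, ∃ i, z ∈ F i)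
    (hsmall : ∀ i, ∀ S ⊆ F i, IsPreconnected S → ∀ x ∈ S, ∀ y ∈ S, dist x y ≤ 1) :
    ∃ z i j k, i ≠ j ∧ i ≠ k ∧ j ≠ k ∧ z ∈ F i ∧ z ∈ F j ∧ z ∈ F k := by
  classical
  by_contra hno
  push Not at hno
  set Q : Set ℂ := Icc (-10 : ℝ) 10 ×ℂ Icc (-10) 10 with hQdef
  have hQ : IsCompact Q := isCompact_Icc.reProdIm isCompact_Icc
  have pieces : ∀ i, ∃ (n : ℕ) (P : Fin n → Set ℂ), (∀ k, IsCompact (P k) ∧ P k ⊆ F i ∩ Q) ∧
      (∀ z ∈ F i ∩ Q, ∃ k, z ∈ P k) ∧ (Pairwise fun k l => Disjoint (P k) (P l)) ∧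
      ∀ k, ∀ x ∈ P k, ∀ y ∈ P k, dist x y ≤ 3 := by
    intro i
    have hA : IsCompact (F i ∩ Q) := hQ.inter_left (hF i)
    have hsp : ∀ x : ℂ, ∃ A₁ A₂ : Set ℂ, IsCompact A₁ ∧ IsCompact A₂ ∧ A₁ ∪ A₂ = F i ∩ Q ∧
        Disjoint A₁ A₂ ∧ Disjoint A₁ {z | 3 / 2 ≤ dist z x} ∧ Disjoint A₂ {x} :=
      fun x => exists_split hA isClosed_singleton
        (isClosed_le continuous_const (continuous_id.dist continuous_const))
        fun S hS hp ⟨z, hz, hzx⟩ ⟨u, hu, hu'⟩ => by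
          have := hsmall i S (hS.trans inter_subset_left) hp u hu z hz
          rw [mem_singleton_iff] at hzx
          subst hzx
          have hu'' : 3 / 2 ≤ dist u z := hu'
          linarith
    choose A₁ A₂ h1 h2 hu hd hR hL using hsp
    obtain ⟨t, ht⟩ := hA.elim_finite_subcover (fun x : ↥(F i ∩ Q) => (A₂ x)ᶜ)
      (fun x => (h2 x).isClosed.isOpen_compl)
      (fun x hx => mem_iUnion.2 ⟨⟨x, hx⟩, fun h => disjoint_left.1 (hL x) h rfl⟩)
    let e := t.equivFin.symm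
    refine ⟨t.card, fun k => A₁ (e k).1.1 ∩ ⋂ l, ⋂ _ : l < k, A₂ (e l).1.1, fun k => ⟨?_, ?_⟩,
      ?_, ?_, ?_⟩
    · exact (h1 _).inter_right (isClosed_iInter fun l => isClosed_iInter fun _ => (h2 _).isClosed)
    · exact inter_subset_left.trans ((hu _).subset.trans' subset_union_left)
    · intro z hz
      have hex : ∃ k : Fin t.card, z ∈ A₁ (e k).1.1 := by
        obtain ⟨x, hx, hzx⟩ := mem_iUnion₂.1 (ht hz)
        refine ⟨t.equivFin ⟨x, hx⟩, ?_⟩
        have : z ∈ A₁ x.1 ∪ A₂ x.1 := (hu _).symm ▸ hz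
        simpa [e] using this.resolve_right hzx
      obtain ⟨k, hk, hmin⟩ := exists_minimal_of_wellFoundedLT _ hex
      refine ⟨k, hk, mem_iInter₂.2 fun l hl => ?_⟩
      have : z ∈ A₁ (e l).1.1 ∪ A₂ (e l).1.1 := (hu _).symm ▸ hz
      exact this.resolve_left fun h => absurd (hmin h hl.le) (not_le.2 hl)
    · intro k l hkl
      refine disjoint_left.2 fun z hz hz' => ?_
      rcases lt_or_gt_of_ne hkl with h | h
      · exact disjoint_left.1 (hd _) hz.1 (mem_iInter₂.1 hz'.2 k h)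
      · exact disjoint_left.1 (hd _) hz'.1 (mem_iInter₂.1 hz.2 l h)
    · intro k x hx y hy
      have ex : ¬ 3 / 2 ≤ dist x (e k).1.1 := fun h => disjoint_left.1 (hR _) hx.1 h
      have ey : ¬ 3 / 2 ≤ dist y (e k).1.1 := fun h => disjoint_left.1 (hR _) hy.1 h
      linarith [dist_triangle_right x y (e k).1.1, not_le.1 ex, not_le.1 ey]
  choose n P hP hPc hPd hPs using pieces
  let J := {a : Σ i, Fin (n i) // (P a.1 a.2).Nonempty}
  let D : J → ℂ → ℝ := fun a z => infDist z (P a.1.1 a.1.2)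
  have hD0 : ∀ (a : J) z, D a z = 0 → z ∈ P a.1.1 a.1.2 := fun a z h =>
    ((hP _ _).1.isClosed.mem_iff_infDist_zero a.2).2 h
  let T : Finset (J × J × J) :=
    Finset.univ.filter fun q => q.1 ≠ q.2.1 ∧ q.1 ≠ q.2.2 ∧ q.2.1 ≠ q.2.2
  have hpos : ∀ q ∈ T, ∀ z ∈ Q, 0 < max (D q.1 z) (max (D q.2.1 z) (D q.2.2 z)) := by
    intro q hq z hz
    obtain ⟨n1, n2, n3⟩ := (Finset.mem_filter.1 hq).2
    by_contra hle
    simp only [not_lt, max_le_iff] at hle
    have z1 := hD0 _ _ (le_antisymm hle.1 infDist_nonneg)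
    have z2 := hD0 _ _ (le_antisymm hle.2.1 infDist_nonneg)
    have z3 := hD0 _ _ (le_antisymm hle.2.2 infDist_nonneg)
    have ne : ∀ a b : J, a ≠ b → z ∈ P a.1.1 a.1.2 → z ∈ P b.1.1 b.1.2 → a.1.1 ≠ b.1.1 := by
      rintro ⟨⟨i, k⟩, ha⟩ ⟨⟨i', k'⟩, hb⟩ hab h1 h2 (heq : i = i')
      subst heq
      have : k ≠ k' := fun h => hab (by subst h; rfl)
      exact disjoint_left.1 (hPd i this) h1 h2
    exact hno z q.1.1.1 q.2.1.1.1 q.2.2.1.1 (ne _ _ n1 z1 z2) (ne _ _ n2 z1 z3) (ne _ _ n3 z2 z3)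
      ((hP _ _).2 z1).1 ((hP _ _).2 z2).1 ((hP _ _).2 z3).1
  obtain ⟨ε, hε, hε1, hεT⟩ : ∃ ε > (0 : ℝ), ε ≤ 1 ∧
      ∀ q ∈ T, ∀ z ∈ Q, ε ≤ max (D q.1 z) (max (D q.2.1 z) (D q.2.2 z)) := by
    have h : ∀ q ∈ T, ∃ c, 0 < c ∧ ∀ z ∈ Q, c ≤ max (D q.1 z) (max (D q.2.1 z) (D q.2.2 z)) := by
      intro q hq
      obtain ⟨z0, hz0, hm⟩ := hQ.exists_isMinOn ⟨⟨0, 0⟩, by norm_num [hQdef, mem_reProdIm]⟩
        (f := fun z => max (D q.1 z) (max (D q.2.1 z) (D q.2.2 z)))
        ((continuous_infDist_pt _).max ((continuous_infDist_pt _).max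
          (continuous_infDist_pt _))).continuousOn
      exact ⟨_, hpos q hq z0 hz0, fun z hz => hm hz⟩
    have hev : ∀ᶠ c in 𝓝[>] (0 : ℝ), c ≤ 1 ∧
        ∀ q ∈ T, ∀ z ∈ Q, c ≤ max (D q.1 z) (max (D q.2.1 z) (D q.2.2 z)) := by
      refine ((eventually_le_nhds one_pos).filter_mono nhdsWithin_le_nhds).and
        ((eventually_all_finset T).2 fun q hq => ?_)
      obtain ⟨c, hc, hcz⟩ := h q hq
      exact Eventually.mono ((eventually_le_nhds hc).filter_mono nhdsWithin_le_nhds)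
        fun c' hc' z hz => hc'.trans (hcz z hz)
    obtain ⟨c, ⟨hc1, hcT⟩, hc0⟩ := (hev.and self_mem_nhdsWithin).exists
    exact ⟨c, hc0, hc1, hcT⟩
  let φ : J → ℂ → ℝ := fun a z => max 0 (ε - D a z)
  have hφ0 : ∀ a z, 0 ≤ φ a z := fun a z => le_max_left _ _
  have hsum : ∀ z ∈ Q, 0 < ∑ a, φ a z := by
    intro z hz
    obtain ⟨i, hi⟩ := hcov z
    obtain ⟨k, hk⟩ := hPc i z ⟨hi, hz⟩
    refine lt_of_lt_of_le ?_ (Finset.single_le_sum (fun a _ => hφ0 a z)
      (Finset.mem_univ (⟨⟨i, k⟩, z, hk⟩ : J)))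
    simp [φ, D, infDist_zero_of_mem hk, hε]
  let ctr : J → ℂ := fun a => a.2.choose
  have hctr : ∀ a : J, ctr a ∈ P a.1.1 a.1.2 := fun a => a.2.choose_spec
  have near : ∀ a z, φ a z ≠ 0 → ‖ctr a - z‖ ≤ 4 := by
    intro a z ha
    have hlt : D a z < ε := by
      by_contra h
      exact ha (max_eq_left (by linarith [not_lt.1 h]))
    obtain ⟨y, hy, hzy⟩ := (infDist_lt_iff a.2).1 hlt
    rw [← dist_eq_norm]
    linarith [dist_triangle (ctr a) y z, hPs _ _ _ (hctr a) _ hy, dist_comm z y]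
  obtain ⟨x₀, hx₀, hx₀c⟩ : ∃ x ∈ Ioo (-1 : ℝ) 1, ∀ a, x ≠ (ctr a).re := by
    obtain ⟨x, hx, hx'⟩ := ((Ioo_infinite (by norm_num : (-1 : ℝ) < 1)).sdiff
      (finite_range fun a => (ctr a).re)).nonempty
    exact ⟨x, hx, fun a h => hx' ⟨a, h.symm⟩⟩
  obtain ⟨y₀, hy₀, hy₀c⟩ : ∃ y ∈ Ioo (-1 : ℝ) 1, ∀ a b, y ≠ (ctr a).im +
      (x₀ - (ctr a).re) / ((ctr b).re - (ctr a).re) * ((ctr b).im - (ctr a).im) := by
    obtain ⟨y, hy, hy'⟩ := ((Ioo_infinite (by norm_num : (-1 : ℝ) < 1)).sdiff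
      (finite_range fun q : J × J => (ctr q.1).im +
        (x₀ - (ctr q.1).re) / ((ctr q.2).re - (ctr q.1).re) * ((ctr q.2).im - (ctr q.1).im))).nonempty
    exact ⟨y, hy, fun a b h => hy' ⟨(a, b), h.symm⟩⟩
  have hmk : Continuous fun p : ℝ × ℝ => (⟨p.1, p.2⟩ : ℂ) := by
    have : Continuous fun p : ℝ × ℝ => (p.1 : ℂ) + p.2 * I := by fun_prop
    simpa [Complex.mk_eq_add_mul_I] using this
  have hφc : ∀ a, Continuous (φ a) := fun a =>
    continuous_const.max (continuous_const.sub (continuous_infDist_pt _))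
  let f : ℝ → ℝ → ℝ := fun x y => ∑ a, φ a ⟨x, y⟩ * ((ctr a).re - x₀)
  let g : ℝ → ℝ → ℝ := fun x y => ∑ a, φ a ⟨x, y⟩ * ((ctr a).im - y₀)
  have bound : ∀ x ∈ Icc (-10 : ℝ) 10, ∀ y ∈ Icc (-10 : ℝ) 10, ∀ s : ℝ, ∀ p : J → ℝ,
      (∀ a, φ a ⟨x, y⟩ ≠ 0 → 0 < s * p a) → 0 < s * ∑ a, φ a ⟨x, y⟩ * p a := by
    intro x hx y hy s p hp
    rw [Finset.mul_sum]
    obtain ⟨a, -, ha⟩ := Finset.exists_ne_zero_of_sum_ne_zero (hsum ⟨x, y⟩ ⟨hx, hy⟩).ne'
    refine Finset.sum_pos' (fun b _ => ?_) ⟨a, Finset.mem_univ a, ?_⟩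
    · by_cases hb : φ b ⟨x, y⟩ = 0
      · simp [hb]
      · nlinarith [hp b hb, hφ0 b ⟨x, y⟩]
    · nlinarith [hp a ha, lt_of_le_of_ne (hφ0 a ⟨x, y⟩) (Ne.symm ha)]
  have bd : ∀ a x y, φ a ⟨x, y⟩ ≠ 0 → |(ctr a).re - x| ≤ 4 ∧ |(ctr a).im - y| ≤ 4 := fun a x y ha =>
    ⟨(by simpa using abs_re_le_norm (ctr a - ⟨x, y⟩) : _ ≤ _).trans (near a _ ha),
      (by simpa using abs_im_le_norm (ctr a - ⟨x, y⟩) : _ ≤ _).trans (near a _ ha)⟩
  obtain ⟨x, hx, y, hy, hfx, hgy⟩ := exists_zero_rect (a := -10) (b := 10) (c := -10) (d := 10)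
    (by norm_num) (by norm_num) f g
    (continuous_finsetSum _ fun a _ => ((hφc a).comp hmk).mul continuous_const)
    (continuous_finsetSum _ fun a _ => ((hφc a).comp hmk).mul continuous_const)
    (fun y hy => by
      have := bound (-10) (by norm_num) y hy (-1) (fun a => (ctr a).re - x₀) fun a ha => by
        linarith [(abs_le.1 (bd a _ _ ha).1).2, hx₀.1]
      simp only [f]; linarith)
    (fun y hy => by
      have := bound 10 (by norm_num) y hy 1 (fun a => (ctr a).re - x₀) fun a ha => by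
        linarith [(abs_le.1 (bd a _ _ ha).1).1, hx₀.2]
      simp only [f]; linarith)
    (fun x hx => by
      have := bound x hx (-10) (by norm_num) (-1) (fun a => (ctr a).im - y₀) fun a ha => by
        linarith [(abs_le.1 (bd a _ _ ha).2).2, hy₀.1]
      simp only [g]; linarith)
    (fun x hx => by
      have := bound x hx 10 (by norm_num) 1 (fun a => (ctr a).im - y₀) fun a ha => by
        linarith [(abs_le.1 (bd a _ _ ha).2).1, hy₀.2]
      simp only [g]; linarith)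
  set z : ℂ := ⟨x, y⟩
  have hzQ : z ∈ Q := ⟨hx, hy⟩
  obtain ⟨a, -, ha⟩ := Finset.exists_ne_zero_of_sum_ne_zero (hsum z hzQ).ne'
  have lt : ∀ c, φ c z ≠ 0 → D c z < ε := fun c hc => by
    by_contra h
    exact hc (max_eq_left (by linarith [not_lt.1 h]))
  obtain ⟨b, hab⟩ : ∃ b, ∀ c, c ≠ a → c ≠ b → φ c z = 0 := by
    by_cases h : ∃ b, b ≠ a ∧ φ b z ≠ 0
    · obtain ⟨b, hba, hb⟩ := h
      refine ⟨b, fun c hca hcb => ?_⟩
      by_contra hc
      have hT : (a, b, c) ∈ T := Finset.mem_filter.2 ⟨Finset.mem_univ _, hba.symm, hca.symm, hcb.symm⟩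
      exact absurd (hεT _ hT z hzQ) (not_le.2 (max_lt (lt a ha) (max_lt (lt b hb) (lt c hc))))
    · push Not at h
      exact ⟨a, fun c hca _ => h c hca⟩
  rcases eq_or_ne b a with rfl | hba
  · have e : f x y = φ b z * ((ctr b).re - x₀) :=
      Finset.sum_eq_single (f := fun c => φ c z * ((ctr c).re - x₀)) b
        (fun c _ hc => show φ c z * _ = 0 by rw [hab c hc hc, zero_mul])
        (fun h => absurd (Finset.mem_univ b) h)
    rw [hfx] at e
    exact hx₀c b (by linarith [(mul_eq_zero.1 e.symm).resolve_left ha])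
  · have two : ∀ p : J → ℝ, ∑ c, φ c z * p c = φ a z * p a + φ b z * p b := fun p =>
      Finset.sum_eq_add_of_mem a b (Finset.mem_univ _) (Finset.mem_univ _) hba.symm
        fun c _ hc => show φ c z * _ = 0 by rw [hab c hc.1 hc.2, zero_mul]
    rw [show f x y = _ from two fun c => (ctr c).re - x₀] at hfx
    rw [show g x y = _ from two fun c => (ctr c).im - y₀] at hgy
    by_cases hre : (ctr b).re = (ctr a).re
    · refine hx₀c a ?_
      rw [hre] at hfx
      have hs : 0 < φ a z + φ b z :=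
        add_pos_of_pos_of_nonneg (lt_of_le_of_ne (hφ0 a z) (Ne.symm ha)) (hφ0 b z)
      nlinarith
    · refine hy₀c a b ?_
      have hd : (ctr b).re - (ctr a).re ≠ 0 := sub_ne_zero.2 hre
      have hs : φ a z + φ b z ≠ 0 :=
        (add_pos_of_pos_of_nonneg (lt_of_le_of_ne (hφ0 a z) (Ne.symm ha)) (hφ0 b z)).ne'
      field_simp
      apply mul_left_cancel₀ hs
      linear_combination ((ctr b).im - (ctr a).im) * hfx - ((ctr b).re - (ctr a).re) * hgy

namespace Cover

variable (C : Cover)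

/-- Connected pieces of a closed class have diameter at most one. -/
lemma small {i : Fin 5} {S : Set ℂ} (hS : S ⊆ C.K i) (hp : IsPreconnected S) :
    ∀ x ∈ S, ∀ y ∈ S, dist x y ≤ 1 := by
  intro x hx y hy
  by_contra h
  exact C.cross hp hS (hS hx) hx hy (by simp) (by rw [dist_comm]; linarith [not_le.1 h])

/-- Some point lies in three closed classes, and in their open classes if in any. -/
theorem exists_triple_point : ∃ p i j k, i ≠ j ∧ i ≠ k ∧ j ≠ k ∧
    p ∈ C.K i ∧ p ∈ C.K j ∧ p ∈ C.K k ∧ (C.Inside p → p ∈ C.U i ∧ p ∈ C.U j ∧ p ∈ C.U k) := by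
  let d : Fin 5 → ℂ → ℝ := fun i z => infDist z (C.U i)ᶜ
  have hne : ∀ i, ((C.U i)ᶜ).Nonempty := fun i => by
    by_contra h
    rw [not_nonempty_iff_eq_empty, compl_empty_iff] at h
    exact C.free i 0 (h ▸ mem_univ _) 1 (h ▸ mem_univ _) (by simp)
  let F : Fin 5 → Set ℂ := fun i => C.K i ∩ ⋂ j, {z | d j z ≤ d i z}
  have hF : ∀ i, IsClosed (F i) := fun i => (C.isClosed_K i).inter
    (isClosed_iInter fun j => isClosed_le (continuous_infDist_pt _) (continuous_infDist_pt _))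
  have hpos : ∀ i z, 0 < d i z ↔ z ∈ C.U i := fun i z => by
    simp only [d, ← (C.isOpen i).isClosed_compl.notMem_iff_infDist_pos (hne i), notMem_compl_iff]
  have hcov : ∀ z, ∃ i, z ∈ F i := by
    intro z
    obtain ⟨i, -, hi⟩ := Finset.exists_max_image Finset.univ (fun i => d i z) Finset.univ_nonempty
    by_cases h : z ∈ C.U i
    · exact ⟨i, C.subset_K i h, mem_iInter.2 fun j => hi j (Finset.mem_univ _)⟩
    · obtain ⟨j, hj⟩ := C.exists_mem_K z
      refine ⟨j, hj, mem_iInter.2 fun k => ?_⟩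
      have h0 : d i z ≤ 0 := not_lt.1 fun hp => h ((hpos i z).1 hp)
      exact ((hi k (Finset.mem_univ _)).trans h0).trans infDist_nonneg
  obtain ⟨z, i, j, k, h1, h2, h3, hi, hj, hk⟩ :=
    exists_triple F hF hcov fun i S hS => C.small (hS.trans inter_subset_left)
  refine ⟨z, i, j, k, h1, h2, h3, hi.1, hj.1, hk.1, fun ⟨l, hl⟩ => ?_⟩
  exact ⟨(hpos i z).1 (((hpos l z).2 hl).trans_le (mem_iInter.1 hi.2 l)),
    (hpos j z).1 (((hpos l z).2 hl).trans_le (mem_iInter.1 hj.2 l)),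
    (hpos k z).1 (((hpos l z).2 hl).trans_le (mem_iInter.1 hk.2 l))⟩

/-- Near a point of two classes only, the centres of the curves that neither class crosses are
one antipodal pair. -/
lemma two_colour_aux {w : ℂ} {a b : Fin 5} (hM : ∀ c, w ∈ C.K c → c = a ∨ c = b) {y z : ℂ}
    (hy : y ∈ C.K a) (hz : z ∈ C.K b) (hy1 : dist w y = 1) (hz1 : dist w z = 1) (h1 : y ≠ z)
    (h2 : y + z ≠ 2 * w) : False := by
  set p := y - w with hp
  set q := z - w with hq
  have np : ‖p‖ = 1 := by rw [hp, ← dist_eq_norm, dist_comm, hy1]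
  have nq : ‖q‖ = 1 := by rw [hq, ← dist_eq_norm, dist_comm, hz1]
  set r := (I * q * conj p).re with hr
  have hr0 : r ≠ 0 := by
    intro h0
    have e : (q * conj p).im = 0 := by
      have : (I * (q * conj p)).re = 0 := by rw [← mul_assoc]; exact h0
      simp [Complex.mul_re, Complex.mul_im] at this ⊢
      linarith
    have en : ‖q * conj p‖ = 1 := by simp [np, nq]
    have hre : (q * conj p).re = 1 ∨ (q * conj p).re = -1 := by
      rw [Complex.norm_def, Complex.normSq_apply, e, mul_zero, add_zero, Real.sqrt_mul_self_eq_abs] at en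
      exact (abs_eq zero_le_one).1 en
    have pp : conj p * p = 1 := by
      rw [mul_comm, Complex.mul_conj, Complex.normSq_eq_norm_sq, np]; simp
    rcases hre with h | h
    · have : q = p := by
        have hqp : q * conj p = 1 := Complex.ext (by simpa using h) (by simpa using e)
        linear_combination p * hqp - q * pp
      exact h1 (by simpa [hp, hq] using this.symm)
    · have : q = -p := by
        have hqp : q * conj p = -1 := Complex.ext (by simpa using h) (by simpa using e)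
        linear_combination p * hqp - q * pp
      have h3 : z - w = -(y - w) := by rw [← hq, ← hp]; exact this
      exact h2 (by linear_combination h3)
  set P : ℂ := I * q / r with hP
  set Q : ℂ := -(I * p) / r with hQ
  have eP : (P * conj p).re = 1 ∧ (P * conj q).re = 0 := by
    constructor
    · rw [hP, div_mul_eq_mul_div, Complex.div_ofReal_re, ← hr, div_self hr0]
    · rw [hP, div_mul_eq_mul_div, Complex.div_ofReal_re, mul_assoc, Complex.mul_conj]; simp
  have eQ : (Q * conj p).re = 0 ∧ (Q * conj q).re = 1 := by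
    constructor
    · rw [hQ, div_mul_eq_mul_div, Complex.div_ofReal_re, neg_mul, mul_assoc, Complex.mul_conj]; simp
    · rw [hQ, div_mul_eq_mul_div, Complex.div_ofReal_re, div_eq_one_iff_eq hr0, hr]
      simp; ring
  let L : ℂ → ℂ := fun v => w + v.re * P + v.im * Q
  have hL : Continuous L := by fun_prop
  have hnear : ∀ᶠ v in 𝓝 (0 : ℂ), ∀ c, L v ∈ C.K c → c = a ∨ c = b := by
    refine eventually_all.2 fun c => ?_
    by_cases h : w ∈ C.K c
    · exact Eventually.of_forall fun _ _ => hM c h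
    · exact ((hL.tendsto 0).eventually (by simpa [L] using C.eventually_notMem h)).mono
        fun v hv hv' => absurd hv' hv
  obtain ⟨δ, hδ, hball⟩ := Metric.eventually_nhds_iff.1 hnear
  set R := ‖P‖ + ‖Q‖ with hR
  set e := min (δ / 3) (1 / (R ^ 2 + 1)) with he
  have he0 : 0 < e := lt_min (by linarith) (by positivity)
  have heR : e * (R ^ 2 + 1) ≤ 1 := by
    rw [← le_div_iff₀ (by positivity)]; exact min_le_right _ _
  have hsq : ∀ (v u : ℂ), ‖u‖ = 1 → dist (L v) (w + u) ^ 2 =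
      1 - 2 * (v.re * (P * conj u).re + v.im * (Q * conj u).re) + ‖(v.re : ℂ) * P + v.im * Q‖ ^ 2 := by
    intro v u hu
    rw [dist_eq_norm, show L v - (w + u) = ((v.re : ℂ) * P + v.im * Q) - u by simp only [L]; ring,
      ← Complex.normSq_eq_norm_sq, ← Complex.normSq_eq_norm_sq, Complex.normSq_sub,
      Complex.normSq_eq_norm_sq u, hu]
    simp [add_mul, mul_assoc]
    ring
  have hb2 : ∀ v : ℂ, |v.re| ≤ e → |v.im| ≤ e → ‖(v.re : ℂ) * P + v.im * Q‖ ^ 2 < 2 * e := by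
    intro v h1 h2
    have : ‖(v.re : ℂ) * P + v.im * Q‖ ≤ e * R := by
      refine (norm_add_le _ _).trans ?_
      rw [norm_mul, norm_mul, Complex.norm_real, Complex.norm_real, Real.norm_eq_abs,
        Real.norm_eq_abs, hR, mul_add]
      gcongr
    nlinarith [norm_nonneg ((v.re : ℂ) * P + v.im * Q), sq_nonneg R]
  have hcov : ∀ x ∈ Icc (-e) e, ∀ t ∈ Icc (-e) e, (⟨x, t⟩ : ℂ) ∈ L ⁻¹' C.K a ∪ L ⁻¹' C.K b := by
    intro x hx t ht
    obtain ⟨c, hc⟩ := C.exists_mem_K (L ⟨x, t⟩)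
    have hd : dist (⟨x, t⟩ : ℂ) 0 < δ := by
      rw [dist_zero_right]
      refine (norm_le_abs_re_add_abs_im _).trans_lt ?_
      linarith [abs_le.2 hx, abs_le.2 ht, min_le_left (δ / 3) (1 / (R ^ 2 + 1))]
    rcases hball hd c hc with rfl | rfl
    · exact Or.inl hc
    · exact Or.inr hc
  rcases exists_crossing (show -e < e by linarith) (show -e < e by linarith)
      ((C.isClosed_K a).preimage hL) ((C.isClosed_K b).preimage hL) hcov with
    ⟨S, hS, hSp, ⟨s, hs, hs'⟩, ⟨t, ht, ht'⟩⟩ | ⟨S, hS, hSp, ⟨s, hs, hs'⟩, ⟨t, ht, ht'⟩⟩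
  · have key := fun v (hv : v ∈ S) => hsq v p np
    simp only [eP.1, eQ.1, show w + p = y by rw [hp]; ring] at key
    refine C.cross (hSp.image L hL.continuousOn) (by rintro _ ⟨v, hv, rfl⟩; exact (hS hv).1) hy
      ⟨t, ht, rfl⟩ ⟨s, hs, rfl⟩ (by_contra fun h => ?_) (by_contra fun h => ?_)
    · have := hb2 t (abs_le.2 (hS ht).2.1) (abs_le.2 (hS ht).2.2)
      nlinarith [key t ht, not_lt.1 h, dist_nonneg (x := L t) (y := y)]
    · have := sq_nonneg ‖(s.re : ℂ) * P + s.im * Q‖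
      nlinarith [key s hs, not_lt.1 h, dist_nonneg (x := L s) (y := y)]
  · have key := fun v (hv : v ∈ S) => hsq v q nq
    simp only [eP.2, eQ.2, show w + q = z by rw [hq]; ring] at key
    refine C.cross (hSp.image L hL.continuousOn) (by rintro _ ⟨v, hv, rfl⟩; exact (hS hv).1) hz
      ⟨t, ht, rfl⟩ ⟨s, hs, rfl⟩ (by_contra fun h => ?_) (by_contra fun h => ?_)
    · have := hb2 t (abs_le.2 (hS ht).2.1) (abs_le.2 (hS ht).2.2)
      nlinarith [key t ht, not_lt.1 h, dist_nonneg (x := L t) (y := z)]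
    · have := sq_nonneg ‖(s.re : ℂ) * P + s.im * Q‖
      nlinarith [key s hs, not_lt.1 h, dist_nonneg (x := L s) (y := z)]

/-- A boundary point of exactly two classes has their closures only at an antipodal pair. -/
theorem two_colour {w : ℂ} (hw : ¬ C.Inside w) {a b : Fin 5} (hM : ∀ c, w ∈ C.K c → c = a ∨ c = b)
    {y z : ℂ} (hy : y ∈ C.K a ∨ y ∈ C.K b) (hz : z ∈ C.K a ∨ z ∈ C.K b) (hy1 : dist w y = 1)
    (hz1 : dist w z = 1) (h1 : y ≠ z) (h2 : y + z ≠ 2 * w) : False := by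
  have other : ∀ c, ∃ u ∈ C.K c, dist w u = 1 := fun c => by
    by_contra h
    push Not at h
    exact hw ⟨c, C.maximal c w h⟩
  have core : ∀ {y z : ℂ}, y ∈ C.K a → z ∈ C.K b → dist w y = 1 → dist w z = 1 →
      y ≠ z → y + z ≠ 2 * w → False := C.two_colour_aux hM
  have same : ∀ a b : Fin 5, (∀ c, w ∈ C.K c → c = a ∨ c = b) → y ∈ C.K a → z ∈ C.K a → False := by
    intro a b hM hy hz
    obtain ⟨u, hu, hu1⟩ := other b
    by_cases hyu : y = u
    · subst hyu
      exact C.two_colour_aux hM hz hu hz1 hu1 h1.symm (by rwa [add_comm])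
    by_cases hyu2 : y + u = 2 * w
    · by_cases hzu : z = u
      · subst hzu; exact h2 hyu2
      · exact C.two_colour_aux hM hz hu hz1 hu1 hzu fun h => h1 (by linear_combination hyu2 - h)
    · exact C.two_colour_aux hM hy hu hy1 hu1 hyu hyu2
  rcases hy with hy | hy <;> rcases hz with hz | hz
  · exact same a b hM hy hz
  · exact core hy hz hy1 hz1 h1 h2
  · exact core hz hy hz1 hy1 h1.symm (by rwa [add_comm])
  · exact same b a (fun c hc => (hM c hc).symm) hy hz

end Cover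

end Vale.Agent.P032
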