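import Mathlib

/-!
P032: the two points of the unit circle at distance one from a nearby point, as functions of the
angle, and the null sets of the changes of angle they define.
-/

namespace Vale.Agent.P032.Circle

open Set Filter Topology Metric MeasureTheory Complex
open scoped ENNReal NNReal

/-- The point of angle `t`. -/
noncomputable def pt (t : ℝ) : ℂ := exp ((t : ℂ) * I)

lemma pt_add (a b : ℝ) : pt (a + b) = pt a * pt b := by
  simp only [pt, ofReal_add, add_mul, Complex.exp_add]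

@[simp] lemma norm_pt (t : ℝ) : ‖pt t‖ = 1 := norm_exp_ofReal_mul_I t

lemma pt_zero : pt 0 = 1 := by simp [pt]

lemma pt_ne (t : ℝ) : pt t ≠ 0 := exp_ne_zero _

lemma continuous_pt : Continuous pt := by unfold pt; fun_prop

lemma dist_pt_le (a b : ℝ) : dist (pt a) (pt b) ≤ dist a b := by
  rw [dist_eq_norm, Real.dist_eq, show pt a = pt b * pt (a - b) by rw [← pt_add]; ring_nf,
    ← mul_sub_one, norm_mul, norm_pt, one_mul, pt, mul_comm]
  exact (Real.norm_exp_I_mul_ofReal_sub_one_le).trans_eq (Real.norm_eq_abs _)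

/-- The angle of a point of the unit circle at distance one from `z`; `s` is `1` or `-1`. -/
noncomputable def ang (s : ℝ) (z : ℂ) : ℝ := arg z + s * Real.arccos (‖z‖ / 2)

lemma dist_sq (z : ℂ) (b : ℝ) :
    ‖z - pt (arg z + b)‖ ^ 2 = ‖z‖ ^ 2 - 2 * ‖z‖ * Real.cos b + 1 := by
  have e : z - pt (arg z + b) = pt (arg z) * ((‖z‖ : ℂ) - pt b) := by
    rw [mul_sub, ← pt_add]
    congr 1
    rw [mul_comm, pt, Complex.norm_mul_exp_arg_mul_I]
  rw [e, norm_mul, norm_pt, one_mul, ← Complex.normSq_eq_norm_sq, Complex.normSq_apply]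
  simp only [pt, sub_re, sub_im, ofReal_re, ofReal_im, Complex.exp_ofReal_mul_I_re,
    Complex.exp_ofReal_mul_I_im]
  linear_combination Real.sin_sq_add_cos_sq b

lemma dist_ang {s : ℝ} (hs : s = 1 ∨ s = -1) {z : ℂ} (hz : ‖z‖ ≤ 2) :
    ‖z - pt (ang s z)‖ = 1 := by
  have hc : Real.cos (s * Real.arccos (‖z‖ / 2)) = ‖z‖ / 2 := by
    have := Real.cos_arccos (x := ‖z‖ / 2) (by linarith [norm_nonneg z]) (by linarith)
    rcases hs with rfl | rfl <;> simpa using this
  have h := dist_sq z (s * Real.arccos (‖z‖ / 2))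
  rw [hc] at h
  rw [← pow_left_inj₀ (norm_nonneg _) zero_le_one two_ne_zero, one_pow]
  change ‖z - pt (arg z + _)‖ ^ 2 = 1
  rw [h]
  ring

lemma eq_ang {s : ℝ} (hs : s = 1 ∨ s = -1) {z : ℂ} (hz : z ≠ 0) {t : ℝ} (h : ‖z - pt t‖ = 1)
    (h0 : 0 ≤ s * (t - arg z)) (h1 : s * (t - arg z) ≤ Real.pi) : t = ang s z := by
  have hd := dist_sq z (t - arg z)
  rw [add_sub_cancel, h, one_pow] at hd
  have hc : Real.cos (s * (t - arg z)) = ‖z‖ / 2 := by
    have h2 : Real.cos (s * (t - arg z)) = Real.cos (t - arg z) := by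
      rcases hs with rfl | rfl
      · rw [one_mul]
      · rw [neg_one_mul, Real.cos_neg]
    rw [h2]
    have := norm_pos_iff.2 hz
    nlinarith
  rw [ang, ← hc, Real.arccos_cos h0 h1, ← mul_assoc]
  rcases hs with rfl | rfl <;> ring

lemma contDiffAt_ang (s : ℝ) : ContDiffAt ℝ 1 (ang s) 1 := by
  have hlog : ContDiffAt ℝ 1 Complex.log 1 :=
    (Complex.contDiffAt_log Complex.one_mem_slitPlane).restrict_scalars ℝ
  have h1 : ContDiffAt ℝ 1 Complex.arg 1 := by
    have := Complex.imCLM.contDiff.contDiffAt.comp (1 : ℂ) hlog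
    exact this.congr_of_eventuallyEq (Eventually.of_forall fun z => (Complex.log_im z).symm)
  have h2 : ContDiffAt ℝ 1 (fun z : ℂ => Real.arccos (‖z‖ / 2)) 1 :=
    (Real.contDiffAt_arccos (by norm_num) (by norm_num)).comp (1 : ℂ)
      ((contDiffAt_norm ℝ one_ne_zero).div_const 2)
  exact h1.add (contDiffAt_const.mul h2)

lemma ang_one (s : ℝ) : ang s 1 = s * (Real.pi / 3) := by
  rw [ang, arg_one, norm_one, zero_add, ← Real.cos_pi_div_three,
    Real.arccos_cos (by positivity) (by linarith [Real.pi_pos])]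

/-- A radius in which the two angle functions are tame. -/
structure Tame (ε : ℝ) (L : ℝ≥0) : Prop where
  pos : 0 < ε
  small : ε ≤ 1 / 4
  lip : ∀ s : ℝ, s = 1 ∨ s = -1 → LipschitzOnWith L (ang s) (closedBall 1 ε)
  near : ∀ s : ℝ, s = 1 ∨ s = -1 → ∀ z ∈ closedBall (1 : ℂ) ε,
    |ang s z - s * (Real.pi / 3)| ≤ 1 / 10 ∧ |arg z| ≤ 1 / 10

lemma exists_tame : ∃ ε L, Tame ε L := by
  obtain ⟨K₁, t₁, ht₁, hL₁⟩ := (contDiffAt_ang 1).exists_lipschitzOnWith
  obtain ⟨K₂, t₂, ht₂, hL₂⟩ := (contDiffAt_ang (-1)).exists_lipschitzOnWith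
  have hn : ∀ s : ℝ, ∀ᶠ z in 𝓝 (1 : ℂ),
      |ang s z - s * (Real.pi / 3)| ≤ 1 / 10 ∧ |arg z| ≤ 1 / 10 := by
    intro s
    have h1 := ((contDiffAt_ang s).continuousAt.sub_const (s * (Real.pi / 3))).abs
    have h2 := (continuousAt_arg Complex.one_mem_slitPlane).abs
    refine (h1.eventually_le_const ?_).and (h2.eventually_le_const ?_)
    · rw [ang_one, sub_self, abs_zero]; norm_num
    · simp
  have hall : ∀ᶠ z in 𝓝 (1 : ℂ), z ∈ t₁ ∧ z ∈ t₂ ∧
      (|ang 1 z - 1 * (Real.pi / 3)| ≤ 1 / 10 ∧ |arg z| ≤ 1 / 10) ∧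
      |ang (-1) z - (-1) * (Real.pi / 3)| ≤ 1 / 10 ∧ |arg z| ≤ 1 / 10 := by
    filter_upwards [ht₁, ht₂, hn 1, hn (-1)] with z a b c d using ⟨a, b, c, d⟩
  obtain ⟨r, hr, hr'⟩ := Metric.nhds_basis_closedBall.eventually_iff.1 hall
  refine ⟨min r (1 / 4), max K₁ K₂, lt_min hr (by norm_num), min_le_right _ _, ?_, ?_⟩
  · rintro s (rfl | rfl)
    · exact (hL₁.mono fun z hz => (hr' (closedBall_subset_closedBall (min_le_left _ _) hz)).1).weaken
        (le_max_left _ _)
    · exact (hL₂.mono fun z hz => (hr' (closedBall_subset_closedBall (min_le_left _ _) hz)).2.1).weaken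
        (le_max_right _ _)
  · rintro s (rfl | rfl) z hz
    · exact (hr' (closedBall_subset_closedBall (min_le_left _ _) hz)).2.2.1
    · exact (hr' (closedBall_subset_closedBall (min_le_left _ _) hz)).2.2.2

/-- The angle on the unit circle about `0` of a point at distance one from `d + pt t`. -/
noncomputable def nb (s : ℝ) (d : ℂ) (t : ℝ) : ℝ := t + ang s (1 + d * pt (-t))

lemma sub_one_norm (d : ℂ) (t : ℝ) : ‖1 + d * pt (-t) - 1‖ = ‖d‖ := by simp

variable {ε : ℝ} {L : ℝ≥0}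

lemma mem_ball_one {d : ℂ} (hd : ‖d‖ ≤ ε) (t : ℝ) : 1 + d * pt (-t) ∈ closedBall (1 : ℂ) ε := by
  rwa [mem_closedBall, dist_eq_norm, sub_one_norm]

lemma dist_nb (h : Tame ε L) {s : ℝ} (hs : s = 1 ∨ s = -1) {d : ℂ} (hd : ‖d‖ ≤ ε) (t : ℝ) :
    dist (d + pt t) (pt (nb s d t)) = 1 := by
  have hz : ‖1 + d * pt (-t)‖ ≤ 2 := by
    refine (norm_add_le _ _).trans ?_
    rw [norm_one, norm_mul, norm_pt, mul_one]
    linarith [h.small]
  have e : d + pt t = pt t * (1 + d * pt (-t)) := by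
    have : pt t * pt (-t) = 1 := by rw [← pt_add, add_neg_cancel, pt_zero]
    linear_combination -d * this
  rw [dist_eq_norm, nb, pt_add, e, ← mul_sub, norm_mul, norm_pt, one_mul, dist_ang hs hz]

lemma nb_nb (h : Tame ε L) {s : ℝ} (hs : s = 1 ∨ s = -1) {d : ℂ} (hd : ‖d‖ ≤ ε) (t : ℝ) :
    nb (-s) (-d) (nb s d t) = t := by
  set z := 1 + d * pt (-t) with hzdef
  set e := ang s z with hedef
  set θ := nb s d t with hθ
  have hθe : θ = t + e := rfl
  set z' := 1 + -d * pt (-θ) with hz'def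
  have hs' : -s = 1 ∨ -s = -1 := by rcases hs with rfl | rfl <;> simp
  obtain ⟨he, -⟩ := h.near s hs z (mem_ball_one hd t)
  have hd' : ‖-d‖ ≤ ε := by rwa [norm_neg]
  obtain ⟨-, ha⟩ := h.near s hs z' (mem_ball_one hd' θ)
  have hz0 : z' ≠ 0 := by
    intro h0
    have := sub_one_norm (-d) θ
    rw [← hz'def, h0, zero_sub, norm_neg, norm_one] at this
    linarith [h.small]
  have hdist : ‖z' - pt (-e)‖ = 1 := by
    have key : z' - pt (-e) = -(pt (-e) * (z - pt e)) := by
      have h1 : pt (-e) * pt e = 1 := by rw [← pt_add, neg_add_cancel, pt_zero]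
      have h2 : pt (-θ) = pt (-e) * pt (-t) := by rw [← pt_add, hθe]; congr 1; ring
      rw [hz'def, h2, hzdef]
      linear_combination -h1
    have hz : ‖z‖ ≤ 2 := by
      refine (norm_add_le _ _).trans ?_
      rw [norm_one, norm_mul, norm_pt, mul_one]
      linarith [h.small]
    rw [key, norm_neg, norm_mul, norm_pt, one_mul, hedef, dist_ang hs hz]
  have hb := abs_le.1 he
  have hb' := abs_le.1 ha
  have hsol := eq_ang hs' hz0 hdist
    (by rcases hs with rfl | rfl <;> linarith [Real.pi_gt_three])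
    (by rcases hs with rfl | rfl <;> linarith [Real.pi_gt_three])
  change θ + ang (-s) z' = t
  rw [← hsol, hθe]
  ring

lemma nb_nb' (h : Tame ε L) {s : ℝ} (hs : s = 1 ∨ s = -1) {d : ℂ} (hd : ‖d‖ ≤ ε) (t : ℝ) :
    nb s d (nb (-s) (-d) t) = t := by
  simpa using nb_nb h (s := -s) (by rcases hs with rfl | rfl <;> simp) (d := -d)
    (by rwa [norm_neg]) t

lemma lipschitz_nb (h : Tame ε L) {s : ℝ} (hs : s = 1 ∨ s = -1) {d : ℂ} (hd : ‖d‖ ≤ ε) :
    LipschitzWith (L + 1) (nb s d) := by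
  refine LipschitzWith.of_dist_le_mul fun a b => ?_
  have h1 : dist (1 + d * pt (-a)) (1 + d * pt (-b)) ≤ dist a b := by
    rw [dist_add_left, dist_eq_norm, ← mul_sub, norm_mul, ← dist_eq_norm]
    calc ‖d‖ * dist (pt (-a)) (pt (-b)) ≤ 1 * dist (-a) (-b) :=
          mul_le_mul (by linarith [h.small]) (dist_pt_le _ _) dist_nonneg zero_le_one
      _ = dist a b := by rw [one_mul, dist_neg_neg]
  have h2 := (h.lip s hs).dist_le_mul _ (mem_ball_one hd a) _ (mem_ball_one hd b)
  calc dist (nb s d a) (nb s d b)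
      ≤ dist a b + dist (ang s (1 + d * pt (-a))) (ang s (1 + d * pt (-b))) := dist_add_add_le _ _ _ _
    _ ≤ dist a b + L * dist a b := by
        gcongr
        exact h2.trans (by gcongr)
    _ = _ := by push_cast; ring

lemma continuous_nb (h : Tame ε L) {s : ℝ} (hs : s = 1 ∨ s = -1) (t : ℝ) :
    ContinuousOn (fun d => nb s d t) (closedBall 0 ε) :=
  continuousOn_const.add ((h.lip s hs).continuousOn.comp (by fun_prop)
    fun _ hd => mem_ball_one (by simpa using hd) t)

/-- The angle maps multiply measures by a bounded factor. -/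
lemma measure_preimage_le (h : Tame ε L) {s : ℝ} (hs : s = 1 ∨ s = -1) {d : ℂ} (hd : ‖d‖ ≤ ε)
    (K : Set ℝ) : volume (nb s d ⁻¹' K) ≤ (L + 1 : ℝ≥0) * volume K := by
  have hsub : nb s d ⁻¹' K ⊆ nb (-s) (-d) '' K := fun t ht => ⟨nb s d t, ht, nb_nb h hs hd t⟩
  refine (measure_mono hsub).trans ?_
  have := (lipschitz_nb h (s := -s) (d := -d) (by rcases hs with rfl | rfl <;> simp)
    (by rwa [norm_neg])).hausdorffMeasure_image_le zero_le_one K
  rwa [hausdorffMeasure_real, ENNReal.rpow_one] at this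

/-- Agreement at two moving angles passes to limits of the parameter. -/
theorem agree {X : Type} [TopologicalSpace X] [FirstCountableTopology X] {S U : Set X}
    (hSU : S ⊆ U) (hd : U ⊆ closure S) {P Q : X → ℝ → ℝ}
    (hP : ∀ x ∈ U, Continuous (P x)) (hQ : ∀ x ∈ U, Continuous (Q x))
    (hPx : ∀ t, ContinuousOn (fun x => P x t) U) (hQx : ∀ t, ContinuousOn (fun x => Q x t) U)
    {C : ℝ≥0} (hPm : ∀ x ∈ U, ∀ K, volume (P x ⁻¹' K) ≤ C * volume K)
    (hQm : ∀ x ∈ U, ∀ K, volume (Q x ⁻¹' K) ≤ C * volume K)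
    {a b R : ℝ} (hR : ∀ x ∈ U, ∀ t ∈ Icc a b, P x t ∈ Icc (-R) R ∧ Q x t ∈ Icc (-R) R)
    {H : Set ℝ} (hH : MeasurableSet H)
    (h : ∀ x ∈ S, ∀ᵐ t ∂volume.restrict (Icc a b), P x t ∈ H ↔ Q x t ∈ H) :
    ∀ x ∈ U, ∀ᵐ t ∂volume.restrict (Icc a b), P x t ∈ H ↔ Q x t ∈ H := by
  set μ := volume.restrict (Icc a b)
  set f : ℝ → ℝ := (H ∩ Icc (-R) R).indicator 1
  have hfint : Integrable f :=
    (integrable_indicator_iff (hH.inter measurableSet_Icc)).2
      ((integrableOn_const (measure_ne_top_of_subset inter_subset_right measure_Icc_lt_top.ne)))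
  have hfm : Measurable f := measurable_one.indicator (hH.inter measurableSet_Icc)
  intro x hx
  suffices hz : ∫⁻ t, ‖f (P x t) - f (Q x t)‖ₑ ∂μ = 0 by
    rw [lintegral_eq_zero_iff (by have := (hP x hx).measurable; have := (hQ x hx).measurable; fun_prop)]
      at hz
    filter_upwards [hz, ae_restrict_mem measurableSet_Icc] with t ht hmem
    obtain ⟨h1, h2⟩ := hR x hx t hmem
    simp only [Pi.zero_apply, enorm_eq_zero, sub_eq_zero, f] at ht
    by_cases hp : P x t ∈ H <;> by_cases hq : Q x t ∈ H <;> simp_all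
  refine le_antisymm (ENNReal.le_of_forall_pos_le_add fun δ hδ _ => ?_) bot_le
  rw [zero_add]
  obtain ⟨η, hη0, hη⟩ : ∃ η : ℝ≥0, 0 < η ∧ 4 * C * η ≤ δ :=
    ⟨δ / (4 * C + 1), by positivity, by
      rw [← mul_div_assoc, div_le_iff₀ (by positivity)]
      exact (mul_comm _ _).trans_le (by gcongr; exact le_self_add)⟩
  obtain ⟨g, hgs, hg, hgc, -⟩ := hfint.exists_hasCompactSupport_lintegral_sub_le
    (ε := (η : ℝ≥0∞)) (by exact_mod_cast hη0.ne')
  obtain ⟨M, hM⟩ := hgc.bounded_above_of_compact_support hgs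
  have hd1 : Measurable fun u => ‖f u - g u‖ₑ := (hfm.sub hgc.measurable).enorm
  -- The error of the continuous approximation along one of the maps.
  have herr : ∀ T : ℝ → ℝ, Measurable T → (∀ K, volume (T ⁻¹' K) ≤ C * volume K) →
      ∫⁻ t, ‖f (T t) - g (T t)‖ₑ ∂μ ≤ C * η := by
    intro T hT hTm
    have hle : Measure.map T μ ≤ (C : ℝ≥0∞) • volume := Measure.le_intro fun K hK _ => by
      rw [Measure.map_apply hT hK, Measure.smul_apply, smul_eq_mul]
      exact (Measure.restrict_apply_le _ _).trans (hTm K)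
    calc ∫⁻ t, ‖f (T t) - g (T t)‖ₑ ∂μ = ∫⁻ u, ‖f u - g u‖ₑ ∂(Measure.map T μ) :=
          (lintegral_map (hfm.sub hgc.measurable).enorm hT).symm
      _ ≤ ∫⁻ u, ‖f u - g u‖ₑ ∂((C : ℝ≥0∞) • volume) := lintegral_mono' hle le_rfl
      _ ≤ C * η := by rw [lintegral_smul_measure, smul_eq_mul]; gcongr
  have hS : ∀ y ∈ S, ∫⁻ t, ‖g (P y t) - g (Q y t)‖ₑ ∂μ ≤ 2 * C * η := by
    intro y hy
    have hP' := (hP y (hSU hy)).measurable
    have hQ' := (hQ y (hSU hy)).measurable
    calc ∫⁻ t, ‖g (P y t) - g (Q y t)‖ₑ ∂μ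
        ≤ ∫⁻ t, ‖f (P y t) - g (P y t)‖ₑ + ‖f (Q y t) - g (Q y t)‖ₑ ∂μ := by
          refine lintegral_mono_ae ?_
          filter_upwards [h y hy, ae_restrict_mem measurableSet_Icc] with t ht hmem
          obtain ⟨h1, h2⟩ := hR y (hSU hy) t hmem
          have hff : f (P y t) = f (Q y t) := by
            by_cases hp : P y t ∈ H
            · simp [f, hp, ht.1 hp, h1, h2]
            · simp [f, hp, mt ht.2 hp]
          rw [show g (P y t) - g (Q y t) =
            (f (Q y t) - g (Q y t)) - (f (P y t) - g (P y t)) by rw [hff]; ring, add_comm]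
          exact enorm_sub_le
      _ ≤ C * η + C * η := by
          rw [lintegral_add_left (show Measurable fun t => ‖f (P y t) - g (P y t)‖ₑ from hd1.comp hP')]
          exact add_le_add (herr _ hP' (hPm y (hSU hy))) (herr _ hQ' (hQm y (hSU hy)))
      _ = 2 * C * η := by ring
  have hxS : ∫⁻ t, ‖g (P x t) - g (Q x t)‖ₑ ∂μ ≤ 2 * C * η := by
    have hne : (𝓝[S] x).NeBot := mem_closure_iff_nhdsWithin_neBot.1 (hd hx)
    refine le_of_tendsto (x := 𝓝[S] x) (tendsto_lintegral_filter_of_dominated_convergence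
      (fun _ => ENNReal.ofReal (2 * M)) ?_ ?_ ?_ ?_)
      (eventually_mem_nhdsWithin.mono hS)
    · filter_upwards [eventually_mem_nhdsWithin] with y hy
      have := hP y (hSU hy); have := hQ y (hSU hy)
      exact Continuous.measurable (by fun_prop)
    · refine Eventually.of_forall fun y => Eventually.of_forall fun t => ?_
      rw [← ofReal_norm_eq_enorm]
      exact ENNReal.ofReal_le_ofReal ((norm_sub_le _ _).trans (by linarith [hM (P y t), hM (Q y t)]))
    · rw [lintegral_const]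
      exact ENNReal.mul_ne_top ENNReal.ofReal_ne_top (measure_ne_top _ _)
    · exact Eventually.of_forall fun t =>
        ((hgc.continuousAt.tendsto.comp ((hPx t x hx).mono hSU)).sub
          (hgc.continuousAt.tendsto.comp ((hQx t x hx).mono hSU))).enorm
  have hP' := (hP x hx).measurable
  have hQ' := (hQ x hx).measurable
  calc ∫⁻ t, ‖f (P x t) - f (Q x t)‖ₑ ∂μ
      ≤ ∫⁻ t, (‖f (P x t) - g (P x t)‖ₑ + ‖f (Q x t) - g (Q x t)‖ₑ) +
          ‖g (P x t) - g (Q x t)‖ₑ ∂μ := by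
        refine lintegral_mono fun t => ?_
        rw [show f (P x t) - f (Q x t) = (f (P x t) - g (P x t)) - (f (Q x t) - g (Q x t)) +
          (g (P x t) - g (Q x t)) by ring]
        exact (enorm_add_le _ _).trans (add_le_add enorm_sub_le le_rfl)
    _ ≤ (C * η + C * η) + 2 * C * η := by
        rw [lintegral_add_left (show Measurable fun t =>
            ‖f (P x t) - g (P x t)‖ₑ + ‖f (Q x t) - g (Q x t)‖ₑ from
            (hd1.comp hP').add (hd1.comp hQ')),
          lintegral_add_left (show Measurable fun t => ‖f (P x t) - g (P x t)‖ₑ from hd1.comp hP')]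
        exact add_le_add (add_le_add (herr _ hP' (hPm x hx)) (herr _ hQ' (hQm x hx))) hxS
    _ = ((4 * C * η : ℝ≥0) : ℝ≥0∞) := by push_cast; ring
    _ ≤ δ := by exact_mod_cast hη

end Vale.Agent.P032.Circle
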