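import Mathlib

/-!
P032: colourings with Baire-property classes give maximal open unit-free families.
-/

namespace Vale.Agent.P032

open Set Filter Topology Metric

/-- Five open sets of the plane without unit distances, each maximal among such sets, whose
closures cover the plane. -/
structure Cover where
  U : Fin 5 → Set ℂ
  isOpen : ∀ i, IsOpen (U i)
  free : ∀ i, ∀ x ∈ U i, ∀ y ∈ U i, dist x y ≠ 1
  maximal : ∀ i p, (∀ y ∈ closure (U i), dist p y ≠ 1) → p ∈ U i
  cover : ∀ p, ∃ i, p ∈ closure (U i)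

namespace Cover

variable (C : Cover)

/-- The closed classes. -/
def K (i : Fin 5) : Set ℂ := closure (C.U i)

/-- The points of some open class. -/
def Inside (p : ℂ) : Prop := ∃ i, p ∈ C.U i

lemma isClosed_K (i : Fin 5) : IsClosed (C.K i) := isClosed_closure

lemma subset_K (i : Fin 5) : C.U i ⊆ C.K i := subset_closure

lemma exists_mem_K (p : ℂ) : ∃ i, p ∈ C.K i := C.cover p

lemma eventually_notMem {i : Fin 5} {p : ℂ} (h : p ∉ C.K i) : ∀ᶠ q in 𝓝 p, q ∉ C.K i :=
  (C.isClosed_K i).isOpen_compl.eventually_mem h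

lemma dist_ne_one {i : Fin 5} {p y : ℂ} (hp : p ∈ C.U i) (hy : y ∈ C.K i) : dist p y ≠ 1 := by
  intro h
  obtain ⟨ε, hε, hb⟩ := Metric.isOpen_iff.1 (C.isOpen i) p hp
  obtain ⟨y', hy', hd⟩ := Metric.mem_closure_iff.1 hy ε hε
  have hp' : p + (y' - y) ∈ C.U i := hb (by
    rw [mem_ball, dist_eq_norm, add_sub_cancel_left, ← dist_eq_norm, dist_comm]; exact hd)
  refine C.free i _ hp' _ hy' ?_
  rw [dist_eq_norm, show p + (y' - y) - y' = p - y by ring, ← dist_eq_norm, h]

/-- A connected piece of a closed class does not cross a unit circle centred in the class. -/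
lemma cross {i : Fin 5} {p : ℂ} {S : Set ℂ} (hS : IsPreconnected S) (hSK : S ⊆ C.K i)
    (hp : p ∈ C.K i) {s t : ℂ} (hs : s ∈ S) (ht : t ∈ S) (h1 : dist s p < 1)
    (h2 : 1 < dist t p) : False := by
  obtain ⟨p', hp', hd⟩ := Metric.mem_closure_iff.1 hp (min (1 - dist s p) (dist t p - 1))
    (lt_min (by linarith) (by linarith))
  rw [lt_min_iff] at hd
  have l1 : dist s p' ≤ 1 := by linarith [dist_triangle s p p', hd.1]
  have l2 : 1 ≤ dist t p' := by linarith [dist_triangle t p' p, dist_comm p' p, hd.2]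
  obtain ⟨y, hy, hy1⟩ := hS.intermediate_value hs ht
    (continuous_id.dist continuous_const).continuousOn (show (1 : ℝ) ∈ Icc _ _ from ⟨l1, l2⟩)
  exact C.dist_ne_one hp' (hSK hy) (by rw [dist_comm]; exact hy1)

/-- A point with a neighbourhood in a closed class lies in the open class. -/
lemma mem_U_of_eventually {i : Fin 5} {p : ℂ} (h : ∀ᶠ q in 𝓝 p, q ∈ C.K i) : p ∈ C.U i := by
  apply C.maximal
  intro y hy hd
  obtain ⟨ε, hε, hb⟩ := Metric.eventually_nhds_iff.1 h
  obtain ⟨y', hy', hd'⟩ := Metric.mem_closure_iff.1 hy ε hε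
  have hq : p + (y' - y) ∈ C.K i := hb (by
    rw [dist_eq_norm, add_sub_cancel_left, ← dist_eq_norm, dist_comm]; exact hd')
  refine C.dist_ne_one hy' hq ?_
  rw [dist_comm, dist_eq_norm, show p + (y' - y) - y' = p - y by ring, ← dist_eq_norm, hd]

/-- A point outside the open classes lies in two closed classes. -/
lemma exists_other {p : ℂ} (hp : ¬ C.Inside p) (i : Fin 5) : ∃ j, j ≠ i ∧ p ∈ C.K j := by
  by_contra h
  push Not at h
  have h' : ∀ᶠ q in 𝓝 p, ∀ j, j ≠ i → q ∉ C.K j :=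
    eventually_all.2 fun j => eventually_imp_distrib_left.2 fun hj => C.eventually_notMem (h j hj)
  refine hp ⟨i, C.mem_U_of_eventually (h'.mono fun q hq => ?_)⟩
  obtain ⟨j, hj⟩ := C.exists_mem_K q
  by_cases hji : j = i
  · exact hji ▸ hj
  · exact absurd hj (hq j hji)

/-- The family moved by an isometry of the plane. -/
def map (e : ℂ ≃ᵢ ℂ) : Cover where
  U i := e ⁻¹' C.U i
  isOpen i := (C.isOpen i).preimage e.continuous
  free i x hx y hy := by rw [← e.dist_eq]; exact C.free i _ hx _ hy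
  maximal i p h := C.maximal i _ fun y hy hd => by
    refine h (e.symm y) ?_ ?_
    · rw [show closure (e ⁻¹' C.U i) = e ⁻¹' closure (C.U i) from
        (e.toHomeomorph.preimage_closure _).symm]
      simpa using hy
    · rw [← e.dist_eq, e.apply_symm_apply, hd]
  cover p := by
    obtain ⟨i, hi⟩ := C.cover (e p)
    refine ⟨i, ?_⟩
    rw [show closure (e ⁻¹' C.U i) = e ⁻¹' closure (C.U i) from
        (e.toHomeomorph.preimage_closure _).symm]
    exact hi

lemma mem_map_U (e : ℂ ≃ᵢ ℂ) (i : Fin 5) (p : ℂ) : p ∈ (C.map e).U i ↔ e p ∈ C.U i := Iff.rfl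

lemma mem_map_K (e : ℂ ≃ᵢ ℂ) (i : Fin 5) (p : ℂ) : p ∈ (C.map e).K i ↔ e p ∈ C.K i := by
  rw [K, K, show closure ((C.map e).U i) = e ⁻¹' closure (C.U i) from
    (e.toHomeomorph.preimage_closure _).symm]
  rfl

/-- The family with the colours renamed. -/
def perm (σ : Equiv.Perm (Fin 5)) : Cover where
  U i := C.U (σ i)
  isOpen i := C.isOpen _
  free i := C.free _
  maximal i := C.maximal _
  cover p := by
    obtain ⟨i, hi⟩ := C.cover p
    exact ⟨σ.symm i, by simpa using hi⟩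

lemma mem_perm_K (σ : Equiv.Perm (Fin 5)) (i : Fin 5) (p : ℂ) :
    p ∈ (C.perm σ).K i ↔ p ∈ C.K (σ i) := Iff.rfl

end Cover

/-- Open unit-free sets are contained in maximal ones. -/
lemma exists_maximal {O : Set ℂ} (hO : IsOpen O) (hfree : ∀ x ∈ O, ∀ y ∈ O, dist x y ≠ 1) :
    ∃ U, O ⊆ U ∧ IsOpen U ∧ (∀ x ∈ U, ∀ y ∈ U, dist x y ≠ 1) ∧
      ∀ p, (∀ y ∈ closure U, dist p y ≠ 1) → p ∈ U := by
  let 𝒮 : Set (Set ℂ) := {V | IsOpen V ∧ ∀ x ∈ V, ∀ y ∈ V, dist x y ≠ 1}
  obtain ⟨U, hOU, hU⟩ := zorn_subset_nonempty 𝒮 (fun c hc hchain _ => by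
    refine ⟨⋃₀ c, ⟨isOpen_sUnion fun V hV => (hc hV).1, ?_⟩, fun V hV => subset_sUnion_of_mem hV⟩
    rintro x ⟨V, hV, hx⟩ y ⟨V', hV', hy⟩
    rcases hchain.total hV hV' with h | h
    · exact (hc hV').2 x (h hx) y hy
    · exact (hc hV).2 x hx y (h hy)) O ⟨hO, hfree⟩
  refine ⟨U, hOU, hU.prop.1, hU.prop.2, fun p hp => ?_⟩
  have hcl : IsClosed ((fun y : ℂ => dist p y) '' (closure U ∩ closedBall p 2)) :=
    (((isCompact_closedBall p 2).inter_left isClosed_closure).image
      (continuous_const.dist continuous_id)).isClosed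
  have h1 : (1 : ℝ) ∉ (fun y : ℂ => dist p y) '' (closure U ∩ closedBall p 2) := by
    rintro ⟨y, ⟨hy, -⟩, h⟩
    exact hp y hy h
  obtain ⟨ε, hε, hb⟩ := Metric.isOpen_iff.1 hcl.isOpen_compl 1 h1
  set r : ℝ := min ε (1 / 4) with hr
  have hr0 : 0 < r := lt_min hε (by norm_num)
  have far : ∀ x ∈ ball p r, ∀ y ∈ U, dist x y ≠ 1 := by
    intro x hx y hy h
    have hx' : dist x p < r := hx
    have e1 : |dist p y - 1| < r := by
      rw [← h]
      calc |dist p y - dist x y| ≤ dist p x := abs_dist_sub_le _ _ _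
        _ < r := by rwa [dist_comm]
    refine hb (by rw [mem_ball, Real.dist_eq]; exact e1.trans_le (min_le_left _ _))
      ⟨y, ⟨subset_closure hy, ?_⟩, rfl⟩
    rw [mem_closedBall, dist_comm]
    linarith [(abs_lt.1 e1).2, min_le_right ε (1 / 4)]
  have hV : U ∪ ball p r ∈ 𝒮 := by
    refine ⟨hU.prop.1.union isOpen_ball, ?_⟩
    rintro x (hx | hx) y (hy | hy)
    · exact hU.prop.2 x hx y hy
    · intro h; exact far y hy x hx (by rw [dist_comm]; exact h)
    · exact far x hx y hy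
    · intro h
      have := dist_triangle_right x y p
      linarith [mem_ball.1 hx, mem_ball.1 hy, min_le_right ε (1 / 4)]
  exact hU.le_of_ge hV subset_union_left (Or.inr (mem_ball_self hr0))

/-- A proper colouring with Baire-property classes gives a maximal open family. -/
theorem exists_cover {f : ℂ → Fin 5} (hf : ∀ x y, dist x y = 1 → f x ≠ f y)
    (hb : ∀ i, BaireMeasurableSet {x | f x = i}) : Nonempty Cover := by
  choose O hO hOe using fun i => (hb i).residualEq_isOpen
  have hfree : ∀ i, ∀ x ∈ O i, ∀ y ∈ O i, dist x y ≠ 1 := by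
    intro i x hx y hy hd
    have he := (hOe i).mem_iff
    have ht : ∀ᶠ z in residual ℂ, (f (z + (y - x)) = i ↔ z + (y - x) ∈ O i) :=
      (tendsto_residual_of_isOpenMap (Homeomorph.addRight (y - x)).continuous
        (Homeomorph.addRight (y - x)).isOpenMap).eventually he
    obtain ⟨z, ⟨hzO, hzO'⟩, hz1, hz2⟩ := (dense_of_mem_residual (he.and ht)).inter_open_nonempty
      (O i ∩ (fun z => z + (y - x)) ⁻¹' O i)
      ((hO i).inter ((hO i).preimage (continuous_id.add continuous_const)))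
      ⟨x, hx, by simpa using hy⟩
    refine hf z (z + (y - x)) ?_ ((hz1.2 hzO).trans (hz2.2 hzO').symm)
    rw [dist_eq_norm, show z - (z + (y - x)) = x - y by ring, ← dist_eq_norm, hd]
  choose U hOU hUo hUf hUm using fun i => exists_maximal (hO i) (hfree i)
  refine ⟨⟨U, hUo, hUf, hUm, fun p => ?_⟩⟩
  have hall : ∀ᶠ z in residual ℂ, z ∈ ⋃ i, O i := by
    have h : ∀ᶠ z in residual ℂ, ∀ i, (f z = i ↔ z ∈ O i) :=
      eventually_all.2 fun i => (hOe i).mem_iff
    exact h.mono fun z hz => mem_iUnion.2 ⟨f z, (hz (f z)).1 rfl⟩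
  have hp : p ∈ closure (⋃ i, O i) := dense_of_mem_residual hall p
  rw [closure_iUnion_of_finite] at hp
  obtain ⟨i, hi⟩ := mem_iUnion.1 hp
  exact ⟨i, closure_mono (hOU i) hi⟩

end Vale.Agent.P032
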