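import Vale.Agent.P032.Plane.TwoColour

/-!
P032: two colours filling a unit circle in outer measure leave three colours in the disc of radius
two about its centre, which a Moser spindle forbids; sets with densely many almost-periods.
-/

namespace Vale.Agent.P032.Disc

open Set Filter Topology Metric MeasureTheory Complex
open scoped ENNReal

/-- A measurable set of reals with a dense family of almost-periods is null or conull. -/
lemma null_or_conull {H : Set ℝ} (hHm : MeasurableSet H) {S : Set ℝ} (hS : Dense S)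
    (hper : ∀ s ∈ S, ∀ᵐ t : ℝ, t + s ∈ H ↔ t ∈ H) : volume H = 0 ∨ volume Hᶜ = 0 := by
  by_cases h0 : volume H = 0
  · exact Or.inl h0
  by_cases h1 : volume Hᶜ = 0
  · exact Or.inr h1
  exfalso
  have hd : ∀ A : Set ℝ, MeasurableSet A → volume A ≠ 0 → ∃ x, Tendsto
      (fun r => volume (A ∩ closedBall x r) / volume (closedBall x r)) (𝓝[>] 0) (𝓝 1) := by
    intro A hA hne
    have := ae_restrict_neBot.2 hne
    exact (Besicovitch.ae_tendsto_measure_inter_div (μ := (volume : Measure ℝ)) A).exists
  obtain ⟨x, hx⟩ := hd H hHm h0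
  obtain ⟨y, hy⟩ := hd Hᶜ hHm.compl h1
  obtain ⟨r, ⟨hr1, hr2⟩, hr : 0 < r⟩ :=
    (((hx.eventually (eventually_gt_nhds
      (show ENNReal.ofReal (3 / 4) < 1 by simp; norm_num))).and
      (hy.eventually (eventually_gt_nhds
      (show ENNReal.ofReal (3 / 4) < 1 by simp; norm_num)))).and self_mem_nhdsWithin).exists
  rw [Real.volume_closedBall, ENNReal.lt_div_iff_mul_lt (by simp [hr]) (by simp),
    ← ENNReal.ofReal_mul (by norm_num)] at hr1 hr2
  obtain ⟨s, hs, hsd⟩ := hS.exists_dist_lt (y - x) (show (0 : ℝ) < r / 4 by positivity)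
  have hmove : volume (H ∩ closedBall (x + s) r) = volume (H ∩ closedBall x r) := by
    rw [← measure_preimage_add_right volume s (H ∩ closedBall (x + s) r)]
    refine measure_congr ?_
    filter_upwards [hper s hs] with t ht
    show (t + s ∈ H ∩ closedBall (x + s) r) = (t ∈ H ∩ closedBall x r)
    simp [ht]
  rw [← hmove] at hr1
  rw [Real.dist_eq, abs_lt] at hsd
  have hsub : H ∩ closedBall (x + s) r ∪ Hᶜ ∩ closedBall y r ⊆
      closedBall y (r + r / 4) := by
    rintro z (⟨-, hz⟩ | ⟨-, hz⟩) <;>
      simp only [mem_closedBall, Real.dist_eq, abs_le] at hz ⊢ <;> constructor <;> linarith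
  have hle := measure_mono (μ := volume) hsub
  rw [measure_union ((disjoint_compl_right).mono inter_subset_left inter_subset_left)
    (hHm.compl.inter measurableSet_closedBall), Real.volume_closedBall] at hle
  have := (ENNReal.add_lt_add hr1 hr2).trans_le hle
  rw [← ENNReal.ofReal_add (by positivity) (by positivity),
    ENNReal.ofReal_lt_ofReal_iff (by positivity)] at this
  linarith

/-- A colour filling a unit circle in outer measure avoids the disc of radius two inside it. -/
lemma null_disc {A : Set ℂ} (hA : NullMeasurableSet A volume)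
    (hfree : ∀ a ∈ A, ∀ b ∈ A, dist a b ≠ 1) {x : ℂ}
    (hfull : ∀ M : Set ℝ, MeasurableSet M →
      volume ({t : ℝ | x + exp ((t : ℂ) * I) ∈ A} ∩ M) = volume M) :
    volume (A ∩ ball x 2) = 0 := by
  obtain ⟨K, hKA, hK, hKe⟩ :=
    (hA.inter measurableSet_ball.nullMeasurableSet).exists_measurable_subset_ae_eq
  rw [← measure_congr hKe, ← measure_preimage_add volume x K]
  set G := (x + ·) ⁻¹' K
  have hG : MeasurableSet G := hK.preimage (measurable_const_add x)
  rw [← lintegral_indicator_one hG, ← Complex.lintegral_comp_polarCoord_symm]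
  have hmeas : Measurable fun p : ℝ × ℝ =>
      ENNReal.ofReal p.1 • G.indicator (1 : ℂ → ℝ≥0∞) (Complex.polarCoord.symm p) := by
    simp only [Complex.polarCoord_symm_apply, smul_eq_mul]
    exact (ENNReal.measurable_ofReal.comp measurable_fst).mul
      (((measurable_one.indicator hG)).comp (Continuous.measurable (by fun_prop)))
  rw [polarCoord_target, Measure.volume_eq_prod, setLIntegral_prod _ hmeas.aemeasurable]
  refine setLIntegral_eq_zero measurableSet_Ioi fun ρ (hρ : 0 < ρ) => ?_
  set p : ℝ → ℂ := fun θ => Complex.polarCoord.symm (ρ, θ) with hpdef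
  have hp : Measurable p := by
    simp only [hpdef, Complex.polarCoord_symm_apply]
    exact Continuous.measurable (by fun_prop)
  suffices hS : volume (p ⁻¹' G) = 0 by
    simp only [smul_eq_mul]
    refine setLIntegral_eq_zero_iff' measurableSet_Ioo ?_ |>.2 ?_
    · exact ((measurable_one.indicator hG).comp hp).const_mul _ |>.aemeasurable
    · filter_upwards [measure_eq_zero_iff_ae_notMem.1 hS] with θ hθ _
      rw [Set.indicator_of_notMem (show p θ ∉ G from hθ), mul_zero]
  by_cases hρ2 : ρ < 2
  swap
  · convert measure_empty (μ := (volume : Measure ℝ))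
    refine eq_empty_of_forall_notMem fun θ hθ => hρ2 ?_
    have : x + p θ ∈ ball x 2 := (hKA hθ).2
    rwa [mem_ball, dist_eq_norm, add_sub_cancel_left, hpdef, Complex.norm_polarCoord_symm,
      abs_of_pos hρ] at this
  set β := Real.arccos (ρ / 2)
  have hcos : Real.cos β = ρ / 2 := Real.cos_arccos (by linarith) (by linarith)
  have hS : MeasurableSet ((· + β) ⁻¹' (p ⁻¹' G)) :=
    (hp hG).preimage (measurable_add_const β)
  rw [← measure_preimage_add_right volume β, ← hfull _ hS]
  convert measure_empty (μ := (volume : Measure ℝ))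
  refine eq_empty_of_forall_notMem fun t ht => ?_
  have key : ∀ θ : ℝ, Real.cos θ * Real.cos t + Real.sin θ * Real.sin t = ρ / 2 →
      normSq (p θ - exp ((t : ℂ) * I)) = 1 := by
    intro θ hc
    rw [Complex.normSq_apply]
    simp [hpdef, Complex.exp_ofReal_mul_I_re, Complex.exp_ofReal_mul_I_im,
      Complex.cos_ofReal_re, Complex.sin_ofReal_re]
    linear_combination (ρ ^ 2) * Real.sin_sq_add_cos_sq θ + Real.sin_sq_add_cos_sq t -
      (2 * ρ) * hc
  refine hfree _ (hKA ht.2).1 _ ht.1 ?_
  rw [dist_add_left, dist_eq_norm, ← Real.sqrt_sq (norm_nonneg _), ← Complex.normSq_eq_norm_sq,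
    Real.sqrt_eq_one]
  exact key (t + β) (by rw [← Real.cos_sub, add_sub_cancel_left, hcos])

/-- A rhombus of two unit triangles coloured from three colours repeats the colour of its tip. -/
lemma rhombus {T : Finset (Fin 5)} (hT : T.card ≤ 3) {a b c d : Fin 5} (ha : a ∈ T) (hb : b ∈ T)
    (hc : c ∈ T) (hd : d ∈ T) (hab : a ≠ b) (hac : a ≠ c) (hbc : b ≠ c) (hdb : d ≠ b)
    (hdc : d ≠ c) : d = a := by
  have h : ({a, b, c} : Finset (Fin 5)) = T := by
    refine Finset.eq_of_subset_of_card_le ?_ ?_
    · simp [Finset.insert_subset_iff, ha, hb, hc]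
    · rw [Finset.card_insert_of_notMem (by simp [hab, hac]), Finset.card_pair hbc]; exact hT
  rw [← h] at hd
  simp only [Finset.mem_insert, Finset.mem_singleton] at hd
  tauto

/-- A disc of radius two whose colours are almost everywhere among three is impossible. -/
lemma no_three {c : ℂ → Fin 5} (hc : ∀ z w, dist z w = 1 → c z ≠ c w) {x : ℂ} {T : Finset (Fin 5)}
    (hT : T.card ≤ 3) (h : ∀ l ∉ T, volume ({z | c z = l} ∩ ball x 2) = 0) : False := by
  set o : ℂ := ⟨1 / 2, Real.sqrt 3 / 2⟩
  set u : ℂ := ⟨5 / 6, Real.sqrt 11 / 6⟩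
  have h3 := Real.mul_self_sqrt (show (0 : ℝ) ≤ 3 by norm_num)
  have h11 := Real.mul_self_sqrt (show (0 : ℝ) ≤ 11 by norm_num)
  have key : ∀ z : ℂ, normSq z = 1 → ‖z‖ = 1 := fun z hz => by
    rw [Complex.norm_def, hz, Real.sqrt_one]
  have ho : ‖o‖ = 1 := key o (by rw [normSq_apply]; simp only [o]; linear_combination h3 / 4)
  have hu : ‖u‖ = 1 := key u (by rw [normSq_apply]; simp only [u]; linear_combination h11 / 36)
  have ho1 : ‖o - 1‖ = 1 := key _ (by
    rw [normSq_apply]
    simp only [o, Complex.sub_re, Complex.sub_im, Complex.one_re, Complex.one_im]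
    linear_combination h3 / 4)
  have hd : ‖u * (1 + o) - (1 + o)‖ = 1 := key _ (by
    rw [normSq_apply]
    simp only [o, u, Complex.sub_re, Complex.sub_im, Complex.mul_re, Complex.mul_im,
      Complex.add_re, Complex.add_im, Complex.one_re, Complex.one_im]
    linear_combination (1 + Real.sqrt 11 * Real.sqrt 11) / 144 * h3 + h11 / 12)
  have h18 : ‖1 + o‖ ≤ 9 / 5 := by
    rw [Complex.norm_def, Real.sqrt_le_left (by norm_num), normSq_apply]
    simp only [o, Complex.add_re, Complex.add_im, Complex.one_re, Complex.one_im]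
    nlinarith
  set P : Finset ℂ := {0, 1, o, 1 + o, u, u * o, u * (1 + o)}
  have hP : ∀ p ∈ P, ‖p‖ ≤ 9 / 5 := by
    intro p hp
    simp only [P, Finset.mem_insert, Finset.mem_singleton] at hp
    rcases hp with rfl | rfl | rfl | rfl | rfl | rfl | rfl
    all_goals try simp only [norm_zero, norm_one, norm_mul, ho, hu, one_mul]
    all_goals first | exact h18 | norm_num
  have hae : ∀ᵐ v : ℂ, ∀ p ∈ P, ∀ l ∉ T, x + p + v ∉ {z | c z = l} ∩ ball x 2 := by
    rw [eventually_all_finset]
    intro p _
    refine eventually_all.2 fun l => ?_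
    by_cases hl : l ∈ T
    · exact Eventually.of_forall fun _ h' => absurd hl h'
    filter_upwards [(measurePreserving_add_left volume (x + p)).quasiMeasurePreserving.ae
      (measure_eq_zero_iff_ae_notMem.1 (h l hl))] with v hv _ using hv
  have := ae_restrict_neBot.2 (measure_ball_pos (volume : Measure ℂ) 0
    (show (0 : ℝ) < 1 / 5 by norm_num)).ne'
  obtain ⟨v, hv, hvb⟩ := ((ae_restrict_of_ae hae).and
    (ae_restrict_mem (measurableSet_ball (x := (0 : ℂ)) (ε := 1 / 5)))).exists
  rw [mem_ball_zero_iff] at hvb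
  have hm : ∀ p ∈ P, c (x + p + v) ∈ T := fun p hp => by
    by_contra hl
    refine hv p hp _ hl ⟨rfl, ?_⟩
    rw [mem_ball, dist_eq_norm, add_assoc, add_sub_cancel_left]
    linarith [norm_add_le p v, hP p hp]
  have hne : ∀ p q : ℂ, ‖p - q‖ = 1 → c (x + p + v) ≠ c (x + q + v) := fun p q h => hc _ _ (by
    rwa [dist_add_right, dist_add_left, dist_eq_norm])
  have e1 : c (x + (1 + o) + v) = c (x + 0 + v) :=
    rhombus hT (a := c (x + 0 + v)) (b := c (x + 1 + v)) (c := c (x + o + v))
      (hm 0 (by simp [P])) (hm 1 (by simp [P])) (hm o (by simp [P])) (hm _ (by simp [P]))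
      (hne _ _ (by simp)) (hne _ _ (by simp [ho])) (hne _ _ (by rw [norm_sub_rev]; exact ho1))
      (hne _ _ (by simp [ho])) (hne _ _ (by simp))
  have e2 : c (x + u * (1 + o) + v) = c (x + 0 + v) :=
    rhombus hT (a := c (x + 0 + v)) (b := c (x + u + v)) (c := c (x + u * o + v))
      (hm 0 (by simp [P])) (hm u (by simp [P])) (hm (u * o) (by simp [P])) (hm _ (by simp [P]))
      (hne _ _ (by simp [hu])) (hne _ _ (by simp [ho, hu]))
      (hne _ _ (by rw [norm_sub_rev, ← mul_sub_one, norm_mul, hu, ho1, one_mul]))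
      (hne _ _ (by rw [mul_add, mul_one, add_sub_cancel_left, norm_mul, hu, ho, one_mul]))
      (hne _ _ (by rw [mul_add, mul_one, add_sub_cancel_right, hu]))
  exact hne _ _ hd (e2.trans e1.symm)

/-- Two colours, each filling one unit circle in outer measure, are impossible. -/
theorem disc_false {c : ℂ → Fin 5} (hc : ∀ z w, dist z w = 1 → c z ≠ c w)
    (hm : ∀ l, NullMeasurableSet {z | c z = l} volume) {x : ℂ} {a b : Fin 5} (hab : a ≠ b)
    (hfull : ∀ l ∈ ({a, b} : Set (Fin 5)), ∀ N : Set ℝ, MeasurableSet N →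
      {t : ℝ | c (x + exp (t * I)) = l} ⊆ N → volume Nᶜ = 0) : False := by
  classical
  refine no_three hc (x := x) (T := (Finset.univ.erase a).erase b) ?_ fun l hl => ?_
  · rw [Finset.card_erase_of_mem (by simp [hab.symm]), Finset.card_erase_of_mem (by simp)]
    simp
  refine null_disc (hm l) (fun z hz z' hz' h => hc z z' h
    ((show c z = l from hz).trans (show c z' = l from hz').symm)) fun M hM => ?_
  have hl' : l ∈ ({a, b} : Set (Fin 5)) := by
    simp only [Finset.mem_erase, Finset.mem_univ, and_true, not_and_or, not_ne_iff] at hl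
    simp only [mem_insert_iff, mem_singleton_iff]
    tauto
  simp only [mem_ofPred_eq]
  rw [← Measure.measure_toMeasurable_inter_of_sFinite hM, inter_comm,
    measure_inter_conull (hfull l hl' _ (measurableSet_toMeasurable _ _)
      (subset_toMeasurable _ _))]

end Vale.Agent.P032.Disc
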