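import Vale.Agent.P032.Plane.Circle

/-!
P032: if the circles about a dense set of nearby points use two colours, then on one of these
circles each of the two colours has full outer measure.
-/

namespace Vale.Agent.P032.Circle

open Set Filter Topology Metric MeasureTheory Complex
open scoped ENNReal NNReal

lemma pt_two_pi (n : ℤ) : pt (2 * Real.pi * n) = 1 := by
  rw [pt, show ((2 * Real.pi * n : ℝ) : ℂ) * I = n * (2 * Real.pi * I) by push_cast; ring]
  exact Complex.exp_int_mul_two_pi_mul_I n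

lemma dist_pt_sixty (t : ℝ) : dist (pt t) (pt (t + Real.pi / 3)) = 1 := by
  have h : ‖(1 : ℂ) - pt (ang 1 1)‖ = 1 := dist_ang (Or.inl rfl) (by simp)
  rw [dist_eq_norm, pt_add, ← mul_one_sub, norm_mul, norm_pt, one_mul]
  rwa [ang_one, one_mul] at h

lemma ang_shift (s : ℝ) (d : ℂ) (t : ℝ) (hz : 1 + d * pt (-t) ≠ 0) :
    ∃ n : ℤ, ang s (d + pt t) = nb s d t + 2 * Real.pi * n := by
  have e : d + pt t = pt t * (1 + d * pt (-t)) := by
    have : pt t * pt (-t) = 1 := by rw [← pt_add, add_neg_cancel, pt_zero]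
    linear_combination -d * this
  have ha : ((arg (d + pt t) : ℝ) : Real.Angle) = ((t + arg (1 + d * pt (-t)) : ℝ) : Real.Angle) := by
    rw [e, arg_mul_coe_angle (pt_ne t) hz, Real.Angle.coe_add, pt, Complex.arg_exp_mul_I]
    congr 1
    exact Real.Angle.coe_toIocMod t _
  obtain ⟨n, hn⟩ := Real.Angle.angle_eq_iff_two_pi_dvd_sub.1 ha
  refine ⟨n, ?_⟩
  have hnorm : ‖d + pt t‖ = ‖1 + d * pt (-t)‖ := by rw [e, norm_mul, norm_pt, one_mul]
  simp only [ang, nb, hnorm]
  linarith

variable {H : Set ℝ}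

/-- A periodic condition that holds almost everywhere on one period holds almost everywhere. -/
lemma ae_of_period {p : ℝ → Prop} (hp : ∀ t, ∀ n : ℤ, p (t + 2 * Real.pi * n) ↔ p t)
    (h : ∀ᵐ t ∂volume.restrict (Ioo (-Real.pi) Real.pi), p t) : ∀ᵐ t : ℝ, p t := by
  rw [Measure.restrict_congr_set Ioo_ae_eq_Ioc, ae_restrict_iff' measurableSet_Ioc, ae_iff] at h
  rw [ae_iff]
  refine measure_mono_null (t := ⋃ n : ℤ, (fun t => t + 2 * Real.pi * n) ⁻¹'
    {t | ¬ (t ∈ Ioc (-Real.pi) Real.pi → p t)}) (fun t ht => ?_)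
    (measure_iUnion_null fun n => by rw [measure_preimage_add_right]; exact h)
  refine mem_iUnion.2 ⟨-toIocDiv Real.two_pi_pos (-Real.pi) t, fun hh => ht ?_⟩
  refine (hp t _).1 (hh ?_)
  have := toIocMod_mem_Ioc Real.two_pi_pos (-Real.pi) t
  rw [show -Real.pi + 2 * Real.pi = Real.pi by ring, toIocMod, zsmul_eq_mul] at this
  push_cast
  convert this using 1
  ring

/-- A periodic set invariant under the rotations by all small angles is null or conull. -/
lemma const_of_periods (hH : MeasurableSet H) {κ : ℝ} (hκ : 0 < κ)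
    (h : ∀ a, |a| < κ → ∀ᵐ u : ℝ, (u + a ∈ H ↔ u ∈ H)) :
    (∀ᵐ t : ℝ, t ∈ H) ∨ ∀ᵐ t : ℝ, t ∉ H := by
  have hall : ∀ a, ∀ᵐ u : ℝ, (u + a ∈ H ↔ u ∈ H) := by
    intro a
    obtain ⟨n, hn⟩ := exists_nat_gt (|a| / κ)
    have hn0 : (0 : ℝ) < n := lt_of_le_of_lt (by positivity) hn
    set b := a / n
    have hb : |b| < κ := by
      rw [abs_div, abs_of_pos hn0, div_lt_iff₀ hn0]
      rwa [div_lt_iff₀ hκ, mul_comm] at hn
    have hk : ∀ k : ℕ, ∀ᵐ u : ℝ, (u + k * b ∈ H ↔ u ∈ H) := by
      intro k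
      induction k with
      | zero => simp
      | succ k ih =>
        filter_upwards [ih, (measurePreserving_add_right volume ((k : ℝ) * b)).quasiMeasurePreserving.ae
          (h b hb)] with u hu hu'
        rw [show u + ((k + 1 : ℕ) : ℝ) * b = u + k * b + b by push_cast; ring]
        exact hu'.trans hu
    have := hk n
    rwa [mul_div_cancel₀ a hn0.ne'] at this
  have hm : MeasurableSet {p : ℝ × ℝ | (p.1 + p.2 ∈ H ↔ p.1 ∈ H)} :=
    ((hH.preimage (measurable_fst.add measurable_snd)).mem.iff (hH.preimage measurable_fst).mem)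
      |> measurableSet_setOfPred.2
  have hsw : ∀ᵐ u : ℝ, ∀ᵐ a : ℝ, (u + a ∈ H ↔ u ∈ H) :=
    (Measure.ae_ae_comm hm).2 (Eventually.of_forall hall)
  obtain ⟨u, hu⟩ := hsw.exists
  have ha := (measurePreserving_add_left volume (-u)).quasiMeasurePreserving.ae hu
  by_cases huH : u ∈ H
  · exact Or.inl (ha.mono fun t ht => by simpa [huH] using ht)
  · exact Or.inr (ha.mono fun t ht => by simpa [huH] using ht)

/-- If all circles about a dense set of nearby centres use the two colours `l` and `m`, then no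
positive measurable set of angles avoids `l` on the circle about `x`. -/
theorem full_measure {c : ℂ → Fin 5} (hc : ∀ z w, dist z w = 1 → c z ≠ c w) {x : ℂ} {l m : Fin 5}
    {r₀ : ℝ} (hr₀ : 0 < r₀) {S : Set ℂ} (hS : ball 0 r₀ ⊆ closure S)
    (h0 : ∀ᵐ t : ℝ, c (x + pt t) = l ∨ c (x + pt t) = m)
    (h : ∀ d ∈ S, ∀ᵐ t : ℝ, c (x + d + pt t) = l ∨ c (x + d + pt t) = m)
    {K : Set ℝ} (hK : MeasurableSet K) (hKl : ∀ t ∈ K, c (x + pt t) ≠ l) : volume K = 0 := by
  obtain ⟨ε, L, hε⟩ := exists_tame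
  set r := min r₀ ε
  have hr : 0 < r := lt_min hr₀ hε.pos
  have hsmall : ∀ d ∈ ball (0 : ℂ) r, ‖d‖ ≤ ε := fun d hd =>
    (mem_ball_zero_iff.1 hd).le.trans (min_le_right _ _)
  set F := {t : ℝ | c (x + pt t) = l}
  have hFper : ∀ t, ∀ n : ℤ, (t + 2 * Real.pi * n ∈ F ↔ t ∈ F) := fun t n => by
    simp only [F, mem_ofPred_eq, pt_add, pt_two_pi, mul_one]
  set H := ⋂ n : ℤ, (fun t : ℝ => t + 2 * Real.pi * n) ⁻¹' toMeasurable volume F
  have hFH : F ⊆ H := fun t ht => mem_iInter.2 fun n =>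
    subset_toMeasurable _ _ ((hFper t n).2 ht)
  have hH : MeasurableSet H := MeasurableSet.iInter fun n =>
    (measurableSet_toMeasurable _ _).preimage (measurable_id.add_const _)
  have hHper : ∀ t, ∀ n : ℤ, (t + 2 * Real.pi * n ∈ H ↔ t ∈ H) := by
    intro t n
    simp only [H, mem_iInter, mem_preimage]
    refine ⟨fun hh k => ?_, fun hh k => ?_⟩
    · simpa [add_assoc, ← mul_add] using hh (k - n)
    · simpa [add_assoc, ← mul_add] using hh (n + k)
  have hhull : ∀ B : Set ℝ, MeasurableSet B → volume (B ∩ F) = 0 → volume (B ∩ H) = 0 := by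
    intro B hB hBF
    refine measure_mono_null (inter_subset_inter_right B (t := toMeasurable volume F) ?_) ?_
    · intro t ht; simpa using mem_iInter.1 ht 0
    · rwa [inter_comm, Measure.measure_toMeasurable_inter_of_sFinite hB, inter_comm]
  have hpm : ∀ s : ℝ, s = 1 ∨ s = -1 → -s = 1 ∨ -s = -1 := by rintro s (rfl | rfl) <;> simp
  have hnull : ∀ s : ℝ, (s = 1 ∨ s = -1) → ∀ d : ℂ, ‖d‖ ≤ ε → ∀ B, volume B = 0 →
      volume (nb s d ⁻¹' B) = 0 := fun s hs d hd B hB => by
    simpa [hB] using measure_preimage_le hε hs hd B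
  -- Step 1: the hull takes equal values at the two neighbours, for the dense set of centres.
  have hrel : ∀ d ∈ S ∩ ball 0 r, ∀ᵐ t : ℝ, (nb 1 d t ∈ H ↔ nb (-1) d t ∈ H) := by
    rintro d ⟨hdS, hdr⟩
    have hd := hsmall d hdr
    have hF : ∀ᵐ t : ℝ, (nb 1 d t ∈ F ↔ nb (-1) d t ∈ F) := by
      have hp : ∀ s : ℝ, (s = 1 ∨ s = -1) →
          ∀ᵐ t : ℝ, c (x + pt (nb s d t)) = l ∨ c (x + pt (nb s d t)) = m := fun s hs =>
        ae_iff.2 (hnull s hs d hd _ (ae_iff.1 h0))
      filter_upwards [h d hdS, hp 1 (Or.inl rfl), hp (-1) (Or.inr rfl)] with t hq h1 h2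
      have hne : ∀ s : ℝ, (s = 1 ∨ s = -1) → c (x + d + pt t) ≠ c (x + pt (nb s d t)) :=
        fun s hs => hc _ _ (by rw [add_assoc, dist_add_left]; exact dist_nb hε hs hd t)
      have n1 := hne 1 (Or.inl rfl)
      have n2 := hne (-1) (Or.inr rfl)
      simp only [F, mem_ofPred_eq]
      rcases hq with hq | hq <;> rw [hq] at n1 n2
      · exact iff_of_false (Ne.symm n1) (Ne.symm n2)
      · exact iff_of_true (h1.resolve_right (Ne.symm n1)) (h2.resolve_right (Ne.symm n2))
    have hdir : ∀ s : ℝ, (s = 1 ∨ s = -1) → ∀ᵐ t : ℝ, nb s d t ∈ H → nb (-s) d t ∈ H := by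
      intro s hs
      set B := {t | nb s d t ∈ H ∧ nb (-s) d t ∉ H}
      have hB : MeasurableSet B :=
        (hH.preimage (lipschitz_nb hε hs hd).continuous.measurable).inter
          (hH.preimage (lipschitz_nb hε (hpm s hs) hd).continuous.measurable).compl
      set ψ := nb (-s) (-d)
      have hψ : Continuous ψ := (lipschitz_nb hε (hpm s hs) (by rwa [norm_neg])).continuous
      have hBF : volume (ψ ⁻¹' B ∩ F) = 0 := by
        refine measure_mono_null (t := ψ ⁻¹' {t | ¬ (nb 1 d t ∈ F ↔ nb (-1) d t ∈ F)})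
          (fun u ⟨hu, huF⟩ hiff => hu.2 (hFH ?_))
          (hnull (-s) (hpm s hs) (-d) (by rwa [norm_neg]) _ (ae_iff.1 hF))
        have e : nb s d (ψ u) ∈ F := by rwa [nb_nb' hε hs hd u]
        rcases hs with rfl | rfl
        · exact hiff.1 e
        · rw [neg_neg]; exact hiff.2 e
      rw [ae_iff]
      refine measure_mono_null (t := nb s d ⁻¹' (ψ ⁻¹' B ∩ H)) (fun t ht => ?_)
        (hnull s hs d hd _ (hhull _ (hB.preimage hψ.measurable) hBF))
      have ht' := Classical.not_imp.1 ht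
      refine ⟨?_, ht'.1⟩
      show nb (-s) (-d) (nb s d t) ∈ B
      rw [nb_nb hε hs hd t]
      exact ht'
    filter_upwards [hdir 1 (Or.inl rfl), hdir (-1) (Or.inr rfl)] with t a b
    exact ⟨a, by simpa using b⟩
  -- Step 2: hence for every nearby centre.
  set μI := volume.restrict (Icc (-4 : ℝ) 4)
  have hagree : ∀ d ∈ ball (0 : ℂ) r, ∀ᵐ t ∂μI, (nb 1 d t ∈ H ↔ nb (-1) d t ∈ H) := by
    have hbd : ∀ s : ℝ, (s = 1 ∨ s = -1) → ∀ d ∈ ball (0 : ℂ) r, ∀ t ∈ Icc (-4 : ℝ) 4,
        nb s d t ∈ Icc (-6 : ℝ) 6 := by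
      intro s hs d hd t ht
      have := abs_le.1 (hε.near s hs _ (mem_ball_one (hsmall d hd) t)).1
      simp only [nb, mem_Icc] at ht ⊢
      rcases hs with rfl | rfl <;> constructor <;> linarith [Real.pi_gt_three, Real.pi_le_four]
    exact agree (P := nb 1) (Q := nb (-1)) (S := S ∩ ball 0 r) inter_subset_right
      (fun d hd => by
        rw [inter_comm]
        exact isOpen_ball.inter_closure ⟨hd, hS (ball_subset_ball (min_le_left _ _) hd)⟩)
      (fun d hd => (lipschitz_nb hε (Or.inl rfl) (hsmall d hd)).continuous)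
      (fun d hd => (lipschitz_nb hε (Or.inr rfl) (hsmall d hd)).continuous)
      (fun t => (continuous_nb hε (Or.inl rfl) t).mono fun d hd => mem_closedBall_zero_iff.2 (hsmall d hd))
      (fun t => (continuous_nb hε (Or.inr rfl) t).mono fun d hd => mem_closedBall_zero_iff.2 (hsmall d hd))
      (fun d hd => measure_preimage_le hε (Or.inl rfl) (hsmall d hd))
      (fun d hd => measure_preimage_le hε (Or.inr rfl) (hsmall d hd))
      (fun d hd t ht => ⟨hbd 1 (Or.inl rfl) d hd t ht, hbd (-1) (Or.inr rfl) d hd t ht⟩) hH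
      (fun d hd => ae_restrict_of_ae (hrel d hd))
  -- Step 3: hence at almost every point of a thin annulus.
  set Z := {q : ℂ | ¬ (ang 1 q ∈ H ↔ ang (-1) q ∈ H)}
  have hangm : ∀ s : ℝ, Measurable (ang s) := fun s => by unfold ang; fun_prop
  have hZ : MeasurableSet Z :=
    (measurableSet_setOfPred.2 ((hH.preimage (hangm 1)).mem.iff (hH.preimage (hangm (-1))).mem)).compl
  have hshear : ∀ᵐ t ∂μI, volume (Z ∩ ball (pt t) r) = 0 := by
    have hW : MeasurableSet {p : ℂ × ℝ | p.1 + pt p.2 ∉ Z} :=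
      (hZ.preimage (measurable_fst.add (continuous_pt.measurable.comp measurable_snd))).compl
    have h1 : ∀ᵐ d ∂volume.restrict (ball (0 : ℂ) r), ∀ᵐ t ∂μI, d + pt t ∉ Z := by
      filter_upwards [ae_restrict_mem measurableSet_ball] with d hd
      filter_upwards [hagree d hd] with t ht
      have hz : 1 + d * pt (-t) ≠ 0 := by
        intro h0
        have := sub_one_norm d t
        rw [h0, zero_sub, norm_neg, norm_one] at this
        linarith [hsmall d hd, hε.small]
      obtain ⟨n1, e1⟩ := ang_shift 1 d t hz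
      obtain ⟨n2, e2⟩ := ang_shift (-1) d t hz
      simpa only [Z, mem_ofPred_eq, not_not, e1, e2, hHper] using ht
    filter_upwards [(Measure.ae_ae_comm hW).1 h1] with t ht
    rw [ae_restrict_iff' measurableSet_ball, ae_iff] at ht
    rw [← measure_preimage_add_right volume (pt t)]
    refine measure_mono_null (fun d hd => ?_) ht
    obtain ⟨hdZ, hdb⟩ := hd
    simp only [mem_ofPred_eq, Classical.not_imp, not_not]
    exact ⟨by simpa [mem_ball, dist_eq_norm] using hdb, hdZ⟩
  have hann : volume (Z ∩ {q : ℂ | |‖q‖ - 1| < r / 2}) = 0 := by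
    set T := {t : ℝ | volume (Z ∩ ball (pt t) r) = 0}
    obtain ⟨J, hJ, hJU⟩ := TopologicalSpace.isOpen_iUnion_countable
      (fun t : T => ball (pt t) r) fun _ => isOpen_ball
    have hnull' : volume (⋃ t ∈ J, Z ∩ ball (pt (t : ℝ)) r) = 0 :=
      (measure_biUnion_null_iff hJ).2 fun t _ => t.2
    refine measure_mono_null ?_ hnull'
    rw [← inter_iUnion₂, hJU]
    refine inter_subset_inter_right Z fun q hq => ?_
    have hq' : |‖q‖ - 1| < r / 2 := hq
    obtain ⟨t, ht, htT⟩ : ∃ t ∈ Ioo (arg q - r / 2) (arg q + r / 2), t ∈ T := by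
      by_contra hne
      push Not at hne
      have h1 := ae_iff.1 hshear
      rw [Measure.restrict_apply' measurableSet_Icc] at h1
      have h2 : volume (Ioo (max (arg q - r / 2) (-4)) (min (arg q + r / 2) 4)) = 0 := by
        refine measure_mono_null (fun t ht => ?_) h1
        simp only [mem_Ioo, max_lt_iff, lt_min_iff] at ht
        exact ⟨hne t ⟨ht.1.1, ht.2.1⟩, ht.1.2.le, ht.2.2.le⟩
      rw [Real.volume_Ioo, ENNReal.ofReal_eq_zero] at h2
      have := neg_pi_lt_arg q
      have := arg_le_pi q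
      have := Real.pi_lt_four
      have : max (arg q - r / 2) (-4) < min (arg q + r / 2) 4 :=
        lt_min (max_lt (by linarith) (by linarith)) (max_lt (by linarith) (by norm_num))
      linarith
    refine mem_iUnion.2 ⟨⟨t, htT⟩, mem_ball.2 ?_⟩
    calc dist q (pt t) ≤ dist q (pt (arg q)) + dist (pt (arg q)) (pt t) := dist_triangle _ _ _
      _ ≤ |‖q‖ - 1| + dist (arg q) t := by
          refine add_le_add (le_of_eq ?_) (dist_pt_le _ _)
          have e : q - pt (arg q) = ((‖q‖ - 1 : ℝ) : ℂ) * pt (arg q) := by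
            rw [ofReal_sub, ofReal_one, sub_one_mul, pt, Complex.norm_mul_exp_arg_mul_I]
          rw [dist_eq_norm, e, norm_mul, norm_pt, mul_one, norm_real, Real.norm_eq_abs]
      _ < r := by
          have : dist (arg q) t < r / 2 := by
            rw [Real.dist_eq, abs_lt]; constructor <;> linarith [ht.1, ht.2]
          linarith
  -- Step 4: polar coordinates give periods.
  have hper : ∀ᵐ ρ ∂volume.restrict (Ioo (1 - r / 2) (1 + r / 2)), ∀ᵐ u : ℝ,
      (u + 2 * Real.arccos (ρ / 2) ∈ H ↔ u ∈ H) := by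
    have hA : MeasurableSet (Z ∩ {q : ℂ | |‖q‖ - 1| < r / 2}) :=
      hZ.inter (measurableSet_lt (by fun_prop) measurable_const)
    have hmeas : Measurable fun p : ℝ × ℝ => ENNReal.ofReal p.1 •
        (Z ∩ {q : ℂ | |‖q‖ - 1| < r / 2}).indicator (1 : ℂ → ℝ≥0∞) (Complex.polarCoord.symm p) := by
      simp only [Complex.polarCoord_symm_apply, smul_eq_mul]
      exact (ENNReal.measurable_ofReal.comp measurable_fst).mul
        ((measurable_one.indicator hA).comp (Continuous.measurable (by fun_prop)))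
    rw [← lintegral_indicator_one hA, ← Complex.lintegral_comp_polarCoord_symm,
      polarCoord_target, Measure.volume_eq_prod, setLIntegral_prod _ hmeas.aemeasurable,
      lintegral_eq_zero_iff (Measurable.lintegral_prod_right' hmeas)] at hann
    have hsub : Ioo (1 - r / 2) (1 + r / 2) ⊆ Ioi 0 := fun ρ hρ => by
      have : r ≤ 1 / 4 := (min_le_right _ _).trans hε.small
      exact lt_trans (by linarith) hρ.1
    filter_upwards [ae_restrict_of_ae_restrict_of_subset hsub hann,
      ae_restrict_mem measurableSet_Ioo] with ρ hρ hρI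
    have hρ0 : 0 < ρ := hsub hρI
    rw [Pi.zero_apply, lintegral_eq_zero_iff (f := fun t => ENNReal.ofReal ρ •
      (Z ∩ {q : ℂ | |‖q‖ - 1| < r / 2}).indicator (1 : ℂ → ℝ≥0∞) (Complex.polarCoord.symm (ρ, t)))
      (hmeas.comp measurable_prodMk_left)] at hρ
    set β := Real.arccos (ρ / 2)
    have h1 : ∀ᵐ t ∂volume.restrict (Ioo (-Real.pi) Real.pi), (t + β ∈ H ↔ t - β ∈ H) := by
      filter_upwards [hρ, ae_restrict_mem measurableSet_Ioo] with t ht htI
      rw [Pi.zero_apply, smul_eq_mul, mul_eq_zero] at ht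
      replace ht := indicator_apply_eq_zero.1 (ht.resolve_left (ENNReal.ofReal_pos.2 hρ0).ne')
      set q := Complex.polarCoord.symm (ρ, t) with hq
      have hn : ‖q‖ = ρ := by rw [hq, Complex.norm_polarCoord_symm, abs_of_pos hρ0]
      have ha : arg q = t := by
        rw [hq, Complex.polarCoord_symm_apply]
        simpa only [ofReal_cos, ofReal_sin] using
          Complex.arg_mul_cos_add_sin_mul_I hρ0 ⟨htI.1, htI.2.le⟩
      by_contra hne
      refine one_ne_zero (α := ℝ≥0∞) (ht ⟨?_, ?_⟩)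
      · simpa [Z, ang, ha, hn, sub_eq_add_neg] using hne
      · show |‖q‖ - 1| < r / 2
        rw [hn, abs_lt]
        constructor <;> linarith [hρI.1, hρI.2]
    have h2 : ∀ᵐ t : ℝ, (t + β ∈ H ↔ t - β ∈ H) := ae_of_period (fun t n => by
      rw [add_right_comm, add_sub_right_comm, hHper, hHper]) h1
    filter_upwards [(measurePreserving_add_right volume β).quasiMeasurePreserving.ae h2] with u hu
    rwa [add_sub_cancel_right, add_assoc, ← two_mul] at hu
  -- Step 5: all rotations.
  have hperall : ∀ ρ ∈ Ioo (1 - r / 2) (1 + r / 2), ∀ᵐ u : ℝ,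
      (u + 2 * Real.arccos (ρ / 2) ∈ H ↔ u ∈ H) := by
    intro ρ hρ
    set G := {ρ : ℝ | ∀ᵐ u : ℝ, (u + 2 * Real.arccos (ρ / 2) ∈ H ↔ u ∈ H)}
    have := agree (P := fun ρ t => t + 2 * Real.arccos (ρ / 2)) (Q := fun _ t => t) (C := 1)
      (S := G ∩ Ioo (1 - r / 2) (1 + r / 2)) inter_subset_right (U := Ioo (1 - r / 2) (1 + r / 2))
      (fun y hy => by
        rw [inter_comm]
        refine isOpen_Ioo.inter_closure ⟨hy, Metric.mem_closure_iff.2 fun η hη => ?_⟩
        by_contra hne
        push Not at hne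
        have h1 := ae_iff.1 hper
        rw [Measure.restrict_apply' measurableSet_Ioo] at h1
        have h2 : volume (Ioo (max (y - η) (1 - r / 2)) (min (y + η) (1 + r / 2))) = 0 := by
          refine measure_mono_null (fun t ht => ?_) h1
          simp only [mem_Ioo, max_lt_iff, lt_min_iff] at ht
          refine ⟨fun hg => not_lt.2 (hne t hg) ?_, ht.1.2, ht.2.2⟩
          rw [Real.dist_eq, abs_lt]; constructor <;> linarith [ht.1.1, ht.2.1]
        rw [Real.volume_Ioo, ENNReal.ofReal_eq_zero] at h2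
        have : max (y - η) (1 - r / 2) < min (y + η) (1 + r / 2) :=
          lt_min (max_lt (by linarith) (by linarith [hy.1])) (max_lt (by linarith [hy.2]) (by linarith))
        linarith)
      (fun _ _ => by fun_prop) (fun _ _ => continuous_id)
      (fun t => (Continuous.continuousOn (by fun_prop))) (fun t => continuousOn_const)
      (fun _ _ K => by rw [measure_preimage_add_right]; simp) (fun _ _ K => by simp)
      (a := -Real.pi) (b := Real.pi) (R := 12)
      (fun y _ t ht => by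
        have := Real.arccos_nonneg (y / 2)
        have := Real.arccos_le_pi (y / 2)
        have := Real.pi_lt_four
        simp only [mem_Icc] at ht ⊢
        refine ⟨⟨?_, ?_⟩, ?_, ?_⟩ <;> linarith) hH
      (fun y hy => ae_restrict_of_ae hy.1) ρ hρ
    exact ae_of_period (fun t n => by rw [add_right_comm, hHper, hHper])
      (ae_restrict_of_ae_restrict_of_subset Ioo_subset_Icc_self this)
  obtain ⟨κ, hκ, hκ'⟩ : ∃ κ > 0, ∀ v, |v| < κ →
      2 * Real.cos (Real.pi / 3 + v / 2) ∈ Ioo (1 - r / 2) (1 + r / 2) ∧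
        |v| / 2 < Real.pi / 3 := by
    have hev : ∀ᶠ v in 𝓝 (0 : ℝ), 2 * Real.cos (Real.pi / 3 + v / 2) ∈ Ioo (1 - r / 2) (1 + r / 2) ∧
        |v| / 2 < Real.pi / 3 := by
      refine (ContinuousAt.eventually_mem (by fun_prop) (isOpen_Ioo.mem_nhds ?_)).and
        (Tendsto.eventually_lt_const (v := 0) (by positivity) ?_)
      · simp [hr]
      · exact Continuous.tendsto' (by fun_prop) _ _ (by simp)
    obtain ⟨κ, hκ, hh⟩ := Metric.eventually_nhds_iff.1 hev
    exact ⟨κ, hκ, fun v hv => hh (by simpa [Real.dist_eq] using hv)⟩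
  have hperiod : ∀ v, |v| < κ → ∀ᵐ u : ℝ, (u + (2 * (Real.pi / 3) + v) ∈ H ↔ u ∈ H) := by
    intro v hv
    obtain ⟨hm', hv'⟩ := hκ' v hv
    have := hperall _ hm'
    rw [show 2 * Real.cos (Real.pi / 3 + v / 2) / 2 = Real.cos (Real.pi / 3 + v / 2) by ring,
      Real.arccos_cos (by linarith [abs_nonneg v, neg_abs_le v]) (by
        linarith [le_abs_self v, Real.pi_pos])] at this
    rwa [show 2 * (Real.pi / 3 + v / 2) = 2 * (Real.pi / 3) + v by ring] at this
  have hsmallp : ∀ v, |v| < κ → ∀ᵐ u : ℝ, (u + v ∈ H ↔ u ∈ H) := by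
    intro v hv
    filter_upwards [(measurePreserving_add_right volume (-(2 * (Real.pi / 3)))).quasiMeasurePreserving.ae
      ((hperiod v hv).and (hperiod 0 (by simpa using hκ)))] with u hu
    obtain ⟨h1, h2⟩ := hu
    rw [show u + -(2 * (Real.pi / 3)) + (2 * (Real.pi / 3) + v) = u + v by ring] at h1
    rw [show u + -(2 * (Real.pi / 3)) + (2 * (Real.pi / 3) + 0) = u by ring] at h2
    exact h1.trans h2.symm
  rcases const_of_periods hH hκ hsmallp with hfull | hnone
  · refine measure_mono_null (t := K ∩ H ∪ {t | ¬ t ∈ H}) (fun t ht => ?_)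
      (measure_union_null_iff.2 ⟨hhull K hK ?_, ae_iff.1 hfull⟩)
    · by_cases htH : t ∈ H
      exacts [Or.inl ⟨ht, htH⟩, Or.inr htH]
    · exact measure_mono_null (fun t ht => (hKl t ht.1 ht.2).elim) measure_empty
  · exfalso
    have hm : ∀ᵐ t : ℝ, c (x + pt t) = m := by
      filter_upwards [h0, hnone] with t ht hn
      exact ht.resolve_left fun hl => hn (hFH hl)
    obtain ⟨t, h1, h2⟩ := (hm.and ((measurePreserving_add_right volume (Real.pi / 3)
      ).quasiMeasurePreserving.ae hm)).exists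
    exact hc _ _ (by rw [dist_add_left]; exact dist_pt_sixty t) (h1.trans h2.symm)

end Vale.Agent.P032.Circle
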