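import Vale.Agent.P032.Main.Impossible

/-!
P032: a measurable five-colouring of the plane has a disc mixing three or more classes in every
subdisc, and containing no connected piece of any class.

A pair `x ≠ y` in the support of a class is banned when the class is null on the two strips
between the unit circles about `x` and `y`. The closed sets of limits of banned pairs have
unit-free interiors. Two classes filling a square always give a banned pair.
-/

namespace Vale.Agent.P032.Mixture

open Set Filter Topology Metric MeasureTheory Complex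
open scoped ENNReal

/-- The points with positive measure of `A` in every closed ball around them. -/
def Supp (A : Set ℂ) : Set ℂ := {x | ∀ r > 0, 0 < volume (A ∩ closedBall x r)}

/-- The strip between the unit circles about `x` and `y`. -/
def Band (x y : ℂ) : Set ℂ := {q | dist q x < 1 ∧ 1 < dist q y}

/-- A pair in the support whose two strips are free of `A`. -/
def Banned (A : Set ℂ) (x y : ℂ) : Prop :=
  x ∈ Supp A ∧ y ∈ Supp A ∧ x ≠ y ∧ volume (A ∩ (Band x y ∪ Band y x)) = 0

/-- The limits of banned pairs. -/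
def Ban (A : Set ℂ) : Set ℂ := {z | ∀ ε > 0, ∃ x ∈ ball z ε, ∃ y ∈ ball z ε, Banned A x y}

/-- The Lebesgue density ratio. -/
noncomputable def ratio (A : Set ℂ) (x : ℂ) (r : ℝ) : ℝ≥0∞ :=
  volume (A ∩ closedBall x r) / volume (closedBall x r)

/-- The mass of `A` in a closed ball, as a real number. -/
noncomputable def mass (A : Set ℂ) (x : ℂ) (r : ℝ) : ℝ := volume.real (A ∩ closedBall x r)

variable {A : Set ℂ}

lemma finite_cap (A : Set ℂ) (x : ℂ) (r : ℝ) : volume (A ∩ closedBall x r) ≠ ∞ :=
  measure_ne_top_of_subset inter_subset_right (measure_closedBall_lt_top).ne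

lemma area_eq (x y : ℂ) (r : ℝ) : volume (closedBall x r) = volume (closedBall y r) := by
  rw [Complex.volume_closedBall, Complex.volume_closedBall]

lemma area_real (x : ℂ) {r : ℝ} (hr : 0 ≤ r) : volume.real (closedBall x r) = r ^ 2 * Real.pi := by
  simp [Measure.real, Complex.volume_closedBall, ENNReal.toReal_ofReal hr]

/-- Two balls at unit distance share their room between them. -/
lemma overlap (hA : NullMeasurableSet A volume) (hfree : ∀ x ∈ A, ∀ y ∈ A, dist x y ≠ 1)
    {k q : ℂ} (h : dist k q = 1) (r : ℝ) :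
    volume (A ∩ closedBall k r) + volume (A ∩ closedBall q r) ≤ volume (closedBall q r) := by
  set S := A ∩ closedBall k r
  set T := A ∩ closedBall q r
  have hT : NullMeasurableSet T volume := hA.inter measurableSet_closedBall.nullMeasurableSet
  set S' := (fun z => z + (k - q)) ⁻¹' S
  have hS' : volume S' = volume S := measure_preimage_add_right volume (k - q) S
  have hd : Disjoint S' T := disjoint_left.2 fun z hz hzT => hfree _ hz.1 _ hzT.1 (by
    rw [dist_eq_norm, show z + (k - q) - z = k - q by ring, ← dist_eq_norm, h])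
  have hsub : S' ∪ T ⊆ closedBall q r := union_subset (fun z hz => by
    have h2 : dist (z + (k - q)) k ≤ r := hz.2
    rw [mem_closedBall, dist_eq_norm]
    rwa [dist_eq_norm, show z + (k - q) - k = z - q by ring] at h2) inter_subset_right
  rw [← hS', ← measure_union₀ hT hd.aedisjoint]
  exact measure_mono hsub

lemma mass_add_le (hA : NullMeasurableSet A volume) (hfree : ∀ x ∈ A, ∀ y ∈ A, dist x y ≠ 1)
    {k q : ℂ} (h : dist k q = 1) {r : ℝ} (hr : 0 ≤ r) : mass A k r + mass A q r ≤ r ^ 2 * Real.pi := by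
  rw [← area_real q hr, mass, mass, Measure.real, Measure.real, Measure.real,
    ← ENNReal.toReal_add (finite_cap A k r) (finite_cap A q r)]
  exact ENNReal.toReal_mono measure_closedBall_lt_top.ne (overlap hA hfree h r)

lemma ratio_add_le (hA : NullMeasurableSet A volume) (hfree : ∀ x ∈ A, ∀ y ∈ A, dist x y ≠ 1)
    {k q : ℂ} (h : dist k q = 1) (r : ℝ) : ratio A k r + ratio A q r ≤ 1 := by
  rw [ratio, ratio, area_eq k q, ← ENNReal.add_div]
  exact (ENNReal.div_le_div_right (overlap hA hfree h r) _).trans ENNReal.div_self_le_one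

/-- Almost every point of a class is a density point. -/
lemma density_null (hA : NullMeasurableSet A volume) :
    volume {q ∈ A | ¬ Tendsto (ratio A q) (𝓝[>] 0) (𝓝 1)} = 0 := by
  have h := Besicovitch.ae_tendsto_measure_inter_div (μ := (volume : Measure ℂ)) A
  rw [ae_restrict_iff'₀ hA, ae_iff] at h
  refine measure_mono_null (fun q hq => ?_) h
  simp only [mem_setOf_eq, Classical.not_imp]
  exact hq

lemma isClosed_supp (A : Set ℂ) : IsClosed (Supp A) := by
  refine isClosed_of_closure_subset fun x hx r hr => ?_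
  obtain ⟨y, hy, hd⟩ := Metric.mem_closure_iff.1 hx (r / 2) (by positivity)
  refine (hy (r / 2) (by positivity)).trans_le (measure_mono (inter_subset_inter_right _ ?_))
  intro z hz
  rw [mem_closedBall] at hz ⊢
  linarith [dist_triangle z y x, dist_comm x y]

lemma isClosed_ban (A : Set ℂ) : IsClosed (Ban A) := by
  refine isClosed_of_closure_subset fun z hz ε hε => ?_
  obtain ⟨w, hw, hd⟩ := Metric.mem_closure_iff.1 hz (ε / 2) (by positivity)
  obtain ⟨x, hx, y, hy, hb⟩ := hw (ε / 2) (by positivity)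
  rw [mem_ball] at hx hy
  refine ⟨x, ?_, y, ?_, hb⟩ <;> rw [mem_ball]
  · linarith [dist_triangle x w z, dist_comm z w]
  · linarith [dist_triangle y w z, dist_comm z w]

lemma ban_subset_supp (A : Set ℂ) : Ban A ⊆ Supp A := fun z hz =>
  (isClosed_supp A).closure_subset_iff.2 subset_rfl (Metric.mem_closure_iff.2 fun ε hε => by
    obtain ⟨x, hx, y, -, hb⟩ := hz ε hε
    exact ⟨x, hb.1, by rw [dist_comm]; exact hx⟩)

lemma isOpen_band (x y : ℂ) : IsOpen (Band x y) :=
  (isOpen_lt (continuous_id.dist continuous_const) continuous_const).inter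
    (isOpen_lt continuous_const (continuous_id.dist continuous_const))

/-- Among three nearby points of one unit circle, one is off another unit circle. -/
lemma exists_off (u d : ℂ) (hu : ‖u‖ = 1) (hd : d ≠ 0) {t : ℝ} (ht : Real.cos t ≠ 1) :
    ∃ s ∈ ({0, t, -t} : Set ℝ), ‖u * exp (s * I) - d‖ ≠ 1 := by
  by_contra hh
  push Not at hh
  have key : ∀ s ∈ ({0, t, -t} : Set ℝ),
      2 * (Real.cos s * (u * (starRingEnd ℂ) d).re - Real.sin s * (u * (starRingEnd ℂ) d).im) =
        normSq d := by
    intro s hs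
    have h1 : normSq (u * exp (s * I) - d) = 1 := by rw [normSq_eq_norm_sq, hh s hs, one_pow]
    have h2 : normSq (u * exp (s * I)) = 1 := by
      rw [normSq_eq_norm_sq, norm_mul, hu, norm_exp_ofReal_mul_I, one_mul, one_pow]
    rw [normSq_sub, h2, mul_right_comm, Complex.mul_re, exp_ofReal_mul_I_re,
      exp_ofReal_mul_I_im] at h1
    linarith
  have k0 := key 0 (by simp)
  have k1 := key t (by simp)
  have k2 := key (-t) (by simp)
  simp only [Real.cos_zero, Real.sin_zero, Real.cos_neg, Real.sin_neg] at k0 k2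
  have h0 : normSq d * (1 - Real.cos t) = 0 := by
    linear_combination Real.cos t * k0 - (1 / 2) * k1 - (1 / 2) * k2
  rcases mul_eq_zero.1 h0 with h | h
  · exact hd (normSq_eq_zero.1 h)
  · exact ht (by linarith)

/-- A banned pair near `z` puts points of its strips near every point at unit distance from `z`. -/
lemma exists_band_near {x y z w : ℂ} (hzw : dist z w = 1) {ε : ℝ} (hε : 0 < ε) (hε1 : ε < 1)
    (hx : dist x z < ε) (hxy : x ≠ y) : ∃ q, dist q w < 4 * ε ∧ q ∈ Band x y ∪ Band y x := by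
  have hwx : |dist w x - 1| ≤ ε := by
    rw [abs_le]
    constructor <;> linarith [dist_triangle z x w, dist_triangle x z w, dist_comm z x, dist_comm x w,
      dist_comm z w, dist_triangle w x z]
  have hpos : 0 < dist w x := by linarith [abs_le.1 hwx]
  set u : ℂ := (w - x) / (dist w x : ℂ) with hu_def
  have hu : ‖u‖ = 1 := by
    rw [hu_def, norm_div, norm_real, Real.norm_of_nonneg hpos.le, ← dist_eq_norm,
      div_self hpos.ne']
  have hw : w = x + (dist w x : ℂ) * u := by
    rw [hu_def, mul_div_cancel₀ _ (by exact_mod_cast hpos.ne')]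
    ring
  set t := min ε 1
  have ht0 : 0 < t := lt_min hε one_pos
  have ht : Real.cos t ≠ 1 := fun h =>
    ht0.ne' ((Real.cos_eq_one_iff_of_lt_of_lt (by linarith [Real.pi_pos])
      (by linarith [min_le_right ε 1, Real.pi_gt_three])).1 h)
  obtain ⟨s, hs, hoff⟩ := exists_off u (y - x) hu (sub_ne_zero.2 hxy.symm) ht
  have hsε : |s| ≤ ε := by
    rcases hs with rfl | rfl | rfl
    · simpa using hε.le
    · rw [abs_of_pos ht0]; exact min_le_left _ _
    · rw [abs_neg, abs_of_pos ht0]; exact min_le_left _ _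
  set v : ℂ := u * exp (s * I) with hv_def
  have hv : ‖v‖ = 1 := by rw [hv_def, norm_mul, hu, norm_exp_ofReal_mul_I, one_mul]
  have hvw : dist (x + v) w ≤ 2 * ε := by
    calc dist (x + v) w ≤ dist (x + v) (x + u) + dist (x + u) w := dist_triangle _ _ _
      _ ≤ ε + ε := by
        refine add_le_add ?_ ?_
        · rw [dist_eq_norm, show x + v - (x + u) = u * (exp (s * I) - 1) by rw [hv_def]; ring,
            norm_mul, hu, one_mul, mul_comm (s : ℂ) I]
          exact Real.norm_exp_I_mul_ofReal_sub_one_le.trans (by simpa [Real.norm_eq_abs] using hsε)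
        · conv_lhs => rw [hw]
          rw [dist_eq_norm, show x + u - (x + (dist w x : ℂ) * u) = (1 - (dist w x : ℂ)) * u by ring,
            norm_mul, hu, mul_one, ← ofReal_one, ← ofReal_sub, norm_real, Real.norm_eq_abs,
            abs_sub_comm]
          exact hwx
      _ = 2 * ε := by ring
  have hoff' : dist (x + v) y ≠ 1 := by
    rw [dist_eq_norm, show x + v - y = v - (y - x) by ring]
    exact hoff
  have near : ∀ c : ℝ, |c| ≤ ε → dist (x + (1 + c : ℝ) * v) w < 4 * ε ∧
      |dist (x + (1 + c : ℝ) * v) y - dist (x + v) y| ≤ |c| ∧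
      dist (x + (1 + c : ℝ) * v) x = |1 + c| := by
    intro c hc
    have e : dist (x + (1 + c : ℝ) * v) (x + v) = |c| := by
      rw [dist_eq_norm, show x + ((1 + c : ℝ) : ℂ) * v - (x + v) = (c : ℂ) * v by push_cast; ring,
        norm_mul, hv, mul_one, norm_real, Real.norm_eq_abs]
    refine ⟨?_, (abs_dist_sub_le _ _ _).trans_eq e, ?_⟩
    · linarith [dist_triangle (x + (1 + c : ℝ) * v) (x + v) w]
    · rw [dist_eq_norm, add_sub_cancel_left, norm_mul, hv, mul_one, norm_real, Real.norm_eq_abs]
  rcases lt_or_gt_of_ne hoff' with hlt | hgt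
  · set c := min ε ((1 - dist (x + v) y) / 2)
    have hc : 0 < c := lt_min hε (by linarith)
    obtain ⟨h1, h2, h3⟩ := near c (by rw [abs_of_pos hc]; exact min_le_left _ _)
    rw [abs_of_pos hc] at h2
    rw [abs_of_pos (by linarith : (0 : ℝ) < 1 + c)] at h3
    have h4 : c ≤ (1 - dist (x + v) y) / 2 := min_le_right _ _
    exact ⟨_, h1, Or.inr ⟨by linarith [abs_le.1 h2], by rw [h3]; linarith⟩⟩
  · set c := min ε ((dist (x + v) y - 1) / 2)
    have hc : 0 < c := lt_min hε (by linarith)
    have hc1 : c < 1 := (min_le_left _ _).trans_lt hε1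
    obtain ⟨h1, h2, h3⟩ := near (-c) (by rw [abs_neg, abs_of_pos hc]; exact min_le_left _ _)
    rw [abs_neg, abs_of_pos hc] at h2
    rw [abs_of_pos (by linarith : (0 : ℝ) < 1 + -c)] at h3
    have h4 : c ≤ (dist (x + v) y - 1) / 2 := min_le_right _ _
    exact ⟨_, h1, Or.inl ⟨by rw [h3]; linarith, by linarith [abs_le.1 h2]⟩⟩

/-- The interior of the set of limits of banned pairs has no unit distance. -/
lemma interior_ban_free {z w : ℂ} (hz : z ∈ interior (Ban A)) (hw : w ∈ interior (Ban A)) :
    dist z w ≠ 1 := by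
  intro hzw
  obtain ⟨ρ, hρ, hb⟩ := Metric.isOpen_iff.1 isOpen_interior w hw
  set ε := min (ρ / 4) (1 / 2)
  have hε : 0 < ε := lt_min (by positivity) (by norm_num)
  obtain ⟨x, hx, y, -, hxs, hys, hne, hnull⟩ := interior_subset hz ε hε
  obtain ⟨q, hq, hqB⟩ := exists_band_near hzw hε ((min_le_right _ _).trans_lt (by norm_num))
    (mem_ball.1 hx) hne
  obtain ⟨r, hr, hrs⟩ := Metric.nhds_basis_closedBall.mem_iff.1
    (((isOpen_band x y).union (isOpen_band y x)).mem_nhds hqB)
  have hqs : q ∈ Supp A := ban_subset_supp A (interior_subset (hb (by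
    have : ε ≤ ρ / 4 := min_le_left _ _
    rw [mem_ball]; linarith)))
  exact (hqs r hr).ne' (measure_mono_null (inter_subset_inter_right _ hrs) hnull)

/-- Points of positive upper density joined inside them form a banned pair. -/
lemma banned_of_connected (hA : NullMeasurableSet A volume)
    (hfree : ∀ x ∈ A, ∀ y ∈ A, dist x y ≠ 1) {K : Set ℂ} (hK : IsPreconnected K)
    (hKd : ∀ k ∈ K, ¬ Tendsto (ratio A k) (𝓝[>] 0) (𝓝 0)) {x y : ℂ} (hx : x ∈ K) (hy : y ∈ K)
    (hne : x ≠ y) : Banned A x y := by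
  have hs : ∀ k ∈ K, k ∈ Supp A := by
    intro k hk r hr
    rw [pos_iff_ne_zero]
    intro h0
    refine hKd k hk (Tendsto.congr' ?_ tendsto_const_nhds)
    filter_upwards [Ioo_mem_nhdsGT hr] with s hs
    rw [ratio, measure_mono_null (inter_subset_inter_right _ (closedBall_subset_closedBall hs.2.le)) h0,
      ENNReal.zero_div]
  refine ⟨hs x hx, hs y hy, hne, measure_mono_null ?_ (density_null hA)⟩
  rintro q ⟨hqA, hq⟩
  refine ⟨hqA, fun hd => ?_⟩
  have hcont : ContinuousOn (fun k => dist q k) K := (continuous_const.dist continuous_id).continuousOn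
  obtain ⟨k, hk, hk1⟩ : ∃ k ∈ K, dist q k = 1 := by
    rcases hq with h | h
    · exact hK.intermediate_value hx hy hcont ⟨h.1.le, h.2.le⟩
    · exact hK.intermediate_value hy hx hcont ⟨h.1.le, h.2.le⟩
  refine hKd k hk (tendsto_of_tendsto_of_tendsto_of_le_of_le tendsto_const_nhds
    (by simpa using ENNReal.Tendsto.sub tendsto_const_nhds hd (Or.inl ENNReal.one_ne_top))
    (fun _ => bot_le) fun r => ?_)
  have h := ratio_add_le hA hfree (k := k) (by rw [dist_comm]; exact hk1) r
  have hfin : ratio A q r ≠ ∞ := ((le_add_self.trans h).trans_lt ENNReal.one_lt_top).ne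
  exact ENNReal.le_sub_of_add_le_right hfin h

/-- The mass in a moving ball is continuous. -/
lemma continuous_mass (A : Set ℂ) {r : ℝ} (hr : 0 < r) : Continuous fun x => mass A x r := by
  have step : ∀ x y : ℂ, mass A y r ≤ mass A x r + Real.pi * (2 * r * dist x y + dist x y ^ 2) := by
    intro x y
    set d := dist x y
    have hd : 0 ≤ d := dist_nonneg
    have hsub : A ∩ closedBall y r ⊆ (A ∩ closedBall x r) ∪ (closedBall x (r + d) \ closedBall x r) := by
      rintro q ⟨hqA, hq⟩
      by_cases h : q ∈ closedBall x r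
      · exact Or.inl ⟨hqA, h⟩
      · refine Or.inr ⟨?_, h⟩
        rw [mem_closedBall] at hq ⊢
        linarith [dist_triangle q y x, dist_comm x y]
    have h1 : mass A y r ≤ mass A x r + volume.real (closedBall x (r + d) \ closedBall x r) := by
      refine (measureReal_mono hsub ?_).trans (measureReal_union_le _ _)
      exact measure_union_ne_top (finite_cap A x r)
        (measure_ne_top_of_subset sdiff_subset measure_closedBall_lt_top.ne)
    rw [measureReal_sdiff (closedBall_subset_closedBall (by linarith)) measurableSet_closedBall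
      measure_closedBall_lt_top.ne, area_real x (by positivity), area_real x hr.le] at h1
    linarith
  rw [continuous_iff_continuousAt]
  intro x
  have hg : Tendsto (fun y => Real.pi * (2 * r * dist x y + dist x y ^ 2)) (𝓝 x) (𝓝 0) := by
    have : Continuous fun y => Real.pi * (2 * r * dist x y + dist x y ^ 2) := by fun_prop
    simpa using this.tendsto x
  rw [ContinuousAt, tendsto_iff_norm_sub_tendsto_zero]
  refine squeeze_zero (fun y => norm_nonneg _) (fun y => ?_) hg
  rw [Real.norm_eq_abs, abs_le]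
  have := step x y
  have := step y x
  rw [dist_comm y x] at this
  constructor <;> linarith

/-- Crossings at small scales between two separated compact sets give a banned pair. -/
lemma banned_of_crossings (hA : NullMeasurableSet A volume)
    (hfree : ∀ x ∈ A, ∀ y ∈ A, dist x y ≠ 1) {L R : Set ℂ} (hL : IsCompact L) (hR : IsCompact R)
    (hLR : Disjoint L R)
    (h : ∃ᶠ r in 𝓝[>] (0 : ℝ), ∃ S : Set ℂ, IsPreconnected S ∧
      (∀ s ∈ S, r ^ 2 * Real.pi / 2 ≤ mass A s r) ∧ (S ∩ L).Nonempty ∧ (S ∩ R).Nonempty) :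
    ∃ x ∈ L, ∃ y ∈ R, Banned A x y := by
  obtain ⟨r, hr, hS⟩ := exists_seq_forall_of_frequently (h.and_eventually self_mem_nhdsWithin)
  choose S hp hm a b using fun n => (hS n).1
  choose l hl using a
  choose m hm' using b
  obtain ⟨⟨x, y⟩, ⟨hx, hy⟩, φ, hφ, hlim⟩ :=
    (hL.prod hR).tendsto_subseq (x := fun n => (l n, m n)) fun n => ⟨(hl n).2, (hm' n).2⟩
  have hlx : Tendsto (fun n => l (φ n)) atTop (𝓝 x) := (continuous_fst.tendsto _).comp hlim
  have hmy : Tendsto (fun n => m (φ n)) atTop (𝓝 y) := (continuous_snd.tendsto _).comp hlim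
  have hr0 : Tendsto (fun n => r (φ n)) atTop (𝓝[>] 0) := hr.comp hφ.tendsto_atTop
  have hr1 : Tendsto (fun n => r (φ n)) atTop (𝓝 0) := hr0.mono_right nhdsWithin_le_nhds
  have supp : ∀ (p : ℕ → ℂ) (z : ℂ), (∀ n, p n ∈ S (φ n)) → Tendsto p atTop (𝓝 z) → z ∈ Supp A := by
    intro p z hpS hpz ρ hρ
    have hsum : Tendsto (fun n => dist (p n) z + r (φ n)) atTop (𝓝 0) := by
      simpa using (tendsto_iff_dist_tendsto_zero.1 hpz).add hr1
    obtain ⟨n, hn⟩ := (hsum.eventually (eventually_le_nhds hρ)).exists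
    have hpos : 0 < r (φ n) := (hS _).2
    refine lt_of_lt_of_le ?_ (measure_mono (inter_subset_inter_right A
      (closedBall_subset_closedBall' (by linarith) : closedBall (p n) (r (φ n)) ⊆ closedBall z ρ)))
    rw [pos_iff_ne_zero]
    intro h0
    have := hm _ _ (hpS n)
    rw [mass, Measure.real, h0, ENNReal.toReal_zero] at this
    nlinarith [Real.pi_pos, pow_pos hpos 2]
  refine ⟨x, hx, y, hy, supp _ x (fun n => (hl _).1) hlx, supp _ y (fun n => (hm' _).1) hmy,
    fun e => disjoint_left.1 hLR hx (e ▸ hy), measure_mono_null ?_ (density_null hA)⟩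
  rintro q ⟨hqA, hq⟩
  refine ⟨hqA, fun hd => ?_⟩
  have hbig : ∀ᶠ n in atTop, r (φ n) ^ 2 * Real.pi / 2 < mass A q (r (φ n)) := by
    have h1 : Tendsto (fun s => (ratio A q s).toReal) (𝓝[>] 0) (𝓝 1) := by
      have := (ENNReal.tendsto_toReal ENNReal.one_ne_top).comp hd
      rw [ENNReal.toReal_one] at this
      exact this
    filter_upwards [(h1.comp hr0).eventually (eventually_gt_nhds (show (1 / 2 : ℝ) < 1 by norm_num))]
      with n hn
    have hpos : 0 < r (φ n) := (hS _).2
    simp only [Function.comp, ratio, ENNReal.toReal_div] at hn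
    rw [← Measure.real, ← Measure.real, area_real q hpos.le, lt_div_iff₀ (by positivity)] at hn
    simp only [mass]
    linarith
  have cross : ∀ (p p' : ℕ → ℂ) (z z' : ℂ), (∀ n, p n ∈ S (φ n)) → (∀ n, p' n ∈ S (φ n)) →
      Tendsto p atTop (𝓝 z) → Tendsto p' atTop (𝓝 z') → dist q z < 1 → 1 < dist q z' → False := by
    intro p p' z z' hpS hpS' hpz hpz' h1 h2
    obtain ⟨n, ⟨hn1, hn2⟩, hn3⟩ := ((((tendsto_const_nhds.dist hpz).eventually
      (eventually_lt_nhds h1)).and ((tendsto_const_nhds.dist hpz').eventually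
      (eventually_gt_nhds h2))).and hbig).exists
    obtain ⟨k, hk, hk1⟩ := (hp (φ n)).intermediate_value (hpS n) (hpS' n)
      (f := fun k => dist q k) (continuous_const.dist continuous_id).continuousOn
      ⟨hn1.le, hn2.le⟩
    have := mass_add_le hA hfree (k := k) (q := q) (by rw [dist_comm]; exact hk1) (hS (φ n)).2.le
    have := hm _ _ hk
    linarith
  rcases hq with h' | h'
  · exact cross _ _ x y (fun n => (hl _).1) (fun n => (hm' _).1) hlx hmy h'.1 h'.2
  · exact cross _ _ y x (fun n => (hm' _).1) (fun n => (hl _).1) hmy hlx h'.1 h'.2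

variable (A : Fin 5 → Set ℂ)

/-- Two classes filling an open set almost everywhere have a banned pair in it. -/
lemma banned_of_two (hmeas : ∀ i, NullMeasurableSet (A i) volume)
    (hfree : ∀ i, ∀ x ∈ A i, ∀ y ∈ A i, dist x y ≠ 1) (hcov : ∀ z, ∃ i, z ∈ A i)
    {D : Set ℂ} (hD : IsOpen D) (hne : D.Nonempty) {a c : Fin 5}
    (hnull : ∀ i, i ≠ a → i ≠ c → volume (A i ∩ D) = 0) :
    ∃ i, ∃ x ∈ D, ∃ y ∈ D, Banned (A i) x y := by
  obtain ⟨o, ho⟩ := hne
  obtain ⟨ρ, hρ, hb⟩ := Metric.isOpen_iff.1 hD o ho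
  set h := ρ / 4 with hh4
  have hh : 0 < h := by positivity
  set Q := Icc (o.re - h) (o.re + h) ×ℂ Icc (o.im - h) (o.im + h)
  have hQ : IsCompact Q := isCompact_Icc.reProdIm isCompact_Icc
  have hQb : ∀ z ∈ Q, dist z o ≤ 2 * h := by
    rintro z ⟨⟨h1, h2⟩, h3, h4⟩
    rw [dist_eq_norm]
    refine (norm_le_abs_re_add_abs_im _).trans ?_
    have h5 : |z.re - o.re| ≤ h := abs_le.2 ⟨by linarith, by linarith⟩
    have h6 : |z.im - o.im| ≤ h := abs_le.2 ⟨by linarith, by linarith⟩
    simp only [sub_re, sub_im]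
    linarith
  have hQD : ∀ z ∈ Q, z ∈ D := fun z hz => hb (by rw [mem_ball]; linarith [hQb z hz])
  have sum : ∀ r ∈ Ioo (0 : ℝ) h, ∀ z ∈ Q, r ^ 2 * Real.pi ≤ mass (A a) z r + mass (A c) z r := by
    intro r hr z hz
    have hBD : closedBall z r ⊆ D := fun q hq => hb (by
      rw [mem_closedBall] at hq
      rw [mem_ball]
      linarith [hQb z hz, dist_triangle q z o, hr.2])
    rw [← area_real z hr.1.le, mass, mass]
    refine le_trans ?_ (measureReal_union_le _ _)
    refine ENNReal.toReal_mono (measure_union_ne_top (finite_cap _ z r) (finite_cap _ z r)) ?_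
    calc volume (closedBall z r)
        ≤ volume (((A a ∩ closedBall z r) ∪ (A c ∩ closedBall z r)) ∪
            ⋃ i ∈ ({i | i ≠ a ∧ i ≠ c} : Set (Fin 5)), A i ∩ D) := measure_mono fun q hq => by
          obtain ⟨i, hi⟩ := hcov q
          by_cases hia : i = a
          · exact Or.inl (Or.inl ⟨hia ▸ hi, hq⟩)
          by_cases hic : i = c
          · exact Or.inl (Or.inr ⟨hic ▸ hi, hq⟩)
          exact Or.inr (mem_iUnion₂.2 ⟨i, ⟨hia, hic⟩, hi, hBD hq⟩)
      _ ≤ _ + _ := measure_union_le _ _
      _ = _ := by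
        rw [(measure_biUnion_null_iff (to_countable _)).2 fun i hi => hnull i hi.1 hi.2, add_zero]
  have cross : ∀ᶠ r in 𝓝[>] (0 : ℝ),
      (∃ S : Set ℂ, IsPreconnected S ∧ (∀ s ∈ S, r ^ 2 * Real.pi / 2 ≤ mass (A a) s r) ∧
        (S ∩ ({o.re - h} ×ℂ Icc (o.im - h) (o.im + h))).Nonempty ∧
        (S ∩ ({o.re + h} ×ℂ Icc (o.im - h) (o.im + h))).Nonempty) ∨
      ∃ S : Set ℂ, IsPreconnected S ∧ (∀ s ∈ S, r ^ 2 * Real.pi / 2 ≤ mass (A c) s r) ∧
        (S ∩ (Icc (o.re - h) (o.re + h) ×ℂ {o.im - h})).Nonempty ∧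
        (S ∩ (Icc (o.re - h) (o.re + h) ×ℂ {o.im + h})).Nonempty := by
    filter_upwards [Ioo_mem_nhdsGT hh] with r hr
    rcases exists_crossing (show o.re - h < o.re + h by linarith)
      (show o.im - h < o.im + h by linarith)
      (isClosed_le (continuous_const (y := r ^ 2 * Real.pi / 2)) (continuous_mass (A a) hr.1))
      (isClosed_le (continuous_const (y := r ^ 2 * Real.pi / 2)) (continuous_mass (A c) hr.1))
      (fun x hx y hy => by
        have := sum r hr ⟨x, y⟩ ⟨hx, hy⟩
        simp only [mem_union, mem_setOf_eq]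
        by_contra hn
        push Not at hn
        linarith) with ⟨S, hS, hp, ⟨z, hz, hza⟩, w, hw, hwb⟩ | ⟨S, hS, hp, ⟨z, hz, hza⟩, w, hw, hwb⟩
    · exact Or.inl ⟨S, hp, fun s hs => (hS hs).1, ⟨z, hz, hza, (hS hz).2.2⟩,
        ⟨w, hw, hwb, (hS hw).2.2⟩⟩
    · exact Or.inr ⟨S, hp, fun s hs => (hS hs).1, ⟨z, hz, (hS hz).2.1, hza⟩,
        ⟨w, hw, (hS hw).2.1, hwb⟩⟩
  have hre : ∀ x ∈ ({o.re - h, o.re + h} : Set ℝ), x ∈ Icc (o.re - h) (o.re + h) := by
    rintro x (rfl | rfl) <;> constructor <;> linarith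
  have him : ∀ x ∈ ({o.im - h, o.im + h} : Set ℝ), x ∈ Icc (o.im - h) (o.im + h) := by
    rintro x (rfl | rfl) <;> constructor <;> linarith
  rcases frequently_or_distrib.1 cross.frequently with hf | hf
  · obtain ⟨x, hx, y, hy, hxy⟩ := banned_of_crossings (hmeas a) (hfree a)
      (isCompact_singleton.reProdIm isCompact_Icc) (isCompact_singleton.reProdIm isCompact_Icc)
      (disjoint_left.2 fun z hz hz' => by linarith [hz.1.symm.trans hz'.1]) hf
    exact ⟨a, x, hQD x ⟨hre _ (Or.inl hx.1), hx.2⟩, y, hQD y ⟨hre _ (Or.inr hy.1), hy.2⟩, hxy⟩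
  · obtain ⟨x, hx, y, hy, hxy⟩ := banned_of_crossings (hmeas c) (hfree c)
      (isCompact_Icc.reProdIm isCompact_singleton) (isCompact_Icc.reProdIm isCompact_singleton)
      (disjoint_left.2 fun z hz hz' => by linarith [hz.2.symm.trans hz'.2]) hf
    exact ⟨c, x, hQD x ⟨hx.1, him _ (Or.inl hx.2)⟩, y, hQD y ⟨hy.1, him _ (Or.inr hy.2)⟩, hxy⟩

/-- Some open set contains no banned pair of any class. -/
theorem exists_free_of_banned (A : Fin 5 → Set ℂ) :
    ∃ D : Set ℂ, IsOpen D ∧ D.Nonempty ∧ ∀ i, ∀ x ∈ D, ∀ y ∈ D, ¬ Banned (A i) x y := by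
  by_contra hno
  push Not at hno
  have hcov : ⋃ i, Ban (A i) = univ := by
    refine eq_univ_of_forall fun z => ?_
    by_contra hz
    simp only [mem_iUnion, Ban, mem_setOf_eq] at hz
    push Not at hz
    choose ε hε hb using hz
    obtain ⟨δ, hδ, hδε⟩ : ∃ δ > 0, ∀ i, δ ≤ ε i :=
      ⟨Finset.univ.inf' Finset.univ_nonempty ε, (Finset.lt_inf'_iff _).2 fun i _ => hε i,
        fun i => Finset.inf'_le _ (Finset.mem_univ i)⟩
    obtain ⟨i, x, hx, y, hy, hxy⟩ := hno (ball z δ) isOpen_ball ⟨z, mem_ball_self hδ⟩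
    exact hb i x (ball_subset_ball (hδε i) hx) y (ball_subset_ball (hδε i) hy) hxy
  exact no_five_open_dense (fun i => interior (Ban (A i))) (fun i => isOpen_interior)
    (fun i x hx y hy => interior_ban_free hx hy)
    (dense_iUnion_interior_of_closed (fun i => isClosed_ban _) hcov)

/-- A five-colouring with Lebesgue measurable classes has an open set in which every open subset
meets three classes in positive measure and in which no class has a connected piece of positive
upper density. -/
theorem exists_mixture (hmeas : ∀ i, NullMeasurableSet (A i) volume)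
    (hfree : ∀ i, ∀ x ∈ A i, ∀ y ∈ A i, dist x y ≠ 1) (hcov : ∀ z, ∃ i, z ∈ A i) :
    ∃ D : Set ℂ, IsOpen D ∧ D.Nonempty ∧
      (∀ D' ⊆ D, IsOpen D' → D'.Nonempty → ∃ i j k, i ≠ j ∧ i ≠ k ∧ j ≠ k ∧
        0 < volume (A i ∩ D') ∧ 0 < volume (A j ∩ D') ∧ 0 < volume (A k ∩ D')) ∧
      ∀ i, ∀ K ⊆ D, IsPreconnected K →
        (∀ x ∈ K, ¬ Tendsto (fun r => volume (A i ∩ closedBall x r) / volume (closedBall x r))
          (𝓝[>] 0) (𝓝 0)) → K.Subsingleton := by
  classical
  obtain ⟨D, hD, hDn, hb⟩ := exists_free_of_banned A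
  refine ⟨D, hD, hDn, fun D' hsub hD' hne => ?_, fun i K hKD hK hd x hx y hy => ?_⟩
  · set s := Finset.univ.filter fun i => 0 < volume (A i ∩ D')
    by_contra hcon
    have hs : ¬ 2 < s.card := fun h => by
      obtain ⟨i, hi, j, hj, k, hk, hij, hik, hjk⟩ := Finset.two_lt_card.1 h
      simp only [s, Finset.mem_filter] at hi hj hk
      exact hcon ⟨i, j, k, hij, hik, hjk, hi.2, hj.2, hk.2⟩
    obtain ⟨a, c, hac⟩ : ∃ a c, ∀ i ∈ s, i = a ∨ i = c := by
      rcases s.eq_empty_or_nonempty with he | ⟨a, ha⟩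
      · exact ⟨0, 0, fun i hi => by simp [he] at hi⟩
      by_cases h : ∃ c ∈ s, c ≠ a
      · obtain ⟨c, hc, hca⟩ := h
        refine ⟨a, c, fun i hi => ?_⟩
        by_contra hn
        push Not at hn
        exact hs (Finset.two_lt_card.2 ⟨a, ha, c, hc, i, hi, hca.symm, hn.1.symm, hn.2.symm⟩)
      · push Not at h
        exact ⟨a, a, fun i hi => Or.inl (h i hi)⟩
    obtain ⟨i, x, hx, y, hy, hxy⟩ := banned_of_two A hmeas hfree hcov hD' hne (a := a) (c := c)
      fun i hia hic => by
        by_contra h0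
        exact (hac i (Finset.mem_filter.2 ⟨Finset.mem_univ i, pos_iff_ne_zero.2 h0⟩)).elim hia hic
    exact hb i x (hsub hx) y (hsub hy) hxy
  · by_contra hne
    exact hb i x (hKD hx) y (hKD hy) (banned_of_connected (hmeas i) (hfree i) hK hd hx hy hne)

end Vale.Agent.P032.Mixture
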