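import Vale.Agent.P032.Plane.Cover

/-!
P032: points moving on circles, and what a closed class can do along their paths.
-/

namespace Vale.Agent.P032

open Set Filter Topology Metric Complex ComplexConjugate

/-- The point at angle `t` on the circle about `h` through `h + b`. -/
noncomputable def orbit (h b : ℂ) (t : ℝ) : ℂ := h + b * exp (t * I)

lemma continuous_orbit (h b : ℂ) : Continuous (orbit h b) := by unfold orbit; fun_prop

@[simp] lemma orbit_zero (h b : ℂ) : orbit h b 0 = h + b := by simp [orbit]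

lemma norm_exp_mul_I (t : ℝ) : ‖exp ((t : ℂ) * I)‖ = 1 := norm_exp_ofReal_mul_I t

lemma dist_orbit_centre (h b : ℂ) (t : ℝ) : dist (orbit h b t) h = ‖b‖ := by
  simp [orbit, dist_eq_norm]

lemma hasDerivAt_orbit_mul (h b : ℂ) (k t : ℝ) :
    HasDerivAt (fun s : ℝ => orbit h b (k * s)) (k * (I * b * exp (((k * t : ℝ) : ℂ) * I))) t := by
  have h1 := ((((hasDerivAt_id t).const_mul k).ofReal_comp.mul_const I).cexp.const_mul b).const_add h
  refine (h1.congr_of_eventuallyEq (Eventually.of_forall fun s => ?_)).congr_deriv ?_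
  · simp [orbit]
  · push_cast [id]; ring

lemma hasDerivAt_orbit (h b : ℂ) (t : ℝ) :
    HasDerivAt (orbit h b) (I * b * exp ((t : ℂ) * I)) t := by
  simpa using hasDerivAt_orbit_mul h b 1 t

lemma hasDerivAt_dist_sq {f : ℝ → ℂ} {f' v : ℂ} {t : ℝ} (hf : HasDerivAt f f' t) :
    HasDerivAt (fun s => dist (f s) v ^ 2) (2 * (f' * conj (f t - v)).re) t := by
  have := (hf.sub_const v).norm_sq
  simpa [dist_eq_norm, Complex.inner] using this

lemma dist_lt_one_of_sq {x y : ℂ} (h : dist x y ^ 2 < 1) : dist x y < 1 := by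
  nlinarith [dist_nonneg (x := x) (y := y)]

lemma one_lt_dist_of_sq {x y : ℂ} (h : 1 < dist x y ^ 2) : 1 < dist x y := by
  nlinarith [dist_nonneg (x := x) (y := y)]

/-- A function with nonzero derivative at a zero changes sign there. -/
lemma eventually_sign {g : ℝ → ℝ} {d t₀ : ℝ} (hg : HasDerivAt g d t₀) (h0 : g t₀ = 0)
    (hd : d ≠ 0) : ∀ᶠ t in 𝓝[≠] t₀, 0 < g t * (d * (t - t₀)) := by
  have h1 := hasDerivAt_iff_tendsto_slope.1 hg
  have h2 : ∀ᶠ t in 𝓝[≠] t₀, 0 < slope g t₀ t * d :=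
    (h1.mul_const d).eventually (lt_mem_nhds (mul_self_pos.2 hd))
  filter_upwards [h2, self_mem_nhdsWithin] with t ht htne
  have hne : t - t₀ ≠ 0 := sub_ne_zero.2 htne
  rw [slope_def_field, h0, sub_zero] at ht
  have e : g t * (d * (t - t₀)) = g t / (t - t₀) * d * (t - t₀) ^ 2 := by field_simp
  rw [e]; positivity

namespace Cover

variable (C : Cover) {i : Fin 5}

/-- An arc of a closed class does not cross a unit circle centred in the class. -/
lemma cross_arc {γ : ℝ → ℂ} (hγ : Continuous γ) {v : ℂ} {t₀ d : ℝ}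
    (hd : HasDerivAt (fun t => dist (γ t) v ^ 2) d t₀) (hne : d ≠ 0) (h1 : dist (γ t₀) v = 1)
    (hK : ∀ᶠ t in 𝓝 t₀, γ t ∈ C.K i) (hv : v ∈ C.K i) : False := by
  have hs := eventually_sign (hd.sub_const 1) (by simp [h1]) hne
  obtain ⟨r, hr, hball⟩ := Metric.eventually_nhds_iff.1
    ((eventually_nhdsWithin_iff.1 hs).and hK)
  have hin : ∀ t ∈ Ioo (t₀ - r) (t₀ + r), dist t t₀ < r := fun t ht => by
    rw [Real.dist_eq, abs_lt]; constructor <;> linarith [ht.1, ht.2]
  have hsub : γ '' Ioo (t₀ - r) (t₀ + r) ⊆ C.K i := by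
    rintro _ ⟨t, ht, rfl⟩; exact (hball (hin t ht)).2
  have hp : IsPreconnected (γ '' Ioo (t₀ - r) (t₀ + r)) :=
    isPreconnected_Ioo.image _ hγ.continuousOn
  have mem : ∀ e : ℝ, |e| ≤ r / 2 → γ (t₀ + e) ∈ γ '' Ioo (t₀ - r) (t₀ + r) := fun e he =>
    ⟨_, ⟨by linarith [(abs_le.1 he).1], by linarith [(abs_le.1 he).2]⟩, rfl⟩
  have key : ∀ e : ℝ, e ≠ 0 → |e| ≤ r / 2 → 0 < (dist (γ (t₀ + e)) v ^ 2 - 1) * (d * e) := by
    intro e he0 he
    have := (hball (show dist (t₀ + e) t₀ < r by simpa using he.trans_lt (by linarith))).1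
      (by simpa using he0)
    simpa using this
  set e := r / 2 / d * |d| with he
  have he2 : |e| ≤ r / 2 := by
    rw [he, abs_mul, abs_div, abs_abs, abs_of_pos (half_pos hr), div_mul_cancel₀ _ (by simpa using hne)]
  have hde : 0 < d * e := by
    rw [he, ← mul_assoc, mul_div_cancel₀ _ hne]; positivity
  have e0 : e ≠ 0 := right_ne_zero_of_mul hde.ne'
  have p := key e e0 he2
  have n := key (-e) (neg_ne_zero.2 e0) (by rwa [abs_neg])
  exact C.cross hp hsub hv (mem (-e) (by rwa [abs_neg])) (mem e he2)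
    (dist_lt_one_of_sq (by nlinarith)) (one_lt_dist_of_sq (by nlinarith))

/-- Two points at distance one moving at rates `c₁`, `c₂`: if one stays in a class just on one
side, the other one avoids it just on the corresponding side. -/
lemma eventually_notMem_of_rates {h b h' b' : ℂ} (hD : ‖h' + b' - (h + b)‖ = 1)
    {c₁ c₂ : ℝ} (e₁ : c₁ = (I * b * conj (h' + b' - (h + b))).re)
    (e₂ : c₂ = (I * b' * conj (h' + b' - (h + b))).re) (n₁ : c₁ ≠ 0) (n₂ : c₂ ≠ 0)
    {σ : ℝ} (hσ : σ ≠ 0)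
    (hA : ∀ᶠ t in 𝓝[>] (0 : ℝ), orbit h' b' (σ * (c₁ / c₂) * t) ∈ C.K i) :
    ∀ᶠ t in 𝓝[>] (0 : ℝ), orbit h b (σ * t) ∉ C.K i := by
  have hder : ∀ k : ℝ, HasDerivAt (fun t => dist (orbit h' b' (k * t)) (orbit h b (σ * t)) ^ 2)
      (2 * (k * c₂ - σ * c₁)) 0 := by
    intro k
    have h1 := (hasDerivAt_orbit_mul h' b' k 0).sub (hasDerivAt_orbit_mul h b σ 0)
    have := h1.norm_sq
    convert this using 1
    · funext t; simp [dist_eq_norm]
    · subst e₁ e₂; simp [Complex.inner]; ring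
  have h0 : ∀ k : ℝ, dist (orbit h' b' (k * 0)) (orbit h b (σ * 0)) ^ 2 - 1 = 0 := fun k => by
    simp [dist_eq_norm, hD]
  set k := σ * (c₁ / c₂) with hk
  have hkc : k * c₂ = σ * c₁ := by rw [hk]; field_simp
  have s1 := (eventually_sign ((hder (1 / 2 * k)).sub_const 1) (h0 _)
    (by rw [mul_assoc, hkc]; intro hh; exact mul_ne_zero hσ n₁ (by linarith))).filter_mono
    (nhdsWithin_mono _ fun t ht => ne_of_gt ht)
  have s2 := (eventually_sign ((hder (3 / 2 * k)).sub_const 1) (h0 _)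
    (by rw [mul_assoc, hkc]; intro hh; exact mul_ne_zero hσ n₁ (by linarith))).filter_mono
    (nhdsWithin_mono _ fun t ht => ne_of_gt ht)
  obtain ⟨r, hr, hA'⟩ := Metric.eventually_nhds_iff.1 (eventually_nhdsWithin_iff.1 hA)
  have s3 : ∀ᶠ t in 𝓝[>] (0 : ℝ), t < 2 / 3 * r := nhdsWithin_le_nhds (eventually_lt_nhds (by linarith))
  filter_upwards [s1, s2, s3, self_mem_nhdsWithin] with t p1 p2 ht htpos hmem
  have htpos' : 0 < t := htpos
  have hsub : (fun s => orbit h' b' (k * s)) '' Icc (1 / 2 * t) (3 / 2 * t) ⊆ C.K i := by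
    rintro _ ⟨s, hs, rfl⟩
    exact hA' (by rw [Real.dist_eq, abs_lt]; constructor <;> linarith [hs.1, hs.2])
      (show (0 : ℝ) < s by linarith [hs.1])
  have hp : IsPreconnected ((fun s => orbit h' b' (k * s)) '' Icc (1 / 2 * t) (3 / 2 * t)) :=
    isPreconnected_Icc.image _ ((continuous_orbit h' b').comp (by fun_prop)).continuousOn
  have m1 : orbit h' b' (1 / 2 * k * t) ∈ (fun s => orbit h' b' (k * s)) '' Icc (1 / 2 * t) (3 / 2 * t) :=
    ⟨1 / 2 * t, ⟨le_rfl, by linarith⟩, by ring_nf⟩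
  have m2 : orbit h' b' (3 / 2 * k * t) ∈ (fun s => orbit h' b' (k * s)) '' Icc (1 / 2 * t) (3 / 2 * t) :=
    ⟨3 / 2 * t, ⟨by linarith, le_rfl⟩, by ring_nf⟩
  rw [sub_zero, show 1 / 2 * k * c₂ - σ * c₁ = -(1 / 2) * (σ * c₁) by rw [← hkc]; ring] at p1
  rw [sub_zero, show 3 / 2 * k * c₂ - σ * c₁ = 1 / 2 * (σ * c₁) by rw [← hkc]; ring] at p2
  rcases lt_or_gt_of_ne (mul_ne_zero hσ n₁) with hc | hc
  · have q : 0 < -(σ * c₁) * t := mul_pos (neg_pos.2 hc) htpos'
    refine C.cross hp hsub hmem m2 m1 (dist_lt_one_of_sq ?_) (one_lt_dist_of_sq ?_)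
    · by_contra hh; nlinarith [mul_nonneg (sub_nonneg.2 (not_lt.1 hh)) q.le]
    · by_contra hh; nlinarith [mul_nonneg (sub_nonneg.2 (not_lt.1 hh)) q.le]
  · have q : 0 < σ * c₁ * t := mul_pos hc htpos'
    refine C.cross hp hsub hmem m1 m2 (dist_lt_one_of_sq ?_) (one_lt_dist_of_sq ?_)
    · by_contra hh; nlinarith [mul_nonneg (sub_nonneg.2 (not_lt.1 hh)) q.le]
    · by_contra hh; nlinarith [mul_nonneg (sub_nonneg.2 (not_lt.1 hh)) q.le]

/-- A class seen arbitrarily near along a path contains the end of the path. -/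
lemma mem_K_of_frequently {h b : ℂ} {l : Filter ℝ} (hl : l ≤ 𝓝 0)
    (hf : ∃ᶠ t in l, orbit h b t ∈ C.K i) : h + b ∈ C.K i := by
  by_contra hn
  have h1 : ∀ᶠ t in 𝓝 (0 : ℝ), orbit h b t ∉ C.K i :=
    ((continuous_orbit h b).tendsto 0).eventually (by rw [orbit_zero]; exact C.eventually_notMem hn)
  exact hf (h1.filter_mono hl)

/-- Near a point of an open class the paths stay in its closure. -/
lemma eventually_mem_of_U {h b : ℂ} (hU : h + b ∈ C.U i) :
    ∀ᶠ t in 𝓝 (0 : ℝ), orbit h b t ∈ C.K i :=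
  (((continuous_orbit h b).tendsto 0).eventually
    ((C.isOpen i).eventually_mem (by rwa [orbit_zero]))).mono fun _ ht => C.subset_K i ht

/-- Finitely many closed sets have a common interval of constant membership in any interval. -/
lemma exists_stable {ι : Type*} [Finite ι] (D : ι → Set ℝ) (hD : ∀ a, IsClosed (D a))
    {J : Set ℝ} (hJ : IsOpen J) (hne : J.Nonempty) :
    ∃ t ∈ J, ∀ a, ∀ᶠ s in 𝓝 t, (s ∈ D a ↔ t ∈ D a) := by
  have hd : Dense (⋂ a, (frontier (D a))ᶜ) := by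
    refine dense_iInter_of_isOpen (fun a => isClosed_frontier.isOpen_compl) fun a => ?_
    exact interior_eq_empty_iff_dense_compl.1 (interior_frontier (hD a))
  obtain ⟨t, htJ, ht⟩ := hd.inter_open_nonempty J hJ hne
  refine ⟨t, htJ, fun a => ?_⟩
  have ha : t ∉ frontier (D a) := mem_iInter.1 ht a
  by_cases hm : t ∈ D a
  · have : t ∈ interior (D a) := by
      by_contra hni
      exact ha ⟨subset_closure hm, hni⟩
    filter_upwards [mem_interior_iff_mem_nhds.1 this] with s hs using ⟨fun _ => hm, fun _ => hs⟩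
  · filter_upwards [(hD a).isOpen_compl.eventually_mem hm] with s hs using
      ⟨fun h => absurd h hs, fun h => absurd h hm⟩

end Cover

end Vale.Agent.P032
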