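import Vale.Agent.P032.Plane.Mixture

/-!
P032: for measurable classes some point has almost every point of its unit circle outside three
classes, so finite configurations around it avoid three colours next to the centre.
-/

namespace Vale.Agent.P032.TwoColour

open Set Filter Topology Metric MeasureTheory Complex
open scoped ENNReal

/-- The unit circles about an angle set leave room for the class in a small ball. -/
lemma room {A : Set ℂ} (hA : NullMeasurableSet A volume) (hfree : ∀ a ∈ A, ∀ b ∈ A, dist a b ≠ 1)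
    {x u : ℂ} (hu : ‖u‖ = 1) {T : Set ℝ} (hT : T ⊆ Ioo (-1) 1)
    (hTA : ∀ t ∈ T, x + u * exp (t * I) ∈ A) {r : ℝ} (hr : 0 < r) (hr1 : r < 1) :
    volume (A ∩ closedBall x r) + ENNReal.ofReal (r ^ 2 / 4) * volume T ≤
      volume (closedBall x r) := by
  set H := toMeasurable volume (closedBall x r \ A) with hHdef
  conv_rhs => rw [← measure_inter_add_sdiff₀ (closedBall x r) hA]
  rw [inter_comm A]
  gcongr
  rw [← measure_toMeasurable (closedBall x r \ A), ← hHdef]
  have hH : MeasurableSet H := measurableSet_toMeasurable _ _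
  set φ : ℂ ≃ₗᵢ[ℝ] ℂ := rotation ⟨u, mem_sphere_zero_iff_norm.2 hu⟩
  set g : ℂ → ℂ := fun z => x + φ z
  have hg : MeasurePreserving g volume volume :=
    (measurePreserving_add_left volume x).comp φ.measurePreserving
  set G := g ⁻¹' H
  have hG : MeasurableSet G := hH.preimage hg.measurable
  rw [← hg.measure_preimage hH.nullMeasurableSet, ← lintegral_indicator_one hG,
    ← Complex.lintegral_comp_polarCoord_symm]
  have hmeas : Measurable fun p : ℝ × ℝ =>
      ENNReal.ofReal p.1 • G.indicator (1 : ℂ → ℝ≥0∞) (Complex.polarCoord.symm p) := by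
    simp only [Complex.polarCoord_symm_apply, smul_eq_mul]
    exact (ENNReal.measurable_ofReal.comp measurable_fst).mul
      (((measurable_one.indicator hG)).comp (Continuous.measurable (by fun_prop)))
  rw [polarCoord_target, Measure.volume_eq_prod, setLIntegral_prod _ hmeas.aemeasurable]
  calc ENNReal.ofReal (r ^ 2 / 4) * volume T
      = ∫⁻ _ in Ioo (r / 2) r, ENNReal.ofReal (r / 2) * volume T := by
        rw [setLIntegral_const, Real.volume_Ioo, show r - r / 2 = r / 2 by ring, mul_right_comm,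
          ← ENNReal.ofReal_mul (by positivity), show r / 2 * (r / 2) = r ^ 2 / 4 by ring]
    _ ≤ ∫⁻ ρ in Ioo (r / 2) r, ∫⁻ θ in Ioo (-Real.pi) Real.pi,
          ENNReal.ofReal ρ • G.indicator (1 : ℂ → ℝ≥0∞) (Complex.polarCoord.symm (ρ, θ)) := by
        refine setLIntegral_mono' measurableSet_Ioo fun ρ hρ => ?_
        have hp : Measurable fun θ : ℝ => Complex.polarCoord.symm (ρ, θ) := by
          simp only [Complex.polarCoord_symm_apply]
          exact Continuous.measurable (by fun_prop)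
        simp only [smul_eq_mul]
        have hm : Measurable fun θ : ℝ =>
            G.indicator (1 : ℂ → ℝ≥0∞) (Complex.polarCoord.symm (ρ, θ)) :=
          (measurable_one.indicator hG).comp hp
        rw [lintegral_const_mul _ hm]
        refine mul_le_mul' (ENNReal.ofReal_le_ofReal hρ.1.le) ?_
        have hpre : ∀ θ, G.indicator (1 : ℂ → ℝ≥0∞) (Complex.polarCoord.symm (ρ, θ)) =
            ((fun θ => Complex.polarCoord.symm (ρ, θ)) ⁻¹' G).indicator 1 θ := fun θ => rfl
        simp only [hpre]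
        rw [lintegral_indicator_one (hp hG), Measure.restrict_apply (hp hG)]
        set β := Real.arccos (ρ / 2)
        have hρ0 : 0 < ρ := lt_trans (by positivity) hρ.1
        have hcos : Real.cos β = ρ / 2 :=
          Real.cos_arccos (by linarith) (by linarith [hρ.2])
        have hβ0 : 0 ≤ β := Real.arccos_nonneg _
        have hβ1 : β ≤ Real.pi / 2 := Real.arccos_le_pi_div_two.2 (by positivity)
        rw [← measure_preimage_add_right volume (-β) T]
        refine measure_mono fun θ hθ => ?_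
        have ht : θ + -β ∈ Ioo (-1 : ℝ) 1 := hT hθ
        refine ⟨subset_toMeasurable _ _ ?_, by linarith [ht.1, Real.pi_gt_three],
          by linarith [ht.2, Real.pi_gt_three]⟩
        set z := x + φ (Complex.polarCoord.symm (ρ, θ)) with hz
        have hφ : ∀ w, φ w = u * w := fun w => rotation_apply _ w
        refine ⟨?_, fun hzA => hfree z hzA _ (hTA _ hθ) ?_⟩
        · show z ∈ closedBall x r
          rw [mem_closedBall, dist_eq_norm, hz, add_sub_cancel_left, φ.norm_map,
            Complex.norm_polarCoord_symm, abs_of_pos hρ0]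
          exact hρ.2.le
        · rw [dist_eq_norm, hz, add_sub_add_left_eq_sub, hφ, ← mul_sub, norm_mul, hu, one_mul]
          have e : Complex.polarCoord.symm (ρ, θ) - exp (((θ + -β : ℝ) : ℂ) * I) =
              ((ρ : ℂ) * exp ((β : ℂ) * I) - 1) * exp (((θ + -β : ℝ) : ℂ) * I) := by
            rw [sub_mul, mul_assoc, ← Complex.exp_add, ← add_mul, ← ofReal_add,
              show β + (θ + -β) = θ by ring, Complex.polarCoord_symm_apply, one_mul,
              Complex.exp_mul_I (θ : ℂ)]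
            simp only [ofReal_cos, ofReal_sin]
          rw [e, norm_mul, norm_exp_ofReal_mul_I, mul_one, ← Real.sqrt_sq (norm_nonneg _),
            ← Complex.normSq_eq_norm_sq, Complex.normSq_apply, Real.sqrt_eq_one]
          simp [Complex.exp_ofReal_mul_I_re, Complex.exp_ofReal_mul_I_im, hcos]
          have hs := Real.sin_sq_add_cos_sq β
          rw [hcos] at hs
          linear_combination ρ ^ 2 * hs
    _ ≤ _ := lintegral_mono_set fun ρ hρ => show (0 : ℝ) < ρ by linarith [hρ.1]

/-- A class that nearly fills arbitrarily small balls at `x` is absent from almost every point of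
the unit circle about `x`. -/
lemma absent {A : Set ℂ} (hA : NullMeasurableSet A volume) (hfree : ∀ a ∈ A, ∀ b ∈ A, dist a b ≠ 1)
    {x : ℂ} (hx : ∀ n : ℕ, ∃ r ∈ Ioo (0 : ℝ) (1 / (n + 1)),
      (1 - 1 / ((n : ℝ) + 1)) * (r ^ 2 * Real.pi) < Mixture.mass A x r) :
    ∀ᵐ t : ℝ, x + exp (t * I) ∉ A := by
  rw [ae_iff]
  simp only [not_not]
  have hcov : {t : ℝ | x + exp ((t : ℂ) * I) ∈ A} ⊆
      ⋃ q : ℤ, (fun t => t + -(q : ℝ)) ⁻¹'
        {t : ℝ | t ∈ Ioo (-1 : ℝ) 1 ∧ x + exp (((q : ℝ) : ℂ) * I) * exp ((t : ℂ) * I) ∈ A} := by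
    intro t ht
    refine mem_iUnion.2 ⟨⌊t⌋, ⟨by linarith [Int.floor_le t], by linarith [Int.lt_floor_add_one t]⟩, ?_⟩
    rwa [← Complex.exp_add, ← add_mul, ← ofReal_add,
      show (⌊t⌋ : ℝ) + (t + -(⌊t⌋ : ℝ)) = t by ring]
  refine measure_mono_null hcov (measure_iUnion_null fun q => ?_)
  rw [measure_preimage_add_right]
  set u : ℂ := exp (((q : ℝ) : ℂ) * I)
  set T := {t : ℝ | t ∈ Ioo (-1 : ℝ) 1 ∧ x + u * exp ((t : ℂ) * I) ∈ A}
  have hfin : volume T ≠ ∞ :=
    measure_ne_top_of_subset (fun _ h => h.1 : T ⊆ Ioo (-1 : ℝ) 1) measure_Ioo_lt_top.ne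
  suffices hle : ∀ n : ℕ, volume.real T ≤ 4 * Real.pi / (n + 1) by
    have : volume.real T ≤ 0 := ge_of_tendsto
      (tendsto_const_nhds.div_atTop (tendsto_natCast_atTop_atTop.atTop_add tendsto_const_nhds))
      (Eventually.of_forall hle)
    exact (measureReal_eq_zero_iff hfin).1 (le_antisymm this measureReal_nonneg)
  intro n
  obtain ⟨r, ⟨hr0, hrn⟩, hm⟩ := hx n
  have hn : (1 : ℝ) / (n + 1) ≤ 1 := by
    rw [div_le_one (by positivity)]; linarith [n.cast_nonneg (α := ℝ)]
  have h := room hA hfree (x := x) (norm_exp_ofReal_mul_I (q : ℝ)) (T := T) (fun _ h => h.1)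
    (fun _ h => h.2) hr0 (hrn.trans_le hn)
  have h' := ENNReal.toReal_mono measure_closedBall_lt_top.ne h
  rw [ENNReal.toReal_add (Mixture.finite_cap A x r) (ENNReal.mul_ne_top ENNReal.ofReal_ne_top hfin),
    ENNReal.toReal_mul, ENNReal.toReal_ofReal (by positivity)] at h'
  change Mixture.mass A x r + r ^ 2 / 4 * volume.real T ≤ volume.real (closedBall x r) at h'
  rw [Mixture.area_real x hr0.le] at h'
  rw [le_div_iff₀ (by positivity)]
  have h2 : r ^ 2 / 4 * volume.real T < 1 / ((n : ℝ) + 1) * (r ^ 2 * Real.pi) := by linarith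
  rw [div_mul_eq_mul_div, div_mul_eq_mul_div, div_lt_div_iff₀ (by norm_num) (by positivity)] at h2
  nlinarith [pow_pos hr0 2]

/-- In a measurable five-colouring some open set has a dense subset, each point of which has the
same three classes missing from almost every point of its unit circle. -/
theorem exists_region {A : Fin 5 → Set ℂ} (hmeas : ∀ i, NullMeasurableSet (A i) volume)
    (hfree : ∀ i, ∀ x ∈ A i, ∀ y ∈ A i, dist x y ≠ 1) (hcov : ∀ z, ∃ i, z ∈ A i) :
    ∃ (E S : Set ℂ) (i j k : Fin 5), IsOpen E ∧ E.Nonempty ∧ E ⊆ closure S ∧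
      i ≠ j ∧ i ≠ k ∧ j ≠ k ∧
      ∀ x ∈ S, ∀ l ∈ ({i, j, k} : Set (Fin 5)), ∀ᵐ t : ℝ, x + exp (t * I) ∉ A l := by
  classical
  obtain ⟨D, hD, hDn, h3, -⟩ := Mixture.exists_mixture A hmeas hfree hcov
  let live : Set ℂ → Finset (Fin 5) := fun E => Finset.univ.filter fun l => 0 < volume (A l ∩ E)
  have hex : ∃ m, ∃ E ⊆ D, IsOpen E ∧ E.Nonempty ∧ (live E).card = m :=
    ⟨_, D, subset_rfl, hD, hDn, rfl⟩
  obtain ⟨E, hED, hE, hEn, hEc⟩ := Nat.find_spec hex
  have hlive : ∀ E' ⊆ E, IsOpen E' → E'.Nonempty → ∀ l ∈ live E, 0 < volume (A l ∩ E') := by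
    intro E' hsub hE' hne l hl
    have hs : live E' ⊆ live E := fun m hm => by
      simp only [live, Finset.mem_filter, Finset.mem_univ, true_and] at hm ⊢
      exact hm.trans_le (measure_mono (inter_subset_inter_right _ hsub))
    have hle : (live E).card ≤ (live E').card :=
      hEc.le.trans (Nat.find_le ⟨E', hsub.trans hED, hE', hne, rfl⟩)
    rw [← Finset.eq_of_subset_of_card_le hs hle] at hl
    exact (Finset.mem_filter.1 hl).2
  let O : Fin 5 → ℕ → Set ℂ := fun l n => ⋃ r ∈ Ioo (0 : ℝ) (1 / (n + 1)),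
    {z | (1 - 1 / ((n : ℝ) + 1)) * (r ^ 2 * Real.pi) < Mixture.mass (A l) z r}
  have hO : ∀ l n, IsOpen (O l n) := fun l n => isOpen_biUnion fun r hr =>
    isOpen_lt continuous_const (Mixture.continuous_mass _ hr.1)
  let V : Fin 5 × ℕ → Set ℂ := fun p =>
    if p.1 ∈ live E then O p.1 p.2 ∪ (closure E)ᶜ else univ
  have hV : ∀ p, IsOpen (V p) ∧ Dense (V p) := by
    intro p
    simp only [V]
    split_ifs with hp
    swap
    · exact ⟨isOpen_univ, dense_univ⟩
    refine ⟨(hO _ _).union isClosed_closure.isOpen_compl, dense_iff_inter_open.2 fun U hU hUn => ?_⟩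
    by_cases hUE : (U ∩ E).Nonempty
    swap
    · obtain ⟨z, hz⟩ := hUn
      refine ⟨z, hz, Or.inr fun hc => ?_⟩
      exact hUE ((_root_.mem_closure_iff.1 hc) U hU hz)
    have hpos := hlive (U ∩ E) inter_subset_right (hU.inter hE) hUE p.1 hp
    obtain ⟨z, hz, hzd⟩ : ∃ z ∈ A p.1 ∩ (U ∩ E),
        Tendsto (Mixture.ratio (A p.1) z) (𝓝[>] 0) (𝓝 1) := by
      by_contra hne
      push Not at hne
      exact hpos.ne' (measure_mono_null
        (show A p.1 ∩ (U ∩ E) ⊆ {q ∈ A p.1 | ¬ Tendsto (Mixture.ratio (A p.1) q) (𝓝[>] 0) (𝓝 1)}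
          from fun z hz => ⟨hz.1, hne z hz⟩)
        (Mixture.density_null (hmeas p.1)))
    have h1 : Tendsto (fun r => (Mixture.ratio (A p.1) z r).toReal) (𝓝[>] 0) (𝓝 1) := by
      have := (ENNReal.tendsto_toReal ENNReal.one_ne_top).comp hzd
      rwa [ENNReal.toReal_one] at this
    obtain ⟨r, hr, hr'⟩ := ((h1.eventually (eventually_gt_nhds
      (show 1 - 1 / ((p.2 : ℝ) + 1) < 1 by
        linarith [show 0 < 1 / ((p.2 : ℝ) + 1) by positivity]))).and (Ioo_mem_nhdsGT
      (show (0 : ℝ) < 1 / ((p.2 : ℝ) + 1) by positivity))).exists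
    refine ⟨z, hz.2.1, Or.inl (mem_iUnion₂.2 ⟨r, hr', ?_⟩)⟩
    rw [Mixture.ratio, ENNReal.toReal_div] at hr
    change (1 - 1 / ((p.2 : ℝ) + 1)) < Mixture.mass (A p.1) z r / volume.real (closedBall z r) at hr
    rw [Mixture.area_real z hr'.1.le, lt_div_iff₀ (by have := hr'.1; positivity)] at hr
    exact hr
  obtain ⟨i, j, k, hij, hik, hjk, hi, hj, hk⟩ := h3 E hED hE hEn
  refine ⟨E, E ∩ ⋂ p, V p, i, j, k, hE, hEn, fun z hz => ?_, hij, hik, hjk,
    fun x ⟨hxE, hxV⟩ l hl => absent (hmeas l) (hfree l) fun n => ?_⟩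
  · exact hE.inter_closure
      ⟨hz, dense_iInter_of_isOpen (fun p => (hV p).1) (fun p => (hV p).2) z⟩
  have hlL : l ∈ live E := by
    simp only [live, Finset.mem_filter, Finset.mem_univ, true_and]
    rcases hl with rfl | rfl | rfl <;> assumption
  have := mem_iInter.1 hxV (l, n)
  simp only [V, if_pos hlL] at this
  rcases this with h | h
  · obtain ⟨r, hr, h'⟩ := mem_iUnion₂.1 h
    exact ⟨r, hr, h'⟩
  · exact absurd (subset_closure hxE) h

/-- In a measurable five-colouring some point has three classes missing from almost every point of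
its unit circle. -/
theorem exists_point {A : Fin 5 → Set ℂ} (hmeas : ∀ i, NullMeasurableSet (A i) volume)
    (hfree : ∀ i, ∀ x ∈ A i, ∀ y ∈ A i, dist x y ≠ 1) (hcov : ∀ z, ∃ i, z ∈ A i) :
    ∃ x : ℂ, ∃ i j k, i ≠ j ∧ i ≠ k ∧ j ≠ k ∧
      ∀ l ∈ ({i, j, k} : Set (Fin 5)), ∀ᵐ t : ℝ, x + exp (t * I) ∉ A l := by
  obtain ⟨E, S, i, j, k, -, hEn, hES, h1, h2, h3, h⟩ := exists_region hmeas hfree hcov
  obtain ⟨x, hx⟩ := closure_nonempty_iff.1 (hEn.mono hES)
  exact ⟨x, i, j, k, h1, h2, h3, h x hx⟩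

lemma other_two : ∀ i j k : Fin 5, i ≠ j → i ≠ k → j ≠ k →
    ∃ a b : Fin 5, a ≠ b ∧ ∀ l, l ≠ i → l ≠ j → l ≠ k → l = a ∨ l = b := by
  decide

/-- Turning about that point, every finite point set is five-coloured with only two colours at
distance 1 from the origin. -/
theorem exists_two {x : ℂ} {c : ℂ → Fin 5} (hc : ∀ z w, dist z w = 1 → c z ≠ c w)
    {i j k : Fin 5} (hij : i ≠ j) (hik : i ≠ k) (hjk : j ≠ k)
    (h : ∀ᵐ t : ℝ, c (x + exp (t * I)) ∉ ({i, j, k} : Set (Fin 5))) (P : Finset ℂ) :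
    ∃ f : ℂ → Fin 5, (∀ p ∈ P, ∀ q ∈ P, dist p q = 1 → f p ≠ f q) ∧
      ∀ p ∈ P, ‖p‖ = 1 → f p = 0 ∨ f p = 1 := by
  have hall : ∀ᵐ t : ℝ, ∀ p ∈ P, ‖p‖ = 1 →
      c (x + exp (t * I) * p) ∉ ({i, j, k} : Set (Fin 5)) := by
    rw [eventually_all_finset]
    intro p _
    by_cases hp : ‖p‖ = 1
    swap
    · exact Eventually.of_forall fun _ h => absurd h hp
    filter_upwards [(measurePreserving_add_right volume p.arg).quasiMeasurePreserving.ae h]
      with t ht _
    have he : exp ((p.arg : ℂ) * I) = p := by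
      simpa [hp] using Complex.norm_mul_exp_arg_mul_I p
    rwa [ofReal_add, add_mul, Complex.exp_add, he] at ht
  obtain ⟨t, ht⟩ := hall.exists
  obtain ⟨a, b, hab, hrest⟩ := other_two i j k hij hik hjk
  refine ⟨fun p => ((Equiv.swap a 0).trans (Equiv.swap (Equiv.swap a 0 b) 1))
      (c (x + exp (t * I) * p)), fun p _ q _ hpq he => hc _ _ ?_ (Equiv.injective _ he), ?_⟩
  · rwa [dist_add_left, dist_eq_norm, ← mul_sub, norm_mul, norm_exp_ofReal_mul_I, one_mul,
      ← dist_eq_norm]
  intro p hp hp1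
  have hne := ht p hp hp1
  simp only [mem_insert_iff, mem_singleton_iff, not_or] at hne
  rcases hrest _ hne.1 hne.2.1 hne.2.2 with h' | h' <;> simp only [h', Equiv.trans_apply]
  · left
    rw [Equiv.swap_apply_left]
    exact Equiv.swap_apply_of_ne_of_ne
      (fun h0 => hab ((Equiv.swap a 0).injective (by rw [Equiv.swap_apply_left]; exact h0)))
      (by decide)
  · exact Or.inr (Equiv.swap_apply_left _ _)

end Vale.Agent.P032.TwoColour
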