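import Vale.Agent.P032.Plane.Invariance
import Vale.Agent.P032.Plane.TwoColour

/-!
P032: the plane has no proper five-colouring with Lebesgue measurable classes.

Near a suitable point the circles use two colours, each of full outer measure on one of them, so
these colours are null in a disc of radius two, where the Moser spindle then needs a fourth colour.
-/

namespace Vale.Agent.P032.NoFive

open Set Filter Topology Metric MeasureTheory Complex
open scoped ENNReal
open Vale.Agent.P032.Circle

/-- A class absent, up to inner measure, from the circle about `x` is null in the disc of radius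
two about `x`. -/
lemma null_disc {c : ℂ → Fin 5} (hc : ∀ z w, dist z w = 1 → c z ≠ c w) {l : Fin 5}
    (hm : NullMeasurableSet {z | c z = l} volume) {x : ℂ}
    (h : ∀ K : Set ℝ, MeasurableSet K → (∀ t ∈ K, c (x + pt t) ≠ l) → volume K = 0) :
    volume ({z | c z = l} ∩ ball x 2) = 0 := by
  obtain ⟨B, hBA, hB, hBeq⟩ := hm.exists_measurable_subset_ae_eq
  rw [← measure_congr (hBeq.inter (ae_eq_refl (ball x 2))), inter_comm,
    ← measure_preimage_add volume x]
  set G := (fun w => x + w) ⁻¹' (ball x 2 ∩ B)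
  have hG : MeasurableSet G := (measurableSet_ball.inter hB).preimage (measurable_const_add x)
  have hmeas : Measurable fun p : ℝ × ℝ =>
      ENNReal.ofReal p.1 • G.indicator (1 : ℂ → ℝ≥0∞) (Complex.polarCoord.symm p) := by
    simp only [Complex.polarCoord_symm_apply, smul_eq_mul]
    exact (ENNReal.measurable_ofReal.comp measurable_fst).mul
      ((measurable_one.indicator hG).comp (Continuous.measurable (by fun_prop)))
  rw [← lintegral_indicator_one hG, ← Complex.lintegral_comp_polarCoord_symm, polarCoord_target,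
    Measure.volume_eq_prod, setLIntegral_prod _ hmeas.aemeasurable]
  refine setLIntegral_eq_zero measurableSet_Ioi fun ρ hρ => ?_
  have hρ0 : 0 < ρ := hρ
  rw [Pi.zero_apply]
  rw [lintegral_eq_zero_iff (f := fun t => ENNReal.ofReal ρ • G.indicator (1 : ℂ → ℝ≥0∞)
    (Complex.polarCoord.symm (ρ, t))) (hmeas.comp measurable_prodMk_left)]
  refine ae_restrict_of_ae ?_
  have hp : ∀ t, Complex.polarCoord.symm (ρ, t) = (ρ : ℂ) * pt t := fun t => by
    rw [Complex.polarCoord_symm_apply, pt, Complex.exp_mul_I, ofReal_cos, ofReal_sin]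
  by_cases hρ2 : ρ < 2
  · set β := Real.arccos (ρ / 2)
    set K := {u : ℝ | x + (ρ : ℂ) * pt (u - β) ∈ B}
    have hK : MeasurableSet K := hB.preimage
      (Continuous.measurable (by have := continuous_pt; fun_prop))
    have h0 : volume K = 0 := h K hK fun u hu => by
      have hne := hc (x + (ρ : ℂ) * pt (u - β)) (x + pt u) ?_
      · rw [show c (x + (ρ : ℂ) * pt (u - β)) = l from hBA hu] at hne
        exact Ne.symm hne
      have hd := dist_ang (s := 1) (z := (ρ : ℂ)) (Or.inl rfl)
        (by rw [norm_real, Real.norm_eq_abs, abs_of_pos hρ0]; exact hρ2.le)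
      rw [ang, arg_ofReal_of_nonneg hρ0.le, norm_real, Real.norm_eq_abs, abs_of_pos hρ0, zero_add,
        one_mul] at hd
      rw [dist_add_left, dist_eq_norm, show pt u = pt (u - β) * pt β by rw [← pt_add]; ring_nf,
        mul_comm, ← mul_sub, norm_mul, norm_pt, one_mul, hd]
    filter_upwards [(measurePreserving_add_right volume β).quasiMeasurePreserving.ae
      (measure_eq_zero_iff_ae_notMem.1 h0)] with t ht
    rw [Pi.zero_apply, indicator_of_notMem, smul_zero]
    refine fun hG' => ht ?_
    show x + (ρ : ℂ) * pt (t + β - β) ∈ B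
    rw [add_sub_cancel_right, ← hp]
    exact hG'.2
  · refine Eventually.of_forall fun t => ?_
    simp only [Pi.zero_apply]
    rw [indicator_of_notMem, smul_zero]
    intro hG'
    have := hG'.1
    rw [mem_ball, dist_eq_norm, add_sub_cancel_left, Complex.norm_polarCoord_symm,
      abs_of_pos hρ0] at this
    exact hρ2 this

/-- The plane has no proper five-colouring with measurable classes. -/
theorem no_five (c : ℂ → Fin 5) (hc : ∀ z w, dist z w = 1 → c z ≠ c w)
    (hm : ∀ i, NullMeasurableSet {z | c z = i} volume) : False := by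
  obtain ⟨E, S, i, j, k, hE, hEn, hES, hij, hik, hjk, hS⟩ := TwoColour.exists_region hm
    (fun i z hz w hw h => hc z w h (hz.trans hw.symm)) (fun z => ⟨c z, rfl⟩)
  obtain ⟨l, m, hlm, hrest⟩ := TwoColour.other_two i j k hij hik hjk
  have htwo : ∀ y ∈ S, ∀ᵐ t : ℝ, c (y + pt t) = l ∨ c (y + pt t) = m := fun y hy => by
    filter_upwards [hS y hy i (by simp), hS y hy j (by simp), hS y hy k (by simp)] with t a b d
    exact hrest _ a b d
  obtain ⟨z₀, hz₀⟩ := hEn
  obtain ⟨δ, hδ, hδE⟩ := Metric.isOpen_iff.1 hE z₀ hz₀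
  obtain ⟨x, hxS, hxz⟩ := Metric.mem_closure_iff.1 (hES hz₀) (δ / 2) (by linarith)
  have hdense : ball (0 : ℂ) (δ / 2) ⊆ closure ((fun d => x + d) ⁻¹' S) := fun d hd => by
    change d ∈ closure ((Homeomorph.addLeft x) ⁻¹' S)
    rw [← Homeomorph.preimage_closure]
    refine hES (hδE ?_)
    rw [mem_ball] at hd ⊢
    calc dist (x + d) z₀ ≤ dist (x + d) x + dist x z₀ := dist_triangle _ _ _
      _ < δ := by
        have : dist (x + d) x = dist d 0 := by simp [dist_eq_norm]
        rw [this, dist_comm x]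
        linarith
  have hnull : ∀ e, e = l ∨ e = m → volume ({z | c z = e} ∩ ball x 2) = 0 := by
    intro e he
    refine null_disc hc (hm e) fun K hK hKe => ?_
    rcases he with he | he
    · exact full_measure hc (half_pos hδ) hdense (htwo x hxS) (fun d hd => htwo _ hd) hK
        fun t ht => he ▸ hKe t ht
    · exact full_measure (l := m) (m := l) hc (half_pos hδ) hdense
        ((htwo x hxS).mono fun t ht => ht.symm)
        (fun d hd => (htwo _ hd).mono fun t ht => ht.symm) hK fun t ht => he ▸ hKe t ht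
  -- the Moser spindle
  set w : ℂ := ⟨1 / 2, Real.sqrt 3 / 2⟩
  set v : ℂ := ⟨5 / 6, Real.sqrt 11 / 6⟩
  have s3 : Real.sqrt 3 ^ 2 = 3 := Real.sq_sqrt (by norm_num)
  have s11 : Real.sqrt 11 ^ 2 = 11 := Real.sq_sqrt (by norm_num)
  have hns : ∀ z : ℂ, z.re * z.re + z.im * z.im = 1 → ‖z‖ = 1 := fun z h => by
    rw [← pow_left_inj₀ (norm_nonneg _) zero_le_one two_ne_zero, one_pow,
      ← Complex.normSq_eq_norm_sq, Complex.normSq_apply, h]
  have hw : ‖w‖ = 1 := hns _ (by simp only [w]; linear_combination s3 / 4)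
  have hv : ‖v‖ = 1 := hns _ (by simp only [v]; linear_combination s11 / 36)
  have hw1 : ‖(1 : ℂ) - w‖ = 1 := hns _ (by simp [w]; linear_combination s3 / 4)
  have hfar : ‖(1 + w) - v * (1 + w)‖ = 1 := hns _ (by
    simp [w, v]
    linear_combination (1 / 144 * Real.sqrt 11 ^ 2 + 1 / 144) * s3 + 1 / 12 * s11)
  have hlong : ‖1 + w‖ < 2 - 1 / 10 := by
    refine lt_of_pow_lt_pow_left₀ 2 (by norm_num) ?_
    rw [← Complex.normSq_eq_norm_sq, Complex.normSq_apply]
    simp [w]
    linarith [show (1 + (2 : ℝ)⁻¹) * (1 + 2⁻¹) + Real.sqrt 3 / 2 * (Real.sqrt 3 / 2) = 3 by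
      linear_combination s3 / 4]
  obtain ⟨z, hz, hgood⟩ : ∃ z ∈ ball x (1 / 10), ∀ p ∈ ({0, 1, w, 1 + w, v, v * w, v * (1 + w)} :
      Finset ℂ), c (z + p) ≠ l ∧ c (z + p) ≠ m := by
    have hae : ∀ᵐ z ∂volume.restrict (ball x (1 / 10)),
        ∀ p ∈ ({0, 1, w, 1 + w, v, v * w, v * (1 + w)} : Finset ℂ),
          c (z + p) ≠ l ∧ c (z + p) ≠ m := by
      rw [eventually_all_finset]
      intro p hp
      have hp2 : ‖p‖ < 2 - 1 / 10 := by
        simp only [Finset.mem_insert, Finset.mem_singleton] at hp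
        rcases hp with rfl | rfl | rfl | rfl | rfl | rfl | rfl <;>
          first | exact hlong | (rw [norm_mul, hv, one_mul]; exact hlong) | norm_num [norm_mul, hv, hw]
      suffices key : ∀ e, e = l ∨ e = m → ∀ᵐ z ∂volume.restrict (ball x (1 / 10)), c (z + p) ≠ e from
        (key l (Or.inl rfl)).and (key m (Or.inr rfl))
      intro e he
      · rw [ae_restrict_iff' measurableSet_ball, ae_iff]
        simp only [Classical.not_imp, ne_eq, not_not]
        refine measure_mono_null (fun y hy => ?_)
          ((measure_preimage_add_right volume p _).trans (hnull e he))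
        refine ⟨hy.2, mem_ball.2 ?_⟩
        calc dist (y + p) x ≤ dist (y + p) y + dist y x := dist_triangle _ _ _
          _ < 2 := by
            have : dist (y + p) y = ‖p‖ := by simp [dist_eq_norm]
            linarith [mem_ball.1 hy.1]
    have : (ae (volume.restrict (ball x (1 / 10)))).NeBot := ae_restrict_neBot.2
      (measure_ball_pos volume x (by norm_num)).ne'
    exact ((ae_restrict_mem measurableSet_ball).and hae).exists
  have hcol : ∀ p ∈ ({0, 1, w, 1 + w, v, v * w, v * (1 + w)} : Finset ℂ),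
      c (z + p) = i ∨ c (z + p) = j ∨ c (z + p) = k := fun p hp => by
    by_contra hne
    simp only [not_or] at hne
    rcases hrest _ hne.1 hne.2.1 hne.2.2 with h | h
    exacts [(hgood p hp).1 h, (hgood p hp).2 h]
  have hadj : ∀ p q : ℂ, ‖p - q‖ = 1 → c (z + p) ≠ c (z + q) := fun p q h =>
    hc _ _ (by rw [dist_add_left, dist_eq_norm, h])
  have four : ∀ p q r s : Fin 5, (p = i ∨ p = j ∨ p = k) → (q = i ∨ q = j ∨ q = k) →
      (r = i ∨ r = j ∨ r = k) → (s = i ∨ s = j ∨ s = k) → p ≠ q → p ≠ r → q ≠ r → s ≠ q → s ≠ r →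
      s = p := by
    intro p q r s hp hq hr hs hpq hpr hqr hsq hsr
    grind
  have e1 : c (z + (1 + w)) = c (z + 0) :=
    four _ _ _ _ (hcol 0 (by simp)) (hcol 1 (by simp)) (hcol w (by simp)) (hcol (1 + w) (by simp))
      (hadj _ _ (by simp)) (hadj _ _ (by simp [hw])) (hadj _ _ hw1) (hadj _ _ (by simp [hw]))
      (hadj _ _ (by simp))
  have e2 : c (z + v * (1 + w)) = c (z + 0) :=
    four _ _ _ _ (hcol 0 (by simp)) (hcol v (by simp)) (hcol (v * w) (by simp))
      (hcol (v * (1 + w)) (by simp)) (hadj _ _ (by simp [hv])) (hadj _ _ (by simp [hv, hw]))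
      (hadj _ _ (by rw [← mul_one_sub, norm_mul, hv, hw1, one_mul]))
      (hadj _ _ (by rw [mul_add, mul_one, add_sub_cancel_left, norm_mul, hv, hw, one_mul]))
      (hadj _ _ (by rw [mul_add, mul_one, add_sub_cancel_right, hv]))
  exact hadj _ _ hfar (e1.trans e2.symm)

end Vale.Agent.P032.NoFive
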