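import Vale.Agent.P032.Plane.Mixture

/-!
P032: a class of locally finite perimeter, or just with linearly small translates in one direction,
contains segments of positive upper density, so it is null where no such segment exists.
-/

namespace Vale.Agent.P032.Perimeter

open Set Filter Topology Metric MeasureTheory Complex
open scoped ENNReal

/-- The points where membership in `S` changes over the step `h`. -/
def Bad {α : Type*} [Add α] (S : Set α) (h : α) : Set α := {x | ¬ (x ∈ S ↔ x + h ∈ S)}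

/-- A change of the mass in a window costs changes of membership in between. -/
lemma window_le {S : Set ℝ} (hS : MeasurableSet S) {u v h : ℝ} (huv : u ≤ v) (hh : 0 ≤ h) :
    volume (S ∩ Ioc u (u + h)) ≤
      volume (S ∩ Ioc v (v + h)) + volume (Ioc u v ∩ Bad S h) := by
  have split : ∀ x y z : ℝ, x ≤ y → y ≤ z →
      volume (S ∩ Ioc x z) = volume (S ∩ Ioc x y) + volume (S ∩ Ioc y z) := fun x y z h1 h2 => by
    rw [← Ioc_union_Ioc_eq_Ioc h1 h2, inter_union_distrib_left,
      measure_union ((Ioc_disjoint_Ioc_of_le le_rfl).mono inter_subset_right inter_subset_right)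
        (hS.inter measurableSet_Ioc)]
  have hshift : volume (S ∩ Ioc u v) ≤
      volume (S ∩ Ioc (u + h) (v + h)) + volume (Ioc u v ∩ Bad S h) := by
    rw [← measure_preimage_add_right volume h (S ∩ Ioc (u + h) (v + h))]
    refine (measure_mono ?_).trans (measure_union_le _ _)
    rintro x ⟨hxS, hx⟩
    by_cases hb : x + h ∈ S
    · exact Or.inl ⟨hb, by linarith [hx.1], by linarith [hx.2]⟩
    · exact Or.inr ⟨hx, fun e => hb (e.1 hxS)⟩
  have e := split u v (v + h) huv (by linarith)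
  rw [split u (u + h) (v + h) (by linarith) (by linarith)] at e
  refine (ENNReal.add_le_add_iff_right
    (measure_ne_top_of_subset inter_subset_right measure_Ioc_lt_top.ne :
      volume (S ∩ Ioc (u + h) (v + h)) ≠ ∞)).1 ?_
  rw [e]
  calc volume (S ∩ Ioc u v) + volume (S ∩ Ioc v (v + h))
      ≤ volume (S ∩ Ioc (u + h) (v + h)) + volume (Ioc u v ∩ Bad S h) +
          volume (S ∩ Ioc v (v + h)) := by gcongr
    _ = _ := by ring

/-- A point of full density of `S` in front of one of density zero costs half a step. -/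
lemma change_le {S : Set ℝ} (hS : MeasurableSet S) {u v : ℝ} (huv : u < v)
    (hu : Tendsto (fun r => volume (S ∩ closedBall u r) / volume (closedBall u r)) (𝓝[>] 0) (𝓝 1))
    (hv : Tendsto (fun r => volume (S ∩ closedBall v r) / volume (closedBall v r)) (𝓝[>] 0) (𝓝 0)) :
    ∀ᶠ h in 𝓝[>] (0 : ℝ),
      ENNReal.ofReal (h / 2) ≤ volume (Ioc (u - h / 2) (v - h / 2) ∩ Bad S h) := by
  have half : Tendsto (fun h : ℝ => h / 2) (𝓝[>] 0) (𝓝[>] 0) :=
    tendsto_nhdsWithin_iff.2 ⟨tendsto_nhdsWithin_of_tendsto_nhds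
      (by simpa using (tendsto_id (x := 𝓝 (0 : ℝ))).div_const 2),
      eventually_mem_nhdsWithin.mono fun h (hh : 0 < h) => show 0 < h / 2 by positivity⟩
  filter_upwards [(hu.comp half).eventually (eventually_gt_nhds (show ENNReal.ofReal (3 / 4) < 1 by
      simp; norm_num)),
    (hv.comp half).eventually (eventually_lt_nhds (show (0 : ℝ≥0∞) < ENNReal.ofReal (1 / 4) by simp)),
    self_mem_nhdsWithin] with h h1 h2 (hh : 0 < h)
  have win : ∀ x : ℝ, volume (S ∩ closedBall x (h / 2)) =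
      volume (S ∩ Ioc (x - h / 2) (x - h / 2 + h)) := fun x => by
    rw [Real.closedBall_eq_Icc, show x - h / 2 + h = x + h / 2 by ring]
    exact measure_congr ((ae_eq_refl S).inter Ioc_ae_eq_Icc.symm)
  have len : ∀ x : ℝ, volume (closedBall x (h / 2)) = ENNReal.ofReal h := fun x => by
    rw [Real.volume_closedBall]; ring_nf
  simp only [Function.comp, win, len] at h1 h2
  have h0 : ENNReal.ofReal h ≠ 0 := by simpa using hh
  rw [ENNReal.lt_div_iff_mul_lt (Or.inl h0) (Or.inl ENNReal.ofReal_ne_top),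
    ← ENNReal.ofReal_mul (by norm_num)] at h1
  rw [ENNReal.div_lt_iff (Or.inl h0) (Or.inl ENNReal.ofReal_ne_top),
    ← ENNReal.ofReal_mul (by norm_num)] at h2
  refine (ENNReal.add_le_add_iff_left
    (ENNReal.ofReal_ne_top (r := 1 / 4 * h))).1 ?_
  rw [← ENNReal.ofReal_add (by positivity) (by positivity),
    show 1 / 4 * h + h / 2 = 3 / 4 * h by ring]
  exact (h1.le.trans (window_le hS (show u - h / 2 ≤ v - h / 2 by linarith) hh.le)).trans
    (add_le_add h2.le le_rfl)

/-- If membership in `S` changes at most linearly often, `S` fills an interval almost everywhere. -/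
lemma exists_interval {S : Set ℝ} (hS : MeasurableSet S) {a b M : ℝ}
    (hpos : volume (S ∩ Ioo a b) ≠ 0)
    (hM : ∃ᶠ h in 𝓝[>] (0 : ℝ), volume (Ioo a b ∩ Bad S h) ≤ ENNReal.ofReal (M * h)) :
    ∃ p q : ℚ, a ≤ p ∧ (p : ℝ) < q ∧ (q : ℝ) ≤ b ∧ volume (Ioo (p : ℝ) q \ S) = 0 := by
  by_contra hno
  push Not at hno
  have hgood := Besicovitch.ae_tendsto_measure_inter_div_of_measurableSet volume hS
  have next1 : ∀ x, volume (S ∩ Ioo x b) ≠ 0 → ∃ u ∈ S, x < u ∧ u < b ∧
      Tendsto (fun r => volume (S ∩ closedBall u r) / volume (closedBall u r)) (𝓝[>] 0) (𝓝 1) ∧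
      volume (S ∩ Ioo u b) ≠ 0 := by
    intro x hx
    set T := {u | u ∈ S ∩ Ioo x b ∧ volume (S ∩ Ioo u b) = 0}
    have hT : volume T = 0 := by
      have hs : {u ∈ T | ∀ u' ∈ T, u ≤ u'}.Subsingleton := fun p hp q hq =>
        le_antisymm (hp.2 q hq.1) (hq.2 p hp.1)
      refine measure_mono_null (fun u hu => ?_) (measure_union_null (hs.measure_zero _)
        ((measure_biUnion_null_iff (to_countable {q : ℚ | volume (S ∩ Ioo (q : ℝ) b) = 0})).2
          fun q hq => hq))
      by_cases h : ∀ u' ∈ T, u ≤ u'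
      · exact Or.inl ⟨hu, h⟩
      · push Not at h
        obtain ⟨u', hu', hlt⟩ := h
        obtain ⟨q, hq1, hq2⟩ := exists_rat_btwn hlt
        exact Or.inr (mem_iUnion₂.2 ⟨q, measure_mono_null
          (inter_subset_inter_right S (Ioo_subset_Ioo_left hq1.le)) hu'.2, hu.1.1, hq2, hu.1.2.2⟩)
    obtain ⟨u, hu, hd, hu0⟩ := Measure.exists_mem_of_measure_ne_zero_of_ae hx (ae_restrict_of_ae
      (hgood.and (measure_eq_zero_iff_ae_notMem.1 hT)))
    rw [indicator_of_mem hu.1, Pi.one_apply] at hd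
    exact ⟨u, hu.1, hu.2.1, hu.2.2, hd, fun h0 => hu0 ⟨hu, h0⟩⟩
  suffices key : ∀ k : ℕ, ∀ x ≥ a, volume (S ∩ Ioo x b) ≠ 0 → ∀ᶠ h in 𝓝[>] (0 : ℝ),
      ENNReal.ofReal (k * (h / 2)) ≤ volume (Ioo x b ∩ Bad S h) by
    obtain ⟨k, hk⟩ := exists_nat_gt (2 * M)
    obtain ⟨h, h1, h2, hh : 0 < h⟩ :=
      (hM.and_eventually ((key k a le_rfl hpos).and self_mem_nhdsWithin)).exists
    rcases le_or_gt (M * h) 0 with hMh | hMh
    · obtain ⟨h', g1, g2, hh' : 0 < h'⟩ :=
        (hM.and_eventually ((key 1 a le_rfl hpos).and self_mem_nhdsWithin)).exists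
      have := g2.trans g1
      rw [ENNReal.ofReal_le_ofReal_iff'] at this
      rcases this with h3 | h3
      · have : M ≤ 0 := nonpos_of_mul_nonpos_left hMh hh
        push_cast at h3; nlinarith
      · push_cast at h3; linarith
    · have := (ENNReal.ofReal_le_ofReal_iff hMh.le).1 (h2.trans h1)
      nlinarith
  intro k
  induction k with
  | zero => intro x _ _; simp
  | succ k ih =>
    intro x hxa hx
    obtain ⟨u, huS, hxu, hub, hdu, hu⟩ := next1 x hx
    obtain ⟨w, hwS, huw, hwb, -, hw⟩ := next1 u hu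
    obtain ⟨p, hp1, hp2⟩ := exists_rat_btwn huw
    obtain ⟨q, hq1, hq2⟩ := exists_rat_btwn hp2
    obtain ⟨v, hv, hdv⟩ := Measure.exists_mem_of_measure_ne_zero_of_ae
      (hno p q (by linarith) hq1 (by linarith)) (ae_restrict_of_ae hgood)
    rw [indicator_of_notMem hv.2] at hdv
    have hvb : volume (S ∩ Ioo v b) ≠ 0 := fun h0 => hw (measure_mono_null
      (inter_subset_inter_right S (Ioo_subset_Ioo_left (by linarith [hv.1.2]))) h0)
    have huv : u < v := hp1.trans hv.1.1
    filter_upwards [ih v (by linarith) hvb, change_le hS huv hdu hdv,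
      Ioo_mem_nhdsGT (show (0 : ℝ) < 2 * (u - x) by linarith)] with h h1 h2 h3
    have hsplit : Ioc (u - h / 2) (v - h / 2) ∩ Bad S h ∪ Ioo v b ∩ Bad S h ⊆ Ioo x b ∩ Bad S h := by
      rintro t (⟨⟨t1, t2⟩, ht⟩ | ⟨⟨t1, t2⟩, ht⟩) <;>
        exact ⟨⟨by linarith [h3.1, h3.2], by linarith [h3.1, hv.1.2]⟩, ht⟩
    have hmeasBad : MeasurableSet (Bad S h) :=
      ((measurableSet_setOfPred.1 hS).iff (measurableSet_setOfPred.1 (hS.preimage
        (measurable_id.add_const h)))).not.setOf
    refine le_trans ?_ (measure_mono hsplit)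
    rw [measure_union (disjoint_left.2 fun t ht ht' => by linarith [ht.1.2, ht'.1.1, h3.1])
      (measurableSet_Ioo.inter hmeasBad), show ((k + 1 : ℕ) : ℝ) * (h / 2) = h / 2 + k * (h / 2) by
        push_cast; ring, ENNReal.ofReal_add (by linarith [h3.1]) (by nlinarith [h3.1, k.cast_nonneg (α := ℝ)])]
    exact add_le_add h2 h1

/-- A planar set with linearly small horizontal translates and positive area in an open set has a
segment there all of whose points have positive upper density. -/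
lemma exists_segment {A D : Set ℂ} (hA : MeasurableSet A) (hD : IsOpen D)
    (hpos : volume (A ∩ D) ≠ 0)
    (hB : ∀ R : ℝ, ∃ C : ℝ, ∃ᶠ h : ℝ in 𝓝[>] (0 : ℝ),
      volume (closedBall 0 R ∩ Bad A (h : ℂ)) ≤ ENNReal.ofReal (C * h)) :
    ∃ K ⊆ D, IsPreconnected K ∧ K.Nontrivial ∧
      ∀ z ∈ K, ¬ Tendsto (Mixture.ratio A z) (𝓝[>] 0) (𝓝 0) := by
  obtain ⟨z0, hz0, hz0pos⟩ := exists_mem_forall_mem_nhdsWithin_pos_measure hpos
  obtain ⟨ρ, hρ, hb⟩ := Metric.isOpen_iff.1 hD z0 hz0.2
  set σ := ρ / 4 with hσ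
  set I := Ioo (z0.re - σ) (z0.re + σ) with hI
  set J := Ioo (z0.im - σ) (z0.im + σ) with hJ
  have hQ : ∀ x ∈ I, ∀ y ∈ J, dist (⟨x, y⟩ : ℂ) z0 < 2 * σ := by
    intro x hx y hy
    rw [dist_eq_norm]
    refine (norm_le_abs_re_add_abs_im _).trans_lt ?_
    have h5 : |x - z0.re| < σ := abs_lt.2 ⟨by linarith [hx.1], by linarith [hx.2]⟩
    have h6 : |y - z0.im| < σ := abs_lt.2 ⟨by linarith [hy.1], by linarith [hy.2]⟩
    simp only [sub_re, sub_im]
    linarith
  let S : ℝ → Set ℝ := fun y => {x | (⟨x, y⟩ : ℂ) ∈ A}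
  have hP : MeasurableSet (measurableEquivRealProd.symm ⁻¹' A) :=
    hA.preimage measurableEquivRealProd.symm.measurable
  have hS : ∀ y, MeasurableSet (S y) := fun y => hP.preimage measurable_prodMk_right
  have hvol : ∀ Z : Set ℂ, MeasurableSet Z →
      volume Z = ∫⁻ y, volume {x : ℝ | (⟨x, y⟩ : ℂ) ∈ Z} := by
    intro Z hZ
    rw [← volume_preserving_equiv_real_prod.symm.measure_preimage hZ.nullMeasurableSet,
      Measure.volume_eq_prod, Measure.prod_apply_symm
        (hZ.preimage measurableEquivRealProd.symm.measurable)]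
    rfl
  have hline : ∀ Z : Set ℂ, MeasurableSet Z → Measurable fun y => volume {x : ℝ | (⟨x, y⟩ : ℂ) ∈ Z} :=
    fun Z hZ => measurable_measure_prodMk_right (μ := (volume : Measure ℝ))
      (hZ.preimage measurableEquivRealProd.symm.measurable)
  obtain ⟨C, hC⟩ := hB (dist z0 0 + ρ)
  obtain ⟨η, hη, hCη⟩ := exists_seq_forall_of_frequently (hC.and_eventually self_mem_nhdsWithin)
  set Q : Set ℂ := I ×ℂ J with hQdef
  have hQm : MeasurableSet Q := (isOpen_Ioo.reProdIm isOpen_Ioo).measurableSet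
  have hQsub : Q ⊆ closedBall 0 (dist z0 0 + ρ) := fun z hz => by
    rw [mem_closedBall]
    have := hQ z.re hz.1 z.im hz.2
    linarith [dist_triangle z z0 0]
  have hbadm : ∀ h : ℝ, MeasurableSet (Bad A (h : ℂ)) := fun h =>
    ((measurableSet_setOfPred.1 hA).iff (measurableSet_setOfPred.1 (hA.preimage
      (measurable_id.add_const (h : ℂ))))).not.setOf
  set N : ℕ → ℝ → ℝ≥0∞ := fun n y =>
    volume {x : ℝ | (⟨x, y⟩ : ℂ) ∈ Q ∩ Bad A (η n : ℂ)} / ENNReal.ofReal (η n)
  have hN : ∀ n, Measurable (N n) := fun n => (hline _ (hQm.inter (hbadm _))).div_const _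
  have hNint : ∀ n, ∫⁻ y, N n y ≤ ENNReal.ofReal C := fun n => by
    simp only [N, div_eq_mul_inv]
    rw [lintegral_mul_const _ (hline _ (hQm.inter (hbadm _))), ← hvol _ (hQm.inter (hbadm _)),
      ← div_eq_mul_inv]
    refine ENNReal.div_le_of_le_mul ?_
    rw [← ENNReal.ofReal_mul' (le_of_lt (hCη n).2)]
    exact (measure_mono (inter_subset_inter_left _ hQsub)).trans (hCη n).1
  have hfin : ∀ᵐ y, liminf (fun n => N n y) atTop < ∞ := by
    refine ae_lt_top (Measurable.liminf hN) (ne_top_of_le_ne_top (ENNReal.ofReal_ne_top (r := C)) ?_)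
    exact (lintegral_liminf_le hN).trans (liminf_le_of_frequently_le'
      (Frequently.of_forall hNint))
  let Y : ℚ → ℚ → Set ℝ := fun p q =>
    {y | y ∈ J ∧ z0.re - σ ≤ p ∧ (p : ℝ) < q ∧ (q : ℝ) ≤ z0.re + σ ∧
      volume (Ioo (p : ℝ) q \ S y) = 0}
  obtain ⟨p, q, hY⟩ : ∃ p q, volume (Y p q) ≠ 0 := by
    by_contra hnone
    push Not at hnone
    refine (hz0pos (A ∩ D ∩ Q) (inter_mem self_mem_nhdsWithin (mem_nhdsWithin_of_mem_nhds
      ((isOpen_Ioo.reProdIm isOpen_Ioo).mem_nhds ?_)))).ne' ?_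
    · exact ⟨⟨by linarith, by linarith⟩, by linarith, by linarith⟩
    rw [inter_right_comm]
    refine measure_mono_null inter_subset_left ?_
    rw [hvol _ (hA.inter hQm), lintegral_eq_zero_iff (hline _ (hA.inter hQm))]
    have hnull : ∀ᵐ y, ∀ p q, y ∉ Y p q :=
      ae_all_iff.2 fun p => ae_all_iff.2 fun q => measure_eq_zero_iff_ae_notMem.1 (hnone p q)
    filter_upwards [hfin, hnull] with y hy hyY
    simp only [Pi.zero_apply]
    by_cases hyJ : y ∈ J
    swap
    · exact measure_mono_null (fun x hx => (hyJ hx.2.2).elim) measure_empty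
    by_contra h0
    obtain ⟨M, hM1, hM2⟩ := exists_between hy
    have hfr : ∃ᶠ n in atTop, N n y < M := frequently_lt_of_liminf_lt (by isBoundedDefault) hM1
    have hη' : Tendsto η atTop (𝓝[>] 0) := hη
    obtain ⟨p, q, h1, h2, h3, h4⟩ := exists_interval (hS y) (M := M.toReal)
      (a := z0.re - σ) (b := z0.re + σ)
      (fun h => h0 (measure_mono_null (fun x hx => by exact ⟨hx.1, hx.2.1⟩) h)) (by
        refine hη'.frequently (hfr.mono fun n hn => ?_)
        rw [ENNReal.ofReal_mul' (le_of_lt (hCη n).2), ENNReal.ofReal_toReal hM2.ne]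
        refine le_trans (measure_mono ?_) ((ENNReal.div_le_iff
          (by simpa using (hCη n).2) ENNReal.ofReal_ne_top).1 hn.le)
        rintro x ⟨hx, hxb⟩
        refine ⟨⟨hx, hyJ⟩, fun e => hxb ?_⟩
        have : (⟨x, y⟩ : ℂ) + (η n : ℂ) = ⟨x + η n, y⟩ := by apply Complex.ext <;> simp
        rw [this] at e
        exact e)
    exact hyY p q ⟨hyJ, h1, h2, h3, h4⟩
  obtain ⟨y0, ⟨hy0J, hp, hpq, hq, -⟩, hy0⟩ := Measure.exists_mem_of_measure_ne_zero_of_ae hY
    (Besicovitch.ae_tendsto_measure_inter_div volume (Y p q))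
  have hK : ∀ x ∈ Ioo (p : ℝ) q, x ∈ I := fun x hx =>
    ⟨by linarith [hx.1], by linarith [hx.2]⟩
  refine ⟨(fun x : ℝ => (⟨x, y0⟩ : ℂ)) '' Ioo (p : ℝ) q, ?_, isPreconnected_Ioo.image _ ?_, ?_, ?_⟩
  · rintro _ ⟨x, hx, rfl⟩
    exact hb (mem_ball.2 (by linarith [hQ x (hK x hx) y0 hy0J]))
  · exact (show Continuous fun x : ℝ => (⟨x, y0⟩ : ℂ) from
      equivRealProdCLM.symm.continuous.comp (continuous_id.prodMk continuous_const)).continuousOn
  · exact (Set.Nontrivial.image ((Ioo_infinite hpq).nontrivial)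
      fun x x' h => congrArg Complex.re h)
  rintro _ ⟨x, hx, rfl⟩ ht
  have hev : ∀ᶠ r in 𝓝[>] (0 : ℝ),
      ENNReal.ofReal (1 / 16) ≤ Mixture.ratio A (⟨x, y0⟩ : ℂ) r := by
    have half : Tendsto (fun r : ℝ => r / 2) (𝓝[>] 0) (𝓝[>] 0) :=
      tendsto_nhdsWithin_iff.2 ⟨tendsto_nhdsWithin_of_tendsto_nhds
        (by simpa using (tendsto_id (x := 𝓝 (0 : ℝ))).div_const 2),
        eventually_mem_nhdsWithin.mono fun h (hh : 0 < h) => show 0 < h / 2 by positivity⟩
    filter_upwards [(hy0.comp half).eventually (eventually_gt_nhds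
        (show ENNReal.ofReal (1 / 2) < 1 by simp)),
      Ioo_mem_nhdsGT (show (0 : ℝ) < min (x - p) (q - x) from
        lt_min (by linarith [hx.1]) (by linarith [hx.2]))] with r hr hr'
    have hrp : 0 < r := hr'.1
    simp only [Function.comp, Real.volume_closedBall] at hr
    rw [ENNReal.lt_div_iff_mul_lt (Or.inl (by simp [hrp])) (Or.inl ENNReal.ofReal_ne_top),
      ← ENNReal.ofReal_mul (by norm_num), show 1 / 2 * (2 * (r / 2)) = r / 2 by ring] at hr
    have hsub : Ioo (x - r / 2) (x + r / 2) ⊆ Ioo (p : ℝ) q := Ioo_subset_Ioo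
      (by linarith [hr'.2, min_le_left (x - p) (q - x)])
      (by linarith [hr'.2, min_le_right (x - p) (q - x)])
    have hlow : ENNReal.ofReal (r * (r / 2)) ≤ volume (A ∩ closedBall (⟨x, y0⟩ : ℂ) r) := by
      rw [hvol _ (hA.inter measurableSet_closedBall)]
      set W := {y | ENNReal.ofReal r ≤ volume {t : ℝ | (⟨t, y⟩ : ℂ) ∈ A ∩ closedBall ⟨x, y0⟩ r}}
      have hW : Y p q ∩ closedBall y0 (r / 2) ⊆ W := by
        rintro y ⟨hy, hy'⟩
        rw [mem_closedBall, Real.dist_eq] at hy'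
        show ENNReal.ofReal r ≤ _
        refine le_trans ?_ (measure_mono (μ := volume)
          (show Ioo (x - r / 2) (x + r / 2) ∩ S y ⊆ _ from fun t ht => ⟨ht.2, ?_⟩))
        · rw [measure_inter_conull'
              (measure_mono_null (fun t ht => by exact ⟨hsub ht.1, ht.2⟩) hy.2.2.2.2),
            Real.volume_Ioo]
          exact ENNReal.ofReal_le_ofReal (by linarith)
        · rw [mem_closedBall, dist_eq_norm]
          refine (norm_le_abs_re_add_abs_im _).trans ?_
          have h5 : |t - x| ≤ r / 2 := abs_le.2 ⟨by linarith [ht.1.1], by linarith [ht.1.2]⟩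
          simp only [sub_re, sub_im]
          linarith
      calc ENNReal.ofReal (r * (r / 2)) = ENNReal.ofReal r * ENNReal.ofReal (r / 2) :=
            ENNReal.ofReal_mul hrp.le
        _ ≤ ENNReal.ofReal r * volume W := by gcongr; exact hr.le.trans (measure_mono hW)
        _ ≤ _ := mul_meas_ge_le_lintegral₀ (hline _ (hA.inter measurableSet_closedBall)).aemeasurable _
    rw [Mixture.ratio, ENNReal.le_div_iff_mul_le (Or.inl (measure_closedBall_pos _ _ hrp).ne')
      (Or.inl measure_closedBall_lt_top.ne)]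
    refine le_trans ?_ hlow
    rw [Complex.volume_closedBall, ← ENNReal.ofReal_pow hrp.le, ← ENNReal.ofReal_coe_nnreal,
      NNReal.coe_real_pi, ← ENNReal.ofReal_mul (by positivity), ← ENNReal.ofReal_mul (by norm_num)]
    exact ENNReal.ofReal_le_ofReal (by nlinarith [Real.pi_lt_d2, Real.pi_pos])
  obtain ⟨r, hr1, hr2⟩ := (hev.and (ht.eventually (eventually_lt_nhds
    (show (0 : ℝ≥0∞) < ENNReal.ofReal (1 / 16) by simp)))).exists
  exact absurd hr1 (not_le.2 hr2)

/-- A class with linearly small translates in one direction is null where the class has no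
connected piece of positive upper density. -/
theorem null_of_perimeter {A D : Set ℂ} (hA : NullMeasurableSet A volume) (hD : IsOpen D)
    (hK : ∀ K ⊆ D, IsPreconnected K → (∀ z ∈ K, ¬ Tendsto
      (fun r => volume (A ∩ closedBall z r) / volume (closedBall z r)) (𝓝[>] 0) (𝓝 0)) →
        K.Subsingleton)
    {u : ℂ} (hu : ‖u‖ = 1)
    (hB : ∀ R : ℝ, ∃ C : ℝ, ∃ᶠ h : ℝ in 𝓝[>] (0 : ℝ),
      volume (closedBall 0 R ∩ Bad A (h • u)) ≤ ENNReal.ofReal (C * h)) :
    volume (A ∩ D) = 0 := by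
  set φ : ℂ ≃ₗᵢ[ℝ] ℂ := rotation ⟨u, mem_sphere_zero_iff_norm.2 hu⟩ with hφdef
  have hφ : ∀ z, φ z = u * z := fun z => rotation_apply _ z
  have hp : MeasurePreserving φ volume volume := φ.measurePreserving
  have hv : ∀ s : Set ℂ, volume (φ ⁻¹' s) = volume s :=
    hp.measure_preimage_emb φ.toHomeomorph.measurableEmbedding
  obtain ⟨A0, hA0, hAe⟩ : ∃ A0, MeasurableSet A0 ∧ A =ᵐ[volume] A0 :=
    ⟨_, measurableSet_toMeasurable _ _, hA.toMeasurable_ae_eq.symm⟩
  have hratio : ∀ z r, volume (φ ⁻¹' A0 ∩ closedBall z r) / volume (closedBall z r) =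
      volume (A ∩ closedBall (φ z) r) / volume (closedBall (φ z) r) := fun z r => by
    rw [show closedBall z r = φ ⁻¹' closedBall (φ z) r by
        ext w; simp only [mem_closedBall, mem_preimage, φ.dist_map],
      ← preimage_inter, hv, hv, measure_congr (EventuallyEq.inter hAe.symm (ae_eq_refl _) : (A0 ∩ closedBall (φ z) r : Set ℂ) =ᵐ[volume] (A ∩ closedBall (φ z) r : Set ℂ))]
  by_contra h0
  obtain ⟨K, hKD, hKc, hKn, hKd⟩ := exists_segment (A := φ ⁻¹' A0) (D := φ ⁻¹' D)
    (hA0.preimage φ.continuous.measurable) (hD.preimage φ.continuous)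
    (by rwa [← preimage_inter, hv, measure_congr (EventuallyEq.inter hAe.symm (ae_eq_refl _) : (A0 ∩ D : Set ℂ) =ᵐ[volume] (A ∩ D : Set ℂ))]) fun R => by
      obtain ⟨C, hC⟩ := hB R
      refine ⟨C, hC.mono fun h hh => ?_⟩
      rw [← hv (closedBall 0 R ∩ Bad A (h • u))] at hh
      refine le_trans (le_of_eq (measure_congr ?_)) hh
      have e2 : (fun z => z + (h : ℂ)) ⁻¹' (φ ⁻¹' A0) =ᵐ[volume]
          (fun z => z + (h : ℂ)) ⁻¹' (φ ⁻¹' A) :=
        (measurePreserving_add_right volume (h : ℂ)).quasiMeasurePreserving.preimage_ae_eq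
          (hp.quasiMeasurePreserving.preimage_ae_eq hAe.symm)
      refine eventuallyEq_set.2 ?_
      filter_upwards [(hp.quasiMeasurePreserving.preimage_ae_eq hAe.symm).mem_iff, e2.mem_iff]
        with z h1 h2
      simp only [mem_inter_iff, mem_preimage, Bad, mem_ofPred_eq, mem_closedBall, dist_zero_right,
        φ.norm_map] at h1 h2 ⊢
      have hz : φ (z + (h : ℂ)) = φ z + h • u := by
        rw [hφ, hφ, mul_add, real_smul, mul_comm (h : ℂ)]
      rw [hz] at h2
      simp only [hz, h1, h2]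
  have := hK (φ '' K) (image_subset_iff.2 hKD) (hKc.image _ φ.continuous.continuousOn) (by
    rintro _ ⟨z, hz, rfl⟩ ht
    exact hKd z hz (ht.congr fun r => (hratio z r).symm))
  exact not_subsingleton_iff.2 (hKn.image φ.injective) this

end Vale.Agent.P032.Perimeter
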